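import Vale.Agent.P269.Ch.Eu
import Vale.Agent.P269.Holo.Normal
import Vale.Agent.P269.Holo.Proper

/-!
# Complex orbifolds presented inside a representation; tangent and orbit bundles
-/

set_option linter.unusedSectionVars false

namespace Vale.Agent.P269.Loc

open Set Function Topology Filter Module Vale.Agent.P291Z Vale.Agent.P269.Ch Vale.Agent.P269.Holo

section gen

variable {T A W : Type*} [TopologicalSpace T] [NormedAddCommGroup A] [NormedSpace ℂ A]
  [NormedAddCommGroup W] [NormedSpace ℂ W]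

theorem isClosed_of_proj {F : T → Submodule ℂ W} (h : ∀ t, ∃ P : T → W →L[ℂ] W,
    ContinuousAt P t ∧ ∀ᶠ x in 𝓝 t, ∀ w, w ∈ F x ↔ P x w = w) :
    IsClosed {x : T × W | x.2 ∈ F x.1} := by
  refine isClosed_iff_frequently.2 fun x hx => ?_
  obtain ⟨P, h1, h2⟩ := h x.1
  refine (h2.self_of_nhds _).2 (tendsto_nhds_unique_of_frequently_eq
    (f := fun y : T × W => P y.1 y.2) (g := fun y => y.2) (l := 𝓝 x) ?_ continuousAt_snd ?_)
  · exact (h1.comp continuousAt_fst).clm_apply continuousAt_snd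
  · exact (hx.and_eventually (continuousAt_fst.eventually h2)).mono fun y hy => (hy.2 _).1 hy.1

/-- local holomorphic retractions onto a submanifold -/
theorem exists_retr [CompleteSpace A] {ι : T → A} {n : ℕ} {t : T} (h : IsMfd ι n t) :
    ∃ r : A → A, ∀ᶠ x in 𝓝 t, AnalyticAt ℂ r (ι x) ∧ r (ι x) = ι x ∧
      (∀ v, fderiv ℂ r (ι x) v ∈ tan ι x) ∧ ∀ v ∈ tan ι x, fderiv ℂ r (ι x) v = v := by
  have hc := h.cont
  obtain ⟨ψ, hψ, rfl⟩ := h
  obtain ⟨w, h1, h2, -, h4, -⟩ := hψ.exists_inv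
  have hw : Tendsto (fun s => w (ι s)) (𝓝 (ψ 0)) (𝓝 0) := by
    have := h1.continuousAt.comp hc
    rwa [ContinuousAt, comp_apply, h2] at this
  refine ⟨fun a => ι (ψ (w a)), ?_⟩
  filter_upwards [hc.eventually h1.eventually_analyticAt, hw.eventually hψ.eventually,
    h4.eventually_nhds] with x e1 e2 e3
  have e4 := e3.self_of_nhds
  have an : AnalyticAt ℂ (fun a => ι (ψ (w a))) (ι x) := e2.an.comp (f := w) e1
  refine ⟨an, by rw [e4], fun v => ?_, fun v hv => ?_⟩
  · have := fderiv_mem_tan (ι := ι) (u := fun a => ψ (w a)) (e2.lh.cont.comp (f := w) e1.continuousAt)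
      an v
    rwa [e4] at this
  · have := hv (fun a => ι (ψ (w a)) - a) (an.sub analyticAt_id)
      (e3.mono fun s hs => by rw [hs, sub_self])
    rw [fderiv_fun_sub an.differentiableAt differentiableAt_fun_id, fderiv_fun_id] at this
    exact sub_eq_zero.1 this

theorem isClosed_tan [CompleteSpace A] {ι : T → A} {n : ℕ} (h : ∀ t, IsMfd ι n t) :
    IsClosed {x : T × A | x.2 ∈ tan ι x.1} :=
  isClosed_of_proj fun t => by
    obtain ⟨r, hr⟩ := exists_retr (h t)
    exact ⟨fun x => fderiv ℂ r (ι x), hr.self_of_nhds.1.fderiv.continuousAt.comp (h t).cont,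
      hr.mono fun x hx v => ⟨hx.2.2.2 v, fun e => e ▸ hx.2.2.1 v⟩⟩

end gen

/-- A complex orbifold of dimension `n`, presented by an invariant submanifold `T` of a
representation `A` of a complex Lie group `G` with Lie algebra `L`. -/
structure HO extends Sp where
  /-- the Lie algebra -/
  L : Type
  /-- the ambient representation -/
  A : Type
  [nL : NormedAddCommGroup L]
  [sL : NormedSpace ℂ L]
  [fL : FiniteDimensional ℂ L]
  [nA : NormedAddCommGroup A]
  [sA : NormedSpace ℂ A]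
  [fA : FiniteDimensional ℂ A]
  [aA : DistribMulAction G A]
  [cA : SMulCommClass G ℂ A]
  [tA : ContinuousSMul G A]
  /-- the exponential map -/
  κ : L → G
  /-- the embedding -/
  ι : T → A
  /-- the dimension of the orbifold -/
  n : ℕ
  exp : IsExp κ
  an : ∀ a : A, AnalyticAt ℂ (fun p : L × A => κ p.1 • p.2) (0, a)
  emb : IsEmbedding ι
  eqv : ∀ (g : G) t, ι (g • t) = g • ι t
  mfd : ∀ t, IsMfd ι (finrank ℂ L + n) t

attribute [instance] HO.nL HO.sL HO.fL HO.nA HO.sA HO.fA HO.aA HO.cA HO.tA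

namespace HO

variable (Y : HO)

instance : CompleteSpace Y.A := FiniteDimensional.complete ℂ _

instance : CompleteSpace Y.L := FiniteDimensional.complete ℂ _

theorem cι : Continuous Y.ι := Y.emb.continuous

theorem hol (t : Y.T) : HolAct Y.κ Y.ι t :=
  ⟨fun p => Y.κ p.1 • p.2, Y.an _, Eventually.of_forall fun _ => Y.eqv _ _⟩

theorem eventually_stab (t : Y.T) : ∀ᶠ g in 𝓝 (1 : Y.G), g • t = t → g = 1 := by
  obtain ⟨τ, -, h⟩ := Y.free t
  filter_upwards [(tendsto_inl (1 : Y.G) t).eventually h] with g hg e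
  rw [e] at hg
  exact mul_eq_right.1 hg.symm

/-- the infinitesimal action -/
noncomputable abbrev inf (t : Y.T) : Y.L →L[ℂ] Y.A := Holo.inf Y.κ Y.ι t

theorem inf_inj (t : Y.T) : Injective (Y.inf t) :=
  (Y.hol t).inf_injective Y.exp (Y.mfd t).eventually_eq (Y.eventually_stab t)

theorem exists_slK (t : Y.T) : ∃ φ : (Fin Y.n → ℂ) → Y.T, φ 0 = t ∧ IsSlK Y.κ Y.ι φ 0 :=
  (Y.mfd t).exists_slK Y.exp (Y.hol t) (Y.inf_inj t) rfl

theorem smul_mem_tan (g : Y.G) (t : Y.T) (v : Y.A) (hv : v ∈ tan Y.ι t) :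
    g • v ∈ tan Y.ι (g • t) := by
  have := (Y.mfd t).fderiv_mem_tan (ι' := Y.ι) (u := fun s => g • s) (by fun_prop)
    ((Ch.lin Y.A g).analyticAt _) (Eventually.of_forall fun s => Y.eqv g s) hv
  rwa [ContinuousLinearMap.fderiv] at this

/-- the tangent bundle of the space upstairs -/
@[reducible] noncomputable def tanB : VB Y.toSp where
  W := Y.A
  F := tan Y.ι
  r := finrank ℂ Y.L + Y.n
  closed := isClosed_tan Y.mfd
  rank t := (Y.mfd t).finrank_tan
  inv := Y.smul_mem_tan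

theorem inf_eq (t : Y.T) : Y.inf t = (fderiv ℂ (fun p : Y.L × Y.A => Y.κ p.1 • p.2) (0, Y.ι t)).comp
    (ContinuousLinearMap.inl ℂ _ _) := ContinuousLinearMap.ext fun x => by
  rw [ContinuousLinearMap.comp_apply, ContinuousLinearMap.inl_apply, ← fderiv_inl (Y.an _)]
  simp only [Holo.inf, Y.eqv]

theorem holAt_inf (t : Y.T) : HolAt Y.ι Y.inf t := by
  rw [show Y.inf = _ from funext Y.inf_eq]
  exact (HolAt.of_an (Φ := fun a => fderiv ℂ (fun p : Y.L × Y.A => Y.κ p.1 • p.2) (0, a))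
    ((Y.an _).fderiv.comp (f := fun a => ((0 : Y.L), a)) (by fun_prop))).clm_comp (HolAt.const _)

theorem continuous_inf : Continuous Y.inf :=
  continuous_iff_continuousAt.2 fun t => (Y.holAt_inf t).cont Y.cι.continuousAt

theorem an_orbit (t : Y.T) : AnalyticAt ℂ (fun x => Y.ι (Y.κ x • t)) 0 := (Y.hol t).an_orbit

theorem smul_inf (g : Y.G) (t : Y.T) (x : Y.L) : ∃ y, Y.inf (g • t) y = g • Y.inf t x := by
  obtain ⟨k, h0, h1, h2, h3⟩ := Y.exp.lh.exists_inv
  rw [Y.exp.zero] at h0 h1 h3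
  have hc : Tendsto (fun y => g * Y.κ y * g⁻¹) (𝓝 0) (𝓝 1) := by
    have := (Y.exp.tendsto.const_mul g).mul_const g⁻¹
    rwa [mul_one, mul_inv_cancel] at this
  have hk : Tendsto (fun y => k (g * Y.κ y * g⁻¹)) (𝓝 0) (𝓝 0) := by
    have := h1.cont.tendsto.comp hc
    rwa [h0] at this
  have e : ∀ᶠ y in 𝓝 0, Y.ι (Y.κ (k (g * Y.κ y * g⁻¹)) • g • t) = g • Y.ι (Y.κ y • t) :=
    (hc.eventually h3).mono fun y hy => by rw [hy, smul_smul, inv_mul_cancel_right, mul_smul, Y.eqv]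
  obtain ⟨w, hw, hw'⟩ := exists_leftInv (Y.an_orbit (g • t)) (Y.inf_inj (g • t))
  have a1 : AnalyticAt ℂ (fun y => g • Y.ι (Y.κ y • t)) 0 :=
    ((Ch.lin Y.A g).analyticAt _).comp (Y.an_orbit t)
  have e0 : g * Y.κ 0 * g⁻¹ = 1 := by rw [Y.exp.zero, mul_one, mul_inv_cancel]
  have a2 : AnalyticAt ℂ (fun y => k (g * Y.κ y * g⁻¹)) 0 :=
    (hw.comp_of_eq a1 (by rw [← e.self_of_nhds, e0, h0])).congr
      ((e.and (hk.eventually hw')).mono fun y hy => by rw [comp_apply, ← hy.1, hy.2])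
  have e1 := fderiv_comp_an (g := fun x => Y.ι (Y.κ x • g • t)) (by rw [e0, h0]; exact Y.an_orbit _) a2
  rw [e0, h0, EventuallyEq.fderiv_eq e] at e1
  refine ⟨_, (DFunLike.congr_fun e1 x).symm.trans ?_⟩
  exact DFunLike.congr_fun ((Ch.lin Y.A g).hasFDerivAt.comp (0 : Y.L)
    (Y.an_orbit t).differentiableAt.hasFDerivAt).fderiv x

/-- the bundle of the tangent spaces of the orbits -/
@[reducible] noncomputable def orbB : VB Y.toSp where
  W := Y.A
  F t := LinearMap.range (Y.inf t : Y.L →ₗ[ℂ] Y.A)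
  r := finrank ℂ Y.L
  closed := isClosed_of_proj (F := fun t => LinearMap.range (Y.inf t : Y.L →ₗ[ℂ] Y.A)) fun t => by
    obtain ⟨p, h1, h2⟩ := IsFrame.exists_leftInv (V := {x | x.2 ∈ range (Y.inf x.1)})
      ⟨Y.holAt_inf t, Y.inf_inj t, Eventually.of_forall fun _ _ => Iff.rfl⟩ Y.cι.continuousAt
    refine ⟨fun x => (Y.inf x).comp (p x), Y.continuous_inf.continuousAt.clm_comp
      (h1.cont Y.cι.continuousAt), h2.mono fun x hx w => ⟨?_, fun e => ⟨_, e⟩⟩⟩
    rintro ⟨a, rfl⟩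
    exact congrArg (Y.inf x) (hx a)
  rank t := LinearMap.finrank_range_of_inj (Y.inf_inj t)
  inv := by
    rintro g t _ ⟨x, rfl⟩
    exact Y.smul_inf g t x

theorem inf_mem_tan (t : Y.T) (x : Y.L) : Y.inf t x ∈ tan Y.ι t := (Y.hol t).inf_mem_tan Y.exp x

end HO

end Vale.Agent.P269.Loc
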