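import Vale.Agent.P269.Loc.TH

/-!
# Fundamental class and virtual class of the Borel construction
-/

set_option linter.unusedSectionVars false
set_option linter.style.haveILetI false

namespace Vale.Agent.P269.Loc

open Set Function Topology Filter Module MvPolynomial Vale.Agent.P291Z Vale.Agent.P269.Ch
  Vale.Agent.P269.Holo Vale.Agent.P269.Orb

section change

variable {G T X A A' : Type} [Group G] [TopologicalSpace G] [TopologicalSpace T] [MulAction G T]
  [TopologicalSpace X] [NormedAddCommGroup A] [NormedSpace ℂ A] [NormedAddCommGroup A']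
  [NormedSpace ℂ A'] {ι : T → A} {ι' : T → A'} {n : ℕ}

theorem isSlice_change {φ : (Fin n → ℂ) → T} (h : IsSlice G ι φ) (h1 : HolAt ι ι' (φ 0))
    (h2 : HolAt ι' ι (φ 0)) : IsSlice G ι' φ := by
  have hc := h.cont
  obtain ⟨l, a, w, hw, e⟩ := h
  obtain ⟨Φ, hΦ, eΦ⟩ := h1
  obtain ⟨Ψ, hΨ, eΨ⟩ := h2
  have ht : Tendsto (fun x : G × (Fin n → ℂ) => x.1 • φ x.2) (𝓝 (1, 0)) (𝓝 (φ 0)) := by
    have := LH.cont l
    rwa [ContinuousAt, one_smul] at this
  refine ⟨l, (AnalyticAt.comp_of_eq hΦ a rfl).congr ((hc.eventually eΦ).mono fun z hz => hz.symm),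
    fun v => w (Ψ v), AnalyticAt.comp_of_eq hw hΨ eΨ.self_of_nhds.symm, ?_⟩
  filter_upwards [e, ht.eventually eΨ] with x h3 h4
  rw [← h4, h3]

/-- the fundamental class does not depend on the holomorphic coordinates -/
theorem fundQ_change (h1 : ∀ t, HolAt ι ι' t) (h2 : ∀ t, HolAt ι' ι t) (π : T → X) :
    fundQ G ι π n = fundQ G ι' π n := by
  have : slCh G ι π n = slCh G ι' π n := funext fun ψ => funext fun m => propext
    ⟨fun ⟨φ, h, e⟩ => ⟨φ, isSlice_change h (h1 _) (h2 _), e⟩,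
      fun ⟨φ, h, e⟩ => ⟨φ, isSlice_change h (h2 _) (h1 _), e⟩⟩
  rw [fundQ, fundQ, this]

end change

variable {σ : Type} [Fintype σ]

theorem an_coord {V : Type} [NormedAddCommGroup V] [NormedSpace ℂ V] {m : ℕ} (i : σ) (j : Fin m)
    (p : V × (σ → Fin m → ℂ)) : AnalyticAt ℂ (fun q : V × (σ → Fin m → ℂ) => q.2 i j) p :=
  (((ContinuousLinearMap.proj (R := ℂ) (φ := fun _ : Fin m => ℂ) j).comp
    ((ContinuousLinearMap.proj (R := ℂ) (φ := fun _ : σ => Fin m → ℂ) i).comp
      (ContinuousLinearMap.snd ℂ V _))).analyticAt p :)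

/-- the zeroth approximation is a product with the torus -/
noncomputable def TS.baseH {Y : Ch.Sp} (a : TS σ Y) : Y.T × Tor σ ≃ₜ Y.T × PM σ 0 where
  toFun x := (a.a x.2 x.1, x.2 • PM.one)
  invFun x := (a.a (PM.unit x.2)⁻¹ x.1, PM.unit x.2)
  left_inv x := by simp only [PM.unit_smul, PM.unit_one, mul_one, a.inv_a]
  right_inv x := by simp only [PM.unit_smul_one, a.a_inv]
  continuous_toFun := by fun_prop
  continuous_invFun := by fun_prop

namespace TH

variable {Y : HO} (h : TH σ Y)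

theorem isBM_fund : h.toTS.IsBM Y.n fun M => (h.bo M).fund := by
  refine ⟨fun M => ?_, fun M => ?_⟩
  · let Φ : Y.A × (σ → Fin (M + 1 + 1) → ℂ) →L[ℂ] σ → ℂ := ContinuousLinearMap.pi fun i =>
      (ContinuousLinearMap.proj (R := ℂ) (φ := fun _ : Fin (M + 1 + 1) => ℂ) 0).comp
        ((ContinuousLinearMap.proj (R := ℂ) (φ := fun _ : σ => Fin (M + 1 + 1) → ℂ) i).comp
          (ContinuousLinearMap.snd ℂ Y.A _))
    have key := (@HO.gys_eul_hol (Y.n + Fintype.card σ * M) (Fintype.card σ) _ _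
      (h.bo (M + 1)) (add_assoc _ _ _).symm _ rfl _ (h.toTS.isSec_col M) (h.bo M).T _
      (h.bo M).act (h.bo M).orb.contSMul (h.toTS.inc M).f
      (IsEmbedding.id.prodMap PM.isClosedEmbedding_inc.isEmbedding)
      (h.toTS.inc M).eqv (fun _ => h.toTS.mem_range_inc_f M)
      (fun z => ⟨Φ, Φ.analyticAt _, Eventually.of_forall fun _ => rfl, fun w _ =>
        ⟨(0, fun i _ => w i), (h.mem_tan_bo _).2 ((map_zero (h.b _)).symm ▸ zero_mem _),
          DFunLike.congr_fun Φ.fderiv _⟩⟩)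
      _ (h.bo M).isQuo _ (h.toTS.inc M).map_π).2.2.2
    refine key.trans (fundQ_change (G := (h.bo M).G) (fun t => ?_) (fun t => ?_) _)
    · exact ⟨fun (q : Y.A × (σ → Fin (M + 1 + 1) → ℂ)) => (q.1, fun i (j : Fin (M + 1)) => q.2 i j.succ),
        analyticAt_fst.prod (AnalyticAt.pi fun i => AnalyticAt.pi fun j => an_coord i _ _),
        Eventually.of_forall fun x =>
          Prod.ext (congrArg (h.b · (Y.ι x.1)) (PM.nrm_inc x.2).symm) rfl⟩
    · exact ⟨fun (q : Y.A × (σ → Fin (M + 1) → ℂ)) => (q.1, fun i => Fin.cons 0 (q.2 i)),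
        analyticAt_fst.prod (AnalyticAt.pi fun i => AnalyticAt.pi fun j =>
          Fin.cases analyticAt_const (fun j => an_coord i j _) j),
        Eventually.of_forall fun x => Prod.ext (congrArg (h.b · (Y.ι x.1)) (PM.nrm_inc x.2)) rfl⟩
  · have : BM.IsDeg (2 * (h.bo M).n) (h.bo M).fund := (h.bo M).holOrb'.deg (h.bo M).isQuo
    rwa [show (((h.bo M).n : ℕ) : ℤ) = Y.n + Fintype.card σ * M from by
      rw [← Nat.cast_mul, ← Nat.cast_add]; rfl] at this

theorem isSlice_base {n : ℕ} {φ : (Fin n → ℂ) → Y.T} (hφ : IsSlice Y.G Y.ι φ) :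
    IsSlice (h.bo 0).G (h.bo 0).ι fun z => h.toTS.base.f (φ z) := by
  obtain ⟨l, a, w, hw, e⟩ := hφ
  let ε : (Y.G × Tor σ) × (Fin n → ℂ) ≃ₜ (Y.G × (Fin n → ℂ)) × Tor σ :=
    (Homeomorph.prodAssoc _ _ _).trans (((Homeomorph.refl _).prodCongr
      (Homeomorph.prodComm _ _)).trans (Homeomorph.prodAssoc _ _ _).symm)
  have l1 := (h.toTS.baseH.lh _).comp (LH.comp' (LH.prodMap l (LH.id (1 : Tor σ)))
    (ε.lh ((1, 1), 0)) rfl)
  have hl : AnalyticAt ℂ (fun (q : Y.A × (σ → Fin 1 → ℂ)) i => -Complex.log (q.2 i 0))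
      (Y.ι (φ 0), PM.one.val) := AnalyticAt.pi fun i =>
    ((an_coord i 0 _).clog Complex.one_mem_slitPlane).neg
  have hs : ∀ s : Tor σ, expT (fun i => -Complex.log ((s • (PM.one : PM σ 0)).val i 0)) = s⁻¹ :=
    fun s => funext fun i => Units.ext (by
      change Complex.exp (-Complex.log ((s i : ℂ) * 1)) = _
      rw [mul_one, Complex.exp_neg, Complex.exp_log (s i).ne_zero, Pi.inv_apply, Units.val_inv_eq_inv_val])
  have ht : Tendsto (fun x : (Y.G × Tor σ) × (Fin n → ℂ) => (x.1.1, x.2)) (𝓝 ((1, 1), 0))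
      (𝓝 (1, 0)) := Continuous.tendsto' (by fun_prop) _ _ rfl
  have e0 : ∀ t, (h.bo 0).ι (h.toTS.base.f t) = (Y.ι t, PM.one.val) := fun t =>
    Prod.ext (show h.b PM.one.nrm _ = _ by rw [PM.nrm_one, map_one]; rfl) rfl
  refine ⟨l1.congr (Eventually.of_forall fun x => Prod.ext (h.comm _ _ _) rfl),
    (a.prod analyticAt_const).congr (Eventually.of_forall fun z => (e0 _).symm), fun q : Y.A × (σ → Fin 1 → ℂ) =>
      w (h.b (expT fun i => -Complex.log (q.2 i 0)) q.1), ?_, (ht.eventually e).mono fun x hx => ?_⟩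
  · rw [e0]
    refine AnalyticAt.comp_of_eq hw ((h.wtd.an₂ _).comp (f := fun q : Y.A × (σ → Fin 1 → ℂ) =>
      (fun i => -Complex.log (q.2 i 0), q.1)) (hl.prod analyticAt_fst)) ?_
    have := hs 1
    rw [one_smul, inv_one] at this
    change h.b (expT fun i => -Complex.log ((PM.one : PM σ 0).val i 0)) (Y.ι (φ 0)) = _
    rw [this, map_one, End.one_apply]
  · refine (congrArg (fun q : Y.A × (σ → Fin 1 → ℂ) =>
      w (h.b (expT fun i => -Complex.log (q.2 i 0)) q.1))
      (((h.bo 0).eqv x.1 _).trans (congrArg (h.lin 0 x.1) (e0 (φ x.2))))).trans ?_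
    change w (h.b (expT fun i => -Complex.log ((x.1.2 • (PM.one : PM σ 0)).val i 0))
      (x.1.1 • h.b x.1.2 (Y.ι (φ x.2)))) = _
    rw [hs, h.bcomm, h.b_inv, ← Y.eqv]
    exact hx

theorem res_base : res h.toTS.base.map (h.bo 0).fund = Y.fund := by
  rw [← one_smul ℂ Y.fund]
  refine HolOrb.res_fund (n := Y.n) (h.bo 0).holOrb' (h.bo 0).isQuo Y.holOrb' Y.isQuo
    h.toTS.isHomeomorph_base.isOpenEmbedding (Y.isQuo.meets dense_univ) fun t _ => ?_
  obtain ⟨φ, h1, rfl⟩ := Y.holOrb'.slice t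
  refine ⟨φ, _, h1, rfl, h.isSlice_base h1,
    Eventually.of_forall fun z => (h.toTS.base.map_π _).symm, ?_⟩
  rw [one_mul]
  refine congrArg _ (stab_of_bijOn (ρ := h.toTS.base.ρ) (t₁ := h.toTS.base.f (φ 0))
    ⟨fun g hg => (h.toTS.base.eqv g _).symm.trans (congrArg _ hg),
      fun g _ g' _ e => congrArg Prod.fst e, fun k hk => ?_⟩)
  have h2 : k.2 = 1 := PM.eq_one (congrArg Prod.snd hk)
  have h3 : k.1 • h.a k.2 (φ 0) = φ 0 := congrArg Prod.fst hk
  rw [h2, h.one] at h3
  exact ⟨k.1, h3, Prod.ext rfl h2.symm⟩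

variable {h} {E : VB Y.toSp} (b : TV h.toTS E) {s : Y.T → E.W} (hs : E.IsSec s)
  (hse : ∀ u t, s (h.a u t) = b.b u (s t)) {Z : Ch.Sp} {aZ : TS σ Z} {j : Mor Z Y.toSp}
  (he : h.toTS.IsEq aZ j)

/-- the equivariant virtual class -/
noncomputable def vir (M : ℕ) : BM (aZ.B M).X :=
  gys (he.bo (pm σ M)).map (b.isSec (pm σ M) hs hse).eul (h.bo M).fund

variable (hj : Sat j) (hj' : IsClosedEmbedding j.f) (hz : ∀ t, t ∈ range j.f ↔ s t = 0)

include hj hj' in
theorem isClosedEmbedding_bo (M : ℕ) : IsClosedEmbedding (he.bo (pm σ M)).map :=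
  (hj.bo he _).isClosedEmbedding (hj'.prodMap IsClosedEmbedding.id)

omit hs hse in
include hz in
theorem range_bo (M : ℕ) :
    range (he.bo (pm σ M)).map = (h.toTS.B M).π '' {x | s x.1 = 0} := by
  rw [range_map]
  refine congrArg _ (Set.ext fun x => ⟨?_, fun hx => ?_⟩)
  · rintro ⟨y, rfl⟩
    exact (hz _).1 ⟨_, rfl⟩
  · obtain ⟨y, hy⟩ := (hz _).2 hx
    exact ⟨(y, x.2), Prod.ext hy rfl⟩

include hj hz in
theorem isCo_bo (M : ℕ) :
    IsCo (range (he.bo (pm σ M)).map) E.r (b.isSec (pm σ M) hs hse).eul := by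
  have _ := hj
  rw [range_bo he hz]
  exact (b.isSec (pm σ M) hs hse).isCo

include hj hj' hz in
theorem isBM_vir : aZ.IsBM (Y.n - E.r) (vir b hs hse he) := by
  refine ⟨fun M => ?_, fun M => ?_⟩
  · have c1 := isCo_bo b hs hse he hj hz (M + 1)
    have c2 := h.toTS.isCo_col M
    have c3 := isCo_bo b hs hse he hj hz M
    have c4 := aZ.isCo_col M
    have hr : (he.bo (pm σ (M + 1))).map ⁻¹' range (h.toTS.inc M).map ⊆ range (aZ.inc M).map :=
      fun x hx => by
        obtain ⟨x, rfl⟩ := (aZ.B (M + 1)).surj x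
        rw [mem_preimage, Mor.map_π, (h.toTS.sat_inc M).mem_range, TS.mem_range_inc_f] at hx
        exact (aZ.sat_inc M).mem_range.2 ((aZ.mem_range_inc_f M).2 hx)
    have hr' : (h.toTS.inc M).map ⁻¹' range (he.bo (pm σ (M + 1))).map ⊆
        range (he.bo (pm σ M)).map := fun x hx => by
      obtain ⟨x, rfl⟩ := (h.toTS.B M).surj x
      rw [mem_preimage, Mor.map_π, range_bo he hz] at hx
      rw [range_bo he hz]
      exact ⟨x, (b.isSec (pm σ (M + 1)) hs hse).mem_zeros.1 hx, rfl⟩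
    have e1 := gys_comm (isClosedEmbedding_bo he hj hj' (M + 1)) (h.toTS.isClosedEmbedding_inc M)
      (isClosedEmbedding_bo he hj hj' M) (aZ.isClosedEmbedding_inc M) (he.inc_comm M) hr c1 c2
      (h.bo (M + 1)).fund
    have k1 := Iso.cohom_eul (m := he.bo (pm σ (M + 1))) (A := fun _ => LinearMap.id)
      ⟨Hom.of_continuous (fun _ _ h => h) continuous_snd fun _ _ _ _ => rfl, fun _ _ _ h => h,
        fun _ w h => ⟨w, h, rfl⟩⟩ (aZ.isSec_col M) (h.toTS.isSec_col M) fun _ => rfl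
    have k2 := Iso.cohom_eul (m := h.toTS.inc M) (A := fun _ => LinearMap.id)
      ⟨Hom.of_continuous (fun _ _ h => h) continuous_snd fun _ _ _ _ => rfl, fun _ _ _ h => h,
        fun _ w h => ⟨w, h, rfl⟩⟩ (b.isSec (pm σ M) hs hse) (b.isSec (pm σ (M + 1)) hs hse)
        fun _ => rfl
    replace k2 := k2.mono (range_bo he hz M).ge
    rw [h.isBM_fund.step M] at e1
    rw [vir, vir, gys_congr (aZ.isClosedEmbedding_inc M) c4.cocycle c4.supp
        (cocycle_pull (Mor.map _).continuous c2.cocycle)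
        ((supp_pull (Mor.map _).continuous _).trans ((preimage_mono c2.supp).trans hr))
        (k1.mono (by
          rw [range_map]
          exact image_mono fun x hx => (aZ.mem_range_inc_f M).2 hx)),
      gys_congr (isClosedEmbedding_bo he hj hj' M) c3.cocycle c3.supp
        (cocycle_pull (Mor.map _).continuous c1.cocycle)
        ((supp_pull (Mor.map _).continuous _).trans ((preimage_mono c1.supp).trans hr')) k2]
    exact e1
  · have := (h.isBM_fund.deg M).gys (he.bo (pm σ M)).map (isCo_bo b hs hse he hj hz M).deg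
    rwa [show (2 * (Y.n + Fintype.card σ * M) - 2 * E.r : ℤ) =
      2 * (Y.n - E.r + Fintype.card σ * M) by ring] at this

include hj hj' hz in
theorem res_base_vir : res aZ.base.map (vir b hs hse he 0) = gys j.map hs.eul Y.fund := by
  have c1 := isCo_bo b hs hse he hj hz 0
  have hR : range j.map = Y.π '' {t | s t = 0} := by
    rw [range_map, show range j.f = {t | s t = 0} from Set.ext hz]
  have hr : h.toTS.base.map ⁻¹' range (he.bo (pm σ 0)).map ⊆ range j.map := fun x hx => by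
    obtain ⟨x, rfl⟩ := Y.surj x
    rw [mem_preimage, Mor.map_π, range_bo he hz] at hx
    rw [hR]
    exact ⟨x, (b.isSec (pm σ 0) hs hse).mem_zeros.1 hx, rfl⟩
  have k1 := Iso.cohom_eul (m := h.toTS.base) (A := fun _ => LinearMap.id)
    ⟨Hom.of_continuous (fun _ _ h => h) continuous_snd fun g _ w _ =>
      show g • w = g • b.b 1 w by rw [map_one, End.one_apply], fun _ _ _ h => h,
      fun _ w h => ⟨w, h, rfl⟩⟩ hs (b.isSec (pm σ 0) hs hse) fun _ => rfl
  rw [← hR] at k1
  rw [gys_congr (hj.isClosedEmbedding hj') hs.isCo.cocycle (hR ▸ hs.isCo.supp)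
    (cocycle_pull (Mor.map _).continuous c1.cocycle)
    ((supp_pull (Mor.map _).continuous _).trans ((preimage_mono c1.supp).trans hr)) k1,
    ← h.res_base]
  exact res_gys (isClosedEmbedding_bo he hj hj' 0) (hj.isClosedEmbedding hj')
    h.toTS.isHomeomorph_base.isOpenEmbedding aZ.isHomeomorph_base.isOpenEmbedding
    (fun y => (he.base_comm y).symm) hr c1.cocycle c1.supp _

end TH

namespace TS

variable {Y : Ch.Sp} (a : TS σ Y) (hfix : ∀ s t, Y.π (a.a s t) = Y.π t)

include hfix in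
theorem exists_pr : ∃ pr : ∀ M, C((a.B M).X, Y.X), (∀ M x, pr M ((a.B M).π x) = Y.π x.1) ∧
    (∀ M, IsPr (pr M)) ∧ ∀ (d : ℤ) (β : ∀ M, BM (a.B M).X), a.IsBM d β → Top Y.X (2 * d) →
      ∀ M f, push (pr M) (cap (a.e M f) (β M)) = coeff (topM σ M) f • res a.base.map (β 0) := by
  classical
  choose q hq using fun M => (a.B M).isQuo.exists_lift (fun x => Y.π x.1) fun k x =>
    (Y.π_smul k.1 _).trans (hfix k.2 x.1)
  have hc : ∀ M, Continuous (q M) := fun M =>
    (a.B M).isQuo.continuous_lift (Y.cont.comp continuous_fst) (hq M)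
  have hp : ∀ M, IsPr (q M) := fun M => ⟨hc M, fun K hK =>
    a.isCompact_bo M hK (hK.isClosed.preimage (hc M)) fun x hx => hq M x ▸ hx⟩
  refine ⟨fun M => ⟨q M, hc M⟩, hq, hp, fun d β hβ hT M f => ?_⟩
  change push (q M) _ = _
  have top : ∀ M, push (q M) (cap (a.e M (monomial (topM σ M) 1)) (β M)) =
      res a.base.map (β 0) := fun M => by
    induction M with
    | zero =>
      rw [topM_zero, monomial_zero', C_1, map_one, cap_one]
      conv_lhs => rw [← push_res_homeo a.isHomeomorph_base (β 0)]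
      rw [push_push (IsPr.of_isClosedEmbedding a.isHomeomorph_base.isClosedEmbedding) (hp 0),
        show q 0 ∘ a.base.map = id from funext fun x => by
          obtain ⟨t, rfl⟩ := Y.surj x
          rw [comp_apply, Mor.map_π, hq]
          rfl, push_id']
    | succ M ih =>
      have hi := IsPr.of_isClosedEmbedding (a.isClosedEmbedding_inc M)
      rw [topM_succ, add_comm (topM σ 1), ← one_mul (1 : ℂ), ← monomial_mul, ← prod_X_eq, map_mul, cap_mul,
        ← hβ.push_inc, ← push_cap hi, map_inc_e, push_push hi (hp _),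
        show q (M + 1) ∘ (a.inc M).map = q M from funext fun x => by
          obtain ⟨t, rfl⟩ := (a.B M).surj x
          rw [comp_apply, Mor.map_π, hq, hq]
          rfl, ih]
  have mon : ∀ k, k ≠ topM σ M → push (q M) (cap (a.e M (monomial k 1)) (β M)) = 0 := fun k hk => by
    by_cases h1 : k ≤ topM σ M
    · refine Top.eq_zero hT (((hβ.deg M).cap (a.e_deg M (isHomogeneous_monomial 1 rfl))).push _) ?_
      have h2 : (topM σ M - k).degree + k.degree = Fintype.card σ * M := by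
        rw [← map_add, tsub_add_cancel_of_le h1, degree_topM]
      have h3 : (topM σ M - k).degree ≠ 0 := fun e =>
        hk (le_antisymm h1 (tsub_eq_zero_iff_le.1 ((Finsupp.degree_eq_zero_iff _).1 e)))
      have h4 : ((k.degree : ℕ) : ℤ) < (Fintype.card σ * M : ℕ) := by exact_mod_cast (by omega)
      push_cast at h4
      omega
    · obtain ⟨i, hi⟩ := not_forall.1 h1
      have h2 : Finsupp.single i (M + 1) ≤ k := Finsupp.single_le_iff.2 (not_le.1 hi)
      rw [← add_tsub_cancel_of_le h2, ← one_mul (1 : ℂ), ← monomial_mul, ← X_pow_eq_monomial,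
        map_mul, e_X_pow, zero_mul]
      exact (congrArg (push (q M)) (map_zero (pd (β M)))).trans (map_zero _)
  let L : R σ →ₗ[ℂ] BM Y.X := push (q M) ∘ₗ pd (β M) ∘ₗ (a.e M).toLinearMap
  change L f = _
  induction f using MvPolynomial.induction_on' with
  | monomial k c =>
    rw [show monomial k c = c • monomial k (1 : ℂ) by rw [smul_monomial, smul_eq_mul, mul_one],
      map_smul, coeff_smul, coeff_monomial, smul_eq_mul, mul_smul]
    congr 1
    split_ifs with hk
    · rw [one_smul, hk]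
      exact top M
    · rw [zero_smul]
      exact mon k hk
  | add p p' h1 h2 => rw [map_add, h1, h2, coeff_add, add_smul]

end TS

end Vale.Agent.P269.Loc
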