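import Vale.Agent.P269.Loc.FC
import Vale.Agent.P269.Holo.Etale
import Vale.Agent.P269.Holo.Osg

/-!
# Reduction of the structure group and fundamental classes
-/

namespace Vale.Agent.P269.Loc

open Set Function Topology Filter Module Vale.Agent.P291Z Vale.Agent.P269.Ch Vale.Agent.P269.Holo
  Vale.Agent.P269.Orb

section gen

variable {G G' T T' X A : Type} [Group G] [Group G'] [MulAction G T] [MulAction G' T']

/-- the order of the stabiliser along a homomorphism that is onto on stabilisers -/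
theorem stab_eq_mul {ρ : G →* G'} {t : T} {t' : T'} (e : ∀ g, g • t = t → ρ g • t' = t')
    (full : ∀ g' : G', g' • t' = t' → ∃ g : G, g • t = t ∧ ρ g = g') :
    stab G t = Nat.card {g : G // g • t = t ∧ ρ g = 1} * stab G' t' := by
  let r : MulAction.stabilizer G t →* MulAction.stabilizer G' t' :=
    (ρ.comp (Subgroup.subtype _)).codRestrict _ fun g => e g g.2
  have h1 : r.range = ⊤ := MonoidHom.range_eq_top.2 fun g' =>
    let ⟨g, h1, h2⟩ := full g' g'.2
    ⟨⟨g, h1⟩, Subtype.ext h2⟩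
  have h2 := r.ker.card_mul_index
  rw [Subgroup.index_ker, h1, Subgroup.card_top] at h2
  refine h2.symm.trans (congrArg (· * stab G' t') (Nat.card_congr
    ⟨fun g => ⟨g.1.1, g.1.2, congrArg Subtype.val g.2⟩, fun g => ⟨⟨g.1, g.2.1⟩, Subtype.ext g.2.2⟩,
      fun _ => rfl, fun _ => rfl⟩))

variable [TopologicalSpace G] [TopologicalSpace T] [TopologicalSpace X] [NormedAddCommGroup A]
  [NormedSpace ℂ A] {ι : T → A} {π : T → X} {n : ℕ}

/-- generically a slice maps injectively to the orbit space -/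
theorem dense_slice_inj (h : HolOrb G ι n) (hπ : IsQuo G π) :
    Dense {t | ∃ φ : (Fin n → ℂ) → T, IsSlice G ι φ ∧ φ 0 = t ∧
      ∃ U ∈ 𝓝 0, InjOn (fun z => π (φ z)) U} := by
  have := h.grp
  have := h.proper
  refine dense_iff_inter_open.2 fun V hV hne => ?_
  obtain ⟨t, ht, hm⟩ := (wellFounded_lt.onFun (f := fun t : T => stab G t)).has_min V hne
  obtain ⟨φ, h1, rfl⟩ := h.slice t
  obtain ⟨hf, U, a, c, h2, h0, h3, h4⟩ := exists_ts h1.1 (h1.cont (hV.mem_nhds ht))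
  refine ⟨_, ht, φ, h1, rfl, U, h2.mem_nhds h0, fun u hu u' hu' e => ?_⟩
  obtain ⟨g, hg⟩ := (hπ.eq_iff _ _).1 e
  obtain ⟨γ, h5, -⟩ := h4.full g ⟨u, hu⟩ ⟨u', hu'⟩ hg
  obtain ⟨γ', rfl⟩ := (Subtype.val_injective.bijective_of_nat_card_le
    ((not_lt.1 (hm _ (h3 hu))).trans (h4.card_stab ⟨u, hu⟩).ge)).2 γ
  exact congrArg Subtype.val (γ'.2.symm.trans h5)

end gen

/-- **reduction of the structure group**: a holomorphic morphism between orbifolds of the same
dimension that is an open embedding of the orbit spaces, is onto on the stabilisers, with kernels of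
constant order -/
theorem HO.res_fund_of_mor (Y : HO) {F : Ch.Sp} {A : Type} [NormedAddCommGroup A] [NormedSpace ℂ A]
    {ι : F.T → A} (hF : HolOrb F.G ι Y.n) (i : Mor F Y.toSp) (hi : IsOpenEmbedding i.map)
    (hol : ∀ t, HolAt ι (fun u => Y.ι (i.f u)) t)
    (full : ∀ t (g : Y.G), g • i.f t = i.f t → ∃ g' : F.G, g' • t = t ∧ i.ρ g' = g) {l : ℕ}
    (hl : ∀ t : F.T, Nat.card {g : F.G // g • t = t ∧ i.ρ g = 1} = l) :
    res i.map Y.fund = (l : ℂ) • fundQ F.G ι F.π Y.n := by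
  refine Y.holOrb.res_fund Y.isQuo hF F.isQuo hi (F.isQuo.meets (dense_slice_inj hF F.isQuo)) ?_
  rintro _ ⟨φ₁, h1, rfl, U, hU, h2⟩
  obtain ⟨φ, h3, h4⟩ := Y.exists_slK (i.f (φ₁ 0))
  obtain ⟨γ, k, -, h5, -, h6, h7⟩ := h4.transition Y.exp (φ' := fun z => i.f (φ₁ z)) h3.symm
    (i.cf.continuousAt.comp h1.cont) ((hol _).an_comp h1.cont h1.2.1)
  have h8 : ∀ᶠ z in 𝓝 0, Y.π (φ (k z)) = i.map (F.π (φ₁ z)) :=
    h7.mono fun z hz => by rw [i.map_π, hz, Y.π_smul]
  have h9 := osgood rfl h5 ⟨_, inter_mem hU h8, fun z hz z' hz' e =>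
    h2 hz.1 hz'.1 (hi.injective (hz.2.symm.trans ((congrArg (fun v => Y.π (φ v)) e).trans hz'.2)))⟩
  refine ⟨φ₁, fun z => φ (k z), h1, rfl,
    isSlice_iff.2 ((IsSlK.comp (h6.symm ▸ h4) h5 h9).isSl Y.exp), h8, ?_⟩
  beta_reduce
  rw [h6, h3, ← hl (φ₁ 0), ← Nat.cast_mul]
  exact congrArg _ (stab_eq_mul (fun g hg => by rw [← i.eqv, hg]) (full _))

variable {σ : Type} [Fintype σ] {Y : HO} {h : TH σ Y}

/-- the fundamental class of a fixed component in its own presentation -/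
theorem FC.fund_eq (c : FC h) {A : Type} [NormedAddCommGroup A] [NormedSpace ℂ A]
    {ι : c.F.T → A} (hF : HolOrb c.F.G ι c.n) (hol : ∀ t, HolAt ι (fun u => Y.ι (c.i.f u)) t)
    (full : ∀ t (g : Y.G), g • c.i.f t = c.i.f t → ∃ g' : c.F.G, g' • t = t ∧ c.i.ρ g' = g) {l : ℕ}
    (hl : ∀ t : c.F.T, Nat.card {g : c.F.G // g • t = t ∧ c.i.ρ g = 1} = l) :
    c.fund = (l : ℂ) • fundQ c.F.G ι c.F.π c.n := by
  have e : ⇑c.dS.i.map = id := funext c.dS_map
  have := c.orb.res_fund_of_mor hF c.dS.i (e ▸ IsOpenEmbedding.id) hol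
    (fun t g hg => full t g (congrArg Subtype.val hg)) hl
  rw [e] at this
  exact (res_id' c.fund).symm.trans this

end Vale.Agent.P269.Loc
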