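import Vale.Agent.P269.Ch.Eqv

/-!
# Equivariant continuous sections with prescribed germs
-/

namespace Vale.Agent.P269.Loc

open Set Function Topology Filter Vale.Agent.P291Z Vale.Agent.P269.Ch

variable {G T M : Type} [Group G] [TopologicalSpace G] [TopologicalSpace T] [MulAction G T]
  [AddCommGroup M] [Module ℝ M] [TopologicalSpace M]

/-- a continuous linear action given by a function -/
structure IsLin (a : G → M → M) : Prop where
  one : ∀ m, a 1 m = m
  mul : ∀ g h m, a (g * h) m = a g (a h m)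
  add : ∀ g m m', a g (m + m') = a g m + a g m'
  smul : ∀ g (c : ℝ) m, a g (c • m) = c • a g m
  cont : Continuous fun p : G × M => a p.1 p.2

/-- the action of an element as an additive equivalence -/
def IsLin.equiv {a : G → M → M} (h : IsLin a) (g : G) : M ≃+ M where
  toFun := a g
  invFun := a g⁻¹
  left_inv m := by rw [← h.mul, inv_mul_cancel, h.one]
  right_inv m := by rw [← h.mul, mul_inv_cancel, h.one]
  map_add' := h.add g

/-- a property of germs that is stable under affine combinations and translations -/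
structure IsGerm (a : G → M → M) (Good : T → (T → M) → Prop) : Prop where
  congr : ∀ x f f', Good x f → f =ᶠ[𝓝 x] f' → Good x f'
  comb : ∀ x (ι : Type) (s : Finset ι) (c : ι → T → ℝ) (f : ι → T → M),
    (∀ i ∈ s, ContinuousAt (c i) x) → (∀ᶠ y in 𝓝 x, ∑ i ∈ s, c i y = 1) →
    (∀ i ∈ s, Good x (f i)) → Good x fun y => ∑ i ∈ s, c i y • f i y
  trans : ∀ x (s : T → G) f, ContinuousAt s x → Good ((s x)⁻¹ • x) f →
    Good x fun y => a (s y) (f ((s y)⁻¹ • y))

variable [ContinuousAdd M] [ContinuousSMul ℝ M]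

theorem IsGerm.glue {a : G → M → M} {Good : T → (T → M) → Prop} (h : IsGerm a Good) {X ι : Type}
    [TopologicalSpace X] {π : T → X} (hπ : Continuous π) (ρ : PartitionOfUnity ι X univ)
    {f : ι → T → M} (hf : ∀ i x, π x ∈ tsupport (ρ i) → ContinuousAt (f i) x ∧ Good x (f i)) :
    Continuous (fun x => ∑ᶠ i, ρ i (π x) • f i x) ∧ ∀ x, Good x fun x => ∑ᶠ i, ρ i (π x) • f i x := by
  have key : ∀ x, (fun y => ∑ i ∈ ρ.fintsupport (π x), ρ i (π y) • f i y) =ᶠ[𝓝 x]
      fun y => ∑ᶠ i, ρ i (π y) • f i y := fun x => by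
    filter_upwards [hπ.continuousAt.eventually (ρ.eventually_finsupport_subset (π x))] with y hy
    refine (finsum_eq_sum_of_support_subset _ fun i hi => ?_).symm
    refine Finset.mem_coe.2 (hy ((ρ.mem_finsupport _).2 fun e => hi ?_))
    simp [e]
  refine ⟨continuous_iff_continuousAt.2 fun x => ContinuousAt.congr ?_ (key x), fun x =>
    h.congr x _ _ (h.comb x ι _ (fun i y => ρ i (π y)) f
      (fun i _ => ((ρ i).continuous.comp hπ).continuousAt) ?_
      fun i hi => (hf i x ((ρ.mem_fintsupport_iff _ _).1 hi)).2) (key x)⟩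
  · exact tendsto_finsetSum _ fun i hi => ((ρ i).continuous.comp hπ).continuousAt.smul
      (hf i x ((ρ.mem_fintsupport_iff _ _).1 hi)).1
  · filter_upwards [hπ.continuousAt.eventually (ρ.eventually_finsupport_subset (π x))] with y hy
    exact ρ.sum_finsupport' (mem_univ _) hy

variable [IsTopologicalGroup G] [ProperSMul G T] [Nice T]

/-- **Equivariant continuous sections with prescribed germs** -/
theorem exists_germ (hf : ∀ t : T, LocFree G t) {a : G → M → M} (ha : IsLin a)
    {Good : T → (T → M) → Prop} (h : IsGerm a Good)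
    (hl : ∀ t, ∃ σ : T → M, ∀ᶠ x in 𝓝 t, ContinuousAt σ x ∧ Good x σ) :
    ∃ σ : T → M, Continuous σ ∧ (∀ (g : G) t, σ (g • t) = a g (σ t)) ∧ ∀ t, Good t σ := by
  classical
  choose σ₁ hσ₁ using hl
  obtain ⟨ρ₀, hρ₀⟩ := PartitionOfUnity.exists_isSubordinate isClosed_univ
    (fun t => interior {x | ContinuousAt (σ₁ t) x ∧ Good x (σ₁ t)}) (fun _ => isOpen_interior)
    fun t _ => mem_iUnion.2 ⟨t, mem_interior_iff_mem_nhds.2 (hσ₁ t)⟩
  obtain ⟨hc₀, h₀⟩ := h.glue continuous_id ρ₀ (f := σ₁) fun i x hx =>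
    interior_subset (s := {x | ContinuousAt (σ₁ i) x ∧ Good x (σ₁ i)}) (hρ₀ i hx)
  set σ₀ : T → M := fun x => ∑ᶠ i, ρ₀ i (id x) • σ₁ i x
  choose ψ h1 h2 h3 using fun t => (hf t).exists_wt
  let w : T → T → ℝ := fun t x => ∑ᶠ g : G, ψ t (g⁻¹ • x)
  let F : T → T → M := fun t x => ∑ᶠ g : G, ψ t (g⁻¹ • x) • a g (σ₀ (g⁻¹ • x))
  have hw : ∀ t, Continuous (w t) := fun t => by
    simpa using (h1 t).continuous (F := fun _ => (1 : ℝ)) continuous_const
  have hF : ∀ t, Continuous (F t) := fun t =>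
    (h1 t).continuous (F := fun p => a p.1 (σ₀ (p.1⁻¹ • p.2)))
      (ha.cont.comp (continuous_fst.prodMk (hc₀.comp (by fun_prop))))
  have hwi : ∀ t (k : G) x, w t (k • x) = w t x := fun t k x => by
    refine (finsum_comp_equiv (Equiv.mulLeft k)).symm.trans ?_
    simp [w, smul_smul]
  have hFi : ∀ t (k : G) x, F t (k • x) = a k (F t x) := fun t k x => by
    refine (finsum_comp_equiv (Equiv.mulLeft k)).symm.trans ?_
    refine Eq.trans ?_ ((ha.equiv k).map_finsum _).symm
    refine finsum_congr fun g => ?_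
    simp only [Equiv.coe_mulLeft, mul_inv_rev]
    rw [smul_smul (g⁻¹ * k⁻¹) k, inv_mul_cancel_right, ha.mul, ← ha.smul]
    rfl
  have hw0 : ∀ t, 0 < w t t := fun t =>
    finsum_pos (fun g => h2 t _) ⟨1, by rw [inv_one, one_smul, h3]; exact one_pos⟩ ((h1 t).finite t)
  have hFG : ∀ t x, 0 < w t x → Good x fun y => (w t y)⁻¹ • F t y := fun t x hx => by
    obtain ⟨n, s, c, hs, hc, he⟩ := h1 t x
    have e1 : ∀ᶠ y in 𝓝 x, ∀ {N : Type} [AddCommGroup N] [Module ℝ N] (Φ : G → N),
        ∑ᶠ g, ψ t (g⁻¹ • y) • Φ g = ∑ i, c i y • Φ (s i y) := he.mono fun y hy N _ _ Φ => by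
      simp only [hy, Finset.sum_smul]
      rw [finsum_sum_comm]
      · refine Finset.sum_congr rfl fun i _ => ?_
        rw [finsum_eq_single _ (s i y) fun g hg => by rw [if_neg hg, zero_smul], if_pos rfl]
      · exact fun i _ => (finite_singleton (s i y)).subset fun g hg => by_contra fun h' =>
          hg (by simp only [if_neg (show ¬ g = s i y from h'), zero_smul])
    refine h.congr x _ _ (h.comb x _ Finset.univ (fun i y => (w t y)⁻¹ * c i y)
      (fun i y => a (s i y) (σ₀ ((s i y)⁻¹ • y)))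
      (fun i _ => ((hw t).continuousAt.inv₀ hx.ne').mul (hc i)) ?_
      fun i _ => h.trans x _ _ (hs i) (h₀ _)) ?_
    · filter_upwards [e1, (hw t).continuousAt.eventually_ne hx.ne'] with y hy hy'
      have := hy fun _ => (1 : ℝ)
      simp only [smul_eq_mul, mul_one] at this
      rw [← Finset.mul_sum, ← this]
      exact inv_mul_cancel₀ hy'
    · filter_upwards [e1] with y hy
      rw [show F t y = _ from hy fun g => a g (σ₀ (g⁻¹ • y)), Finset.smul_sum]
      exact Finset.sum_congr rfl fun i _ => (smul_smul _ _ _).symm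
  have := nice_quot G T
  let π : T → MulAction.orbitRel.Quotient G T := Quotient.mk _
  have hπ : IsOpenQuotientMap π := MulAction.isOpenQuotientMap_quotientMk
  have hπi : ∀ (k : G) x, π (k • x) = π x := fun k x => Quotient.sound ⟨k, rfl⟩
  have hpre : ∀ t x, π x ∈ π '' {y | 0 < w t y} → 0 < w t x := by
    rintro t x ⟨y, hy, e⟩
    obtain ⟨k, rfl⟩ := Quotient.exact e
    exact (hwi t k x) ▸ hy
  obtain ⟨ρ, hρ⟩ := PartitionOfUnity.exists_isSubordinate isClosed_univ
    (fun t => π '' {y | 0 < w t y})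
    (fun t => hπ.isOpenMap _ (isOpen_lt continuous_const (hw t))) fun b _ => by
      obtain ⟨t, rfl⟩ := hπ.surjective b
      exact mem_iUnion.2 ⟨t, t, hw0 t, rfl⟩
  obtain ⟨hc, hg⟩ := h.glue hπ.continuous ρ (f := fun t y => (w t y)⁻¹ • F t y) fun t x hx =>
    ⟨((hw t).continuousAt.inv₀ (hpre t x (hρ t hx)).ne').smul (hF t).continuousAt,
      hFG t x (hpre t x (hρ t hx))⟩
  refine ⟨_, hc, fun k x => ?_, hg⟩
  refine Eq.trans ?_ ((ha.equiv k).map_finsum _).symm
  refine finsum_congr fun t => ?_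
  rw [hπi, hwi, hFi, ← ha.smul, ← ha.smul]
  rfl

end Vale.Agent.P269.Loc
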