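import Mathlib

/-!
# Lifting of approximate idempotents, equivariantly for conjugation
-/

namespace Vale.Agent.P269.Loc

open Set Function Topology Filter

variable {B : Type*} [NormedRing B] [NormedAlgebra ℂ B] [CompleteSpace B]

/-- the generating series of the Catalan numbers -/
noncomputable def catS (t : B) : B := ∑' k, catalan k • t ^ k

theorem catalan_le (k : ℕ) : catalan k ≤ 4 ^ k := by
  rw [catalan_eq_centralBinom_div]
  refine (Nat.div_le_self _ _).trans ?_
  rw [Nat.centralBinom, show (4 : ℕ) = 2 ^ 2 from rfl, ← pow_mul]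
  exact Nat.choose_le_two_pow _ _

omit [NormedAlgebra ℂ B] [CompleteSpace B] in
theorem norm_cat_le {t : B} {r : ℝ} (h : ‖t‖ ≤ r) (k : ℕ) :
    ‖catalan k • t ^ k‖ ≤ max ‖(1 : B)‖ 1 * (4 * r) ^ k := by
  have hr : 0 ≤ r := (norm_nonneg _).trans h
  have h1 : ‖t ^ k‖ ≤ max ‖(1 : B)‖ 1 * r ^ k := by
    rcases k with _ | k
    · simp
    · exact ((norm_pow_le' t k.succ_pos).trans (pow_le_pow_left₀ (norm_nonneg _) h _)).trans
        (le_mul_of_one_le_left (pow_nonneg hr _) (le_max_right _ _))
  have h2 : (catalan k : ℝ) ≤ 4 ^ k := by exact_mod_cast catalan_le k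
  calc ‖catalan k • t ^ k‖ ≤ catalan k * ‖t ^ k‖ := norm_nsmul_le
    _ ≤ 4 ^ k * (max ‖(1 : B)‖ 1 * r ^ k) := by gcongr
    _ = _ := by rw [mul_pow]; ring

omit [NormedAlgebra ℂ B] [CompleteSpace B] in
theorem summable_norm_cat {t : B} (h : ‖t‖ < 1 / 4) : Summable fun k => ‖catalan k • t ^ k‖ :=
  Summable.of_nonneg_of_le (fun _ => norm_nonneg _) (norm_cat_le le_rfl)
    ((summable_geometric_of_lt_one (by positivity) (by linarith)).mul_left _)

omit [NormedAlgebra ℂ B] in
theorem continuousOn_catS : ContinuousOn (catS : B → B) (Metric.ball 0 (1 / 8)) :=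
  continuousOn_tsum (u := fun k => max ‖(1 : B)‖ 1 * (4 * (1 / 8)) ^ k)
    (fun k => by fun_prop)
    ((summable_geometric_of_lt_one (by positivity) (by norm_num)).mul_left _)
    fun k t ht => norm_cat_le (mem_ball_zero_iff.1 ht).le k

omit [NormedAlgebra ℂ B] in
theorem catS_eq {t : B} (h : ‖t‖ < 1 / 4) : catS t = 1 + t * (catS t * catS t) := by
  have h1 := summable_norm_cat h
  have h2 := tsum_mul_tsum_eq_tsum_sum_antidiagonal_of_summable_norm h1 h1
  have h3 := (summable_norm_sum_mul_antidiagonal_of_summable_norm h1 h1).of_norm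
  rw [catS, h2, ← h3.tsum_mul_left, h1.of_norm.tsum_eq_zero_add]
  congr 1
  · simp
  · refine tsum_congr fun k => ?_
    rw [catalan_succ', Finset.sum_smul, Finset.mul_sum]
    refine Finset.sum_congr rfl fun ij hij => ?_
    rw [smul_mul_smul_comm, mul_smul_comm, ← pow_add, Finset.HasAntidiagonal.mem_antidiagonal.1 hij, pow_succ']

omit [NormedAlgebra ℂ B] [CompleteSpace B] in
theorem commute_catS {a t : B} (h : Commute a t) : Commute a (catS t) :=
  Commute.tsum_right _ fun k => (h.pow_right k).smul_right _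

omit [NormedAlgebra ℂ B] [CompleteSpace B] in
theorem catS_smul (g : ConjAct Bˣ) (t : B) : catS (g • t) = g • catS t := by
  rw [catS, catS, ← tsum_const_smul' g]
  exact tsum_congr fun k => by rw [smul_comm g, smul_pow']

omit [NormedAlgebra ℂ B] [CompleteSpace B] in
theorem inverse_smul (g : ConjAct Bˣ) (r : B) : Ring.inverse (g • r) = g • Ring.inverse r := by
  by_cases h : IsUnit r
  · have h1 : (g • r) * (g • Ring.inverse r) = 1 := by
      rw [← smul_mul', Ring.mul_inverse_cancel _ h, smul_one]
    have h2 : (g • Ring.inverse r) * (g • r) = 1 := by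
      rw [← smul_mul', Ring.inverse_mul_cancel _ h, smul_one]
    exact Ring.inverse_unit ⟨_, _, h1, h2⟩
  · have h' : ¬IsUnit (g • r) := fun h' => h (by
      simpa using h'.map (MulSemiringAction.toRingHom _ B g⁻¹))
    rw [Ring.inverse_non_unit _ h, Ring.inverse_non_unit _ h', smul_zero]

/-- a square root of `1 + 4 (a ^ 2 - a)` -/
noncomputable def idR (a : B) : B := 1 - 2 * (a - a * a) * catS (a - a * a)

/-- the idempotent close to an approximate idempotent -/
noncomputable def idm (a : B) : B := (2⁻¹ : ℂ) • (1 + (2 * a - 1) * Ring.inverse (idR a))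

omit [NormedAlgebra ℂ B] [CompleteSpace B] in
theorem smul_two' (g : ConjAct Bˣ) : g • (2 : B) = 2 := by
  rw [← one_add_one_eq_two, smul_add, smul_one]

omit [NormedAlgebra ℂ B] [CompleteSpace B] in
theorem idR_smul (g : ConjAct Bˣ) (a : B) : idR (g • a) = g • idR a := by
  rw [idR, idR, ← smul_mul', ← smul_sub, catS_smul, smul_sub g 1, smul_one, smul_mul', smul_mul',
    smul_two']

omit [CompleteSpace B] in
theorem idm_smul (g : ConjAct Bˣ) (a : B) : idm (g • a) = g • idm a := by
  rw [idm, idm, idR_smul, inverse_smul, smul_comm g, smul_add, smul_add, smul_add, smul_one,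
    smul_mul', smul_sub, smul_one, smul_mul', smul_two']

omit [NormedAlgebra ℂ B] in
theorem idR_sq {a : B} (h : ‖a - a * a‖ < 1 / 4) : idR a * idR a = (2 * a - 1) * (2 * a - 1) := by
  set t := a - a * a with ht
  have h1 := catS_eq h
  have h2 : catS t * t = t * catS t := (commute_catS (Commute.refl t)).symm
  have h3 : idR a * idR a = 1 - 4 * (t * (catS t - t * (catS t * catS t))) := by
    rw [idR, ← ht]
    have : 2 * t * catS t * (2 * t * catS t) = 4 * (t * (t * (catS t * catS t))) := by
      have e : ∀ x : B, x * 2 = 2 * x := fun x => by rw [mul_two, two_mul]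
      calc 2 * t * catS t * (2 * t * catS t) = 2 * (t * (catS t * 2) * t * catS t) := by
            simp only [mul_assoc]
        _ = 2 * (t * 2 * (catS t * t) * catS t) := by rw [e]; simp only [mul_assoc]
        _ = 4 * (t * (t * (catS t * catS t))) := by
            rw [e, h2]; simp only [← mul_assoc]; norm_num
    rw [sub_mul, one_mul, mul_sub (2 * t * catS t), mul_one, this]
    noncomm_ring
  rw [h3, show catS t - t * (catS t * catS t) = 1 from sub_eq_of_eq_add h1, ht]
  noncomm_ring

omit [NormedAlgebra ℂ B] in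
theorem isUnit_idR {a : B} (h : ‖a - a * a‖ < 1 / 8) : IsUnit (idR a) := by
  have h1 := idR_sq (a := a) (by linarith)
  have h2 : IsUnit (idR a * idR a) := by
    have : (2 * a - 1) * (2 * a - 1) = 1 - 4 • (a - a * a) := by noncomm_ring
    rw [h1, this]
    refine (Units.oneSub _ (norm_nsmul_le.trans_lt ?_)).isUnit
    push_cast; linarith
  exact ((Commute.refl _).isUnit_mul_iff.1 h2).1

omit [NormedAlgebra ℂ B] [CompleteSpace B] in
theorem commute_idR (a : B) : Commute a (idR a) := by
  have h : Commute a (a - a * a) := (Commute.refl a).sub_right ((Commute.refl a).mul_right (.refl a))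
  exact (Commute.one_right a).sub_right
    (((Commute.ofNat_right a 2).mul_right h).mul_right (commute_catS h))

theorem idm_mul_self {a : B} (h : ‖a - a * a‖ < 1 / 8) : idm a * idm a = idm a := by
  obtain ⟨u, hu⟩ := isUnit_idR h
  have h1 := idR_sq (a := a) (by linarith)
  have h2 : Commute (2 * a - 1) (↑u⁻¹ : B) := by
    refine Commute.units_inv_right ?_
    rw [hu]
    exact ((Commute.ofNat_left 2 _).mul_left (commute_idR a)).sub_left (Commute.one_left _)
  set b := (2 * a - 1) * (↑u⁻¹ : B) with hb
  have h3 : b * b = 1 := by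
    rw [hb, mul_assoc, ← mul_assoc (↑u⁻¹ : B), ← h2.eq, mul_assoc, ← mul_assoc, ← h1, ← hu,
      mul_assoc, Units.mul_inv_cancel_left, Units.mul_inv]
  rw [idm, ← hu, Ring.inverse_unit, ← hb, smul_mul_smul_comm, add_mul, mul_add, mul_add, h3,
    one_mul, one_mul, mul_one, show 1 + b + (b + 1) = (2 : ℂ) • (1 + b) by rw [two_smul]; abel,
    smul_smul]
  norm_num

omit [CompleteSpace B] in
theorem idm_of_idem {a : B} (h : a * a = a) : idm a = a := by
  rw [idm, idR, h, sub_self, mul_zero, zero_mul, sub_zero, Ring.inverse_one, mul_one,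
    add_sub_cancel, two_mul, ← two_smul ℂ, smul_smul]
  norm_num

theorem continuousAt_idm {a : B} (h : ‖a - a * a‖ < 1 / 8) : ContinuousAt idm a := by
  obtain ⟨u, hu⟩ := isUnit_idR h
  have h0 : Continuous fun a : B => a - a * a := by fun_prop
  have h1 : ContinuousAt idR a :=
    continuousAt_const.sub ((continuousAt_const.mul h0.continuousAt).mul
      ((continuousOn_catS.continuousAt (Metric.isOpen_ball.mem_nhds
        (mem_ball_zero_iff.2 h))).comp (f := fun a : B => a - a * a) h0.continuousAt))
  have h2 : ContinuousAt (fun a => Ring.inverse (idR a)) a :=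
    ContinuousAt.comp (g := Ring.inverse) (by rw [← hu]; exact NormedRing.inverse_continuousAt u) h1
  exact (continuousAt_const.add (ContinuousAt.mul (by fun_prop) h2)).const_smul _

/-- the conjugation invariant domain of `idm` -/
def idD (B : Type*) [NormedRing B] : Set B :=
  {a | ∃ g : ConjAct Bˣ, ‖g • a - g • a * g • a‖ < 1 / 8}

omit [NormedAlgebra ℂ B] [CompleteSpace B] in
theorem isOpen_idD : IsOpen (idD B) := by
  rw [idD, ofPred_exists]
  exact isOpen_iUnion fun g => isOpen_lt (by fun_prop) continuous_const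

omit [NormedAlgebra ℂ B] [CompleteSpace B] in
theorem smul_mem_idD {a : B} (h : a ∈ idD B) (g : ConjAct Bˣ) : g • a ∈ idD B := by
  obtain ⟨k, hk⟩ := h
  exact ⟨k * g⁻¹, by rwa [mul_smul, inv_smul_smul]⟩

omit [NormedAlgebra ℂ B] [CompleteSpace B] in
theorem mem_idD_of_idem {a : B} (h : a * a = a) : a ∈ idD B :=
  ⟨1, by rw [one_smul, h, sub_self, norm_zero]; norm_num⟩

theorem idm_idem {a : B} (h : a ∈ idD B) : idm a * idm a = idm a := by
  obtain ⟨g, hg⟩ := h
  have := idm_mul_self hg
  rwa [idm_smul, ← smul_mul', smul_left_cancel_iff] at this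

theorem continuousAt_idm' {a : B} (h : a ∈ idD B) : ContinuousAt idm a := by
  obtain ⟨g, hg⟩ := h
  have e : (idm : B → B) = fun a => g⁻¹ • idm (g • a) := funext fun a => by
    rw [idm_smul, inv_smul_smul]
  rw [e]
  exact ((continuousAt_idm hg).comp (f := fun a => g • a) (by fun_prop)).const_smul g⁻¹

end Vale.Agent.P269.Loc
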