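import Vale.Agent.P269.Loc.HO
import Vale.Agent.P269.Ch.Chern
import Vale.Agent.P269.Loc.Germ
import Vale.Agent.P269.Loc.Idem

/-!
# An invariant submanifold is the transverse zero set of a section of an extension of its normal
bundle
-/

set_option linter.unusedSectionVars false

namespace Vale.Agent.P269.Loc

open Set Function Topology Filter Module Asymptotics Vale.Agent.P291Z Vale.Agent.P269.Ch
  Vale.Agent.P269.Holo

section gen

variable {T Z A E : Type*} [TopologicalSpace T] [TopologicalSpace Z] [NormedAddCommGroup A]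
  [NormedSpace ℂ A] [NormedAddCommGroup E] [NormedSpace ℂ E]

theorem eventually_of_emb {j : Z → T} (hj : IsEmbedding j) {z : Z} {P : Z → Prop}
    (h : ∀ᶠ x in 𝓝 z, P x) : ∀ᶠ y in 𝓝 (j z), ∀ x, j x = y → P x := by
  rw [hj.isInducing.nhds_eq_comap] at h
  exact eventually_comap.1 h

/-- a parametrization adapted to a submanifold -/
theorem exists_adapt [FiniteDimensional ℂ E] {ι : T → A} {j : Z → T} {ψ' : E → Z} {x : E}
    (h' : IsParam (fun z => ι (j z)) ψ' x) {n r : ℕ} (hm : IsMfd ι n (j (ψ' x)))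
    (hj : ContinuousAt j (ψ' x)) (hd : finrank ℂ E + r = n) :
    ∃ Ψ : E × (Fin r → ℂ) → T, IsParam ι Ψ (x, 0) ∧ ∀ᶠ a in 𝓝 x, Ψ (a, 0) = j (ψ' a) := by
  obtain ⟨ψ, hψ, e⟩ := hm
  obtain ⟨k, h1, h2, h3, h4⟩ := hψ.lift (u := fun a => j (ψ' a)) e.symm (hj.comp h'.lh.cont) h'.an
  have hi : Injective (fderiv ℂ k x) := Injective.of_comp (f := fderiv ℂ (fun z => ι (ψ z)) 0) (by
    have := h'.injective
    rwa [h4] at this)
  obtain ⟨c, hc⟩ := exists_compl_range (fderiv ℂ k x) hi (n := r) (by rw [hd]; simp)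
  have an : AnalyticAt ℂ (fun p : E × (Fin r → ℂ) => k p.1 + c p.2) (x, 0) :=
    (h1.comp_of_eq analyticAt_fst rfl).add ((c.analyticAt _).comp analyticAt_snd)
  refine ⟨fun p => ψ (k p.1 + c p.2), IsParam.comp (u := fun p : E × (Fin r → ℂ) => k p.1 + c p.2)
    (by rwa [map_zero, add_zero, h2]) an ?_, h3.mono fun a ha => by
      simp only [map_zero, add_zero, ha]⟩
  have hd : HasFDerivAt (fun p : E × (Fin r → ℂ) => k p.1 + c p.2) ((fderiv ℂ k x).coprod c) (x, 0) :=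
    (HasFDerivAt.comp ((x, 0) : E × (Fin r → ℂ)) (g := k) (f := Prod.fst)
      h1.differentiableAt.hasFDerivAt hasFDerivAt_fst).add
      (c.hasFDerivAt.comp ((x, 0) : E × (Fin r → ℂ)) hasFDerivAt_snd)
  rwa [hd.fderiv]

/-- the germ of `f` at `j z` is a normal coordinate -/
def NG (ι : T → A) (j : Z → T) (z : Z) (f : T → A) : Prop :=
  (fun p : T × Z => f p.1 - (ι p.1 - ι (j p.2))) =O[𝓝 (j z, z)] (fun p => ι p.1 - ι (j p.2)) ∧
    ∀ ℓ : A →L[ℂ] A, (∀ v ∈ tan (fun z => ι (j z)) z, ℓ v = 0) →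
      (fun p : T × Z => ℓ (f p.1 - (ι p.1 - ι (j p.2)))) =o[𝓝 (j z, z)] fun p => ι p.1 - ι (j p.2)

theorem NG.congr {ι : T → A} {j : Z → T} {z : Z} {f f' : T → A} (h : NG ι j z f)
    (e : f =ᶠ[𝓝 (j z)] f') : NG ι j z f' := by
  have e' : ∀ᶠ p : T × Z in 𝓝 (j z, z), f p.1 = f' p.1 :=
    (continuousAt_fst (p := (j z, z))).eventually e
  exact ⟨h.1.congr' (e'.mono fun p hp => by simp only [hp]) EventuallyEq.rfl, fun ℓ hℓ =>
    (h.2 ℓ hℓ).congr' (e'.mono fun p hp => by simp only [hp]) EventuallyEq.rfl⟩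

theorem NG.comb {ι : T → A} {j : Z → T} {z : Z} {κ : Type} (s : Finset κ) (c : κ → T → ℝ)
    (f : κ → T → A) (hc : ∀ i ∈ s, ContinuousAt (c i) (j z))
    (h1 : ∀ᶠ y in 𝓝 (j z), ∑ i ∈ s, c i y = 1) (h : ∀ i ∈ s, NG ι j z (f i)) :
    NG ι j z fun y => ∑ i ∈ s, c i y • f i y := by
  have e : ∀ᶠ p : T × Z in 𝓝 (j z, z), ∑ i ∈ s, c i p.1 • (f i p.1 - (ι p.1 - ι (j p.2))) =
      ∑ i ∈ s, c i p.1 • f i p.1 - (ι p.1 - ι (j p.2)) :=
    (continuousAt_fst.eventually h1).mono fun p hp => by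
      simp only [smul_sub (c _ p.1) (f _ p.1), Finset.sum_sub_distrib, ← Finset.sum_smul, hp, one_smul]
  have hc' : ∀ i ∈ s, (fun p : T × Z => c i p.1) =O[𝓝 (j z, z)] fun _ => (1 : ℝ) := fun i hi =>
    ((hc i hi).comp_of_eq continuousAt_fst rfl).isBigO_one ℝ
  refine ⟨(IsBigO.fun_sum fun i hi => ?_).congr' e EventuallyEq.rfl, fun ℓ hℓ =>
    (IsLittleO.fun_sum (s := s) (A := fun i (p : T × Z) => c i p.1 • ℓ (f i p.1 - (ι p.1 - ι (j p.2))))
      fun i hi => ?_).congr' (e.mono fun p hp => ?_) EventuallyEq.rfl⟩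
  · simpa only [one_smul] using (hc' i hi).smul (h i hi).1
  · simpa only [one_smul] using (hc' i hi).smul_isLittleO ((h i hi).2 ℓ hℓ)
  · simp only [← hp, map_sum, ContinuousLinearMap.map_smul_of_tower]

theorem exists_ng [CompleteSpace A] {ι : T → A} (hι : Continuous ι) {j : Z → T} (hj : IsEmbedding j)
    {z : Z} {n : ℕ} (h : IsMfd (fun z => ι (j z)) n z) :
    ∃ f : T → A, ∀ᶠ y in 𝓝 (j z), ContinuousAt f y ∧ ∀ x, j x = y → NG ι j x f := by
  obtain ⟨r, hr⟩ := exists_retr h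
  refine ⟨fun y => ι y - r (ι y), ?_⟩
  filter_upwards [hι.continuousAt.eventually hr.self_of_nhds.1.eventually_analyticAt,
    eventually_of_emb hj hr.eventually_nhds] with y h1 h2
  refine ⟨hι.continuousAt.sub (h1.continuousAt.comp hι.continuousAt), fun x e => ?_⟩
  obtain ⟨a1, -, a3, -⟩ := (h2 x e).self_of_nhds
  have t1 : Tendsto (fun p : T × Z => (ι p.1, ι (j p.2))) (𝓝 (j x, x)) (𝓝 (ι (j x), ι (j x))) :=
    ((hι.comp continuous_fst).prodMk (hι.comp (hj.continuous.comp continuous_snd))).tendsto _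
  have s1 := (a1.hasStrictFDerivAt.isLittleO.comp_tendsto t1).neg_left
  have e1 : ∀ᶠ p : T × Z in 𝓝 (j x, x), ι p.1 - r (ι p.1) - (ι p.1 - ι (j p.2)) =
      -(r (ι p.1) - r (ι (j p.2)) - fderiv ℂ r (ι (j x)) (ι p.1 - ι (j p.2))) -
        fderiv ℂ r (ι (j x)) (ι p.1 - ι (j p.2)) :=
    (continuousAt_snd.eventually (h2 x e)).mono fun p hp => by rw [hp.2.1]; abel
  refine ⟨(s1.isBigO.sub ((fderiv ℂ r (ι (j x))).isBigO_comp _ _)).congr'
    (e1.mono fun p hp => hp.symm) EventuallyEq.rfl, fun ℓ hℓ =>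
    ((ℓ.isBigO_comp _ _).trans_isLittleO s1).congr' (e1.mono fun p hp => ?_) EventuallyEq.rfl⟩
  beta_reduce
  rw [hp, map_sub, hℓ _ (a3 _), sub_zero]
  rfl

theorem eventually_finrank [FiniteDimensional ℂ A] {e : T → A →L[ℂ] A} {t : T}
    (hc : ContinuousAt e t) (hi : ∀ᶠ y in 𝓝 t, e y * e y = e y) :
    ∀ᶠ y in 𝓝 t, finrank ℂ (LinearMap.range (e y : A →ₗ[ℂ] A)) =
      finrank ℂ (LinearMap.range (e t : A →ₗ[ℂ] A)) := by
  have key : ∀ y, e y * e y = e y → LinearMap.trace ℂ A (e y) =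
      finrank ℂ (LinearMap.range (e y : A →ₗ[ℂ] A)) := fun y hy =>
    LinearMap.IsProj.trace ⟨fun v => ⟨v, rfl⟩, by
      rintro _ ⟨v, rfl⟩
      exact DFunLike.congr_fun hy v⟩
  have h1 : ContinuousAt (fun y => LinearMap.trace ℂ A (e y)) t :=
    (LinearMap.continuous_of_finiteDimensional
      (LinearMap.trace ℂ A ∘ₗ ContinuousLinearMap.coeLM ℂ)).continuousAt.comp hc
  filter_upwards [hi, h1.eventually (Metric.ball_mem_nhds _ one_pos)] with y h2 h3
  rw [key y h2, key t hi.self_of_nhds, ← Int.cast_natCast, ← Int.cast_natCast (R := ℂ)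
    (finrank ℂ (LinearMap.range (e t : A →ₗ[ℂ] A))), dist_eq_norm, ← Int.cast_sub,
    Complex.norm_intCast, ← Int.cast_abs, ← Int.cast_one, Int.cast_lt, Int.abs_lt_one_iff,
    sub_eq_zero] at h3
  exact_mod_cast h3

theorem clm_isBigO {α : Type*} {l : Filter α} {m : α → A →L[ℂ] E} {m₀ : A →L[ℂ] E}
    (hm : Tendsto m l (𝓝 m₀)) (u : α → A) : (fun p => m p (u p)) =O[l] u := by
  have h := (hm.isBigO_one ℝ).norm_left.mul (isBigO_refl (fun p => ‖u p‖) l)
  simp only [one_mul] at h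
  exact (IsBigO.of_norm_le fun p => (m p).le_opNorm (u p)).trans h.of_norm_right

theorem clm_isLittleO {α : Type*} {l : Filter α} {m : α → A →L[ℂ] E} {m₀ : A →L[ℂ] E}
    (hm : Tendsto m l (𝓝 m₀)) (u : α → A) : (fun p => m p (u p) - m₀ (u p)) =o[l] u := by
  have h := ((isLittleO_one_iff ℝ).2 (tendsto_sub_nhds_zero_iff.2 hm)).norm_left.mul_isBigO
    (isBigO_refl (fun p => ‖u p‖) l)
  simp only [one_mul] at h
  exact (IsBigO.of_norm_le fun p => (m p - m₀).le_opNorm (u p)).trans_isLittleO h.of_norm_right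

/-- a normal coordinate in an adapted parametrization -/
theorem littleO_adapt [FiniteDimensional ℂ E] {F : Type*} [NormedAddCommGroup F] [NormedSpace ℂ F]
    {ι : T → A} {j : Z → T} {ψ' : E → Z} {x : E} (h' : IsParam (fun z => ι (j z)) ψ' x)
    {Ψ : E × F → T} (h : IsParam ι Ψ (x, 0)) (e : ∀ᶠ a in 𝓝 x, Ψ (a, 0) = j (ψ' a))
    {P : A →L[ℂ] A} (hP : ∀ v ∈ tan ι (j (ψ' x)), P v = 0 → v ∈ tan (fun z => ι (j z)) (ψ' x))
    {σ : T → A} (hσ : (fun p : T × Z => σ p.1 - P (ι p.1 - ι (j p.2))) =o[𝓝 (j (ψ' x), ψ' x)]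
      fun p => ι p.1 - ι (j p.2)) :
    (∀ b, P (fderiv ℂ (fun p => ι (Ψ p)) (x, 0) (0, b)) = 0 → b = 0) ∧
      (fun p => σ (Ψ p) - P (fderiv ℂ (fun p => ι (Ψ p)) (x, 0) (0, p.2))) =o[𝓝 (x, 0)]
        fun p => p.2 := by
  have e0 := e.self_of_nhds
  set D := fderiv ℂ (fun p => ι (Ψ p)) (x, 0) with hD
  refine ⟨fun b hb => ?_, ?_⟩
  · have h1 := hP _ (by rw [← e0, h.tan_eq]; exact ⟨_, rfl⟩) hb
    rw [h'.tan_eq] at h1
    obtain ⟨a, ha⟩ := h1
    rw [ContinuousLinearMap.coe_coe, ← EventuallyEq.fderiv_eq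
      (f₁ := fun a => ι (Ψ (a, 0))) (e.mono fun a ha => congrArg ι ha), fderiv_inl h.an] at ha
    exact (congrArg Prod.snd (h.injective ha)).symm
  have t1 : Tendsto (fun p : E × F => (Ψ p, ψ' p.1)) (𝓝 (x, 0)) (𝓝 (j (ψ' x), ψ' x)) :=
    (e0 ▸ h.lh.cont.tendsto).prodMk_nhds (h'.lh.cont.tendsto.comp (continuousAt_fst (p := (x, 0))))
  have t2 : Tendsto (fun p : E × F => (p, ((p.1, 0) : E × F))) (𝓝 (x, 0)) (𝓝 ((x, 0), (x, 0))) :=
    Continuous.tendsto' (by fun_prop) _ _ rfl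
  have e' : ∀ᶠ p : E × F in 𝓝 (x, 0), Ψ (p.1, 0) = j (ψ' p.1) :=
    (continuousAt_fst (p := ((x, 0) : E × F))).eventually e
  have o1 : (fun p : E × F => ((0, p.2) : E × F)) =O[𝓝 (x, 0)] fun p => p.2 :=
    (ContinuousLinearMap.inr ℂ E F).isBigO_comp _ _
  have s1 : (fun p : E × F => ι (Ψ p) - ι (j (ψ' p.1)) - D (0, p.2)) =o[𝓝 (x, 0)] fun p => p.2 :=
    ((h.an.hasStrictFDerivAt.isLittleO.comp_tendsto t2).congr' (e'.mono fun p hp => by
      simp only [comp_apply, hp, hD]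
      rw [show p - (p.1, 0) = (0, p.2) from Prod.ext (sub_self _) (sub_zero _)])
      (Eventually.of_forall fun p => show p - (p.1, 0) = (0, p.2) from
        Prod.ext (sub_self _) (sub_zero _))).trans_isBigO o1
  have s2 : (fun p : E × F => ι (Ψ p) - ι (j (ψ' p.1))) =O[𝓝 (x, 0)] fun p => p.2 :=
    (s1.isBigO.add ((D.isBigO_comp _ _).trans o1)).congr_left fun p => sub_add_cancel _ _
  refine (((hσ.comp_tendsto t1).trans_isBigO s2).add
    ((P.isBigO_comp _ _).trans_isLittleO s1)).congr_left fun p => ?_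
  simp only [comp_apply, map_sub]
  abel

theorem eventually_zero {α F : Type*} [NormedAddCommGroup F] [NormedSpace ℂ F]
    [FiniteDimensional ℂ F] {l : Filter α} {f : α → A} {b : α → F} {L : F →L[ℂ] A}
    (hL : ∀ v, L v = 0 → v = 0) (h : (fun p => f p - L (b p)) =o[l] b) :
    ∀ᶠ p in l, f p = 0 → b p = 0 := by
  obtain ⟨K, -, hK⟩ := L.toLinearMap.exists_antilipschitzWith (LinearMap.ker_eq_bot'.2 hL)
  have h1 : b =O[l] fun p => L (b p) := IsBigO.of_bound K (Eventually.of_forall fun p => by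
    simpa using hK.le_mul_dist (b p) 0)
  filter_upwards [(h.trans_isBigO h1).def one_half_pos] with p hp h0
  rw [h0, zero_sub, norm_neg] at hp
  exact hL _ (norm_le_zero_iff.1 (by linarith))

end gen

namespace HO

variable (Y : HO) {Z : Type} [TopologicalSpace Z] [MulAction Y.G Z] [ContinuousSMul Y.G Z]
  {j : Z → Y.T}

theorem smul_mem_tan' (he : ∀ (g : Y.G) z, j (g • z) = g • j z) {m : ℕ} {z : Z}
    (hm : IsMfd (fun z => Y.ι (j z)) m z) (g : Y.G) {v : Y.A}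
    (hv : v ∈ tan (fun z => Y.ι (j z)) z) : g • v ∈ tan (fun z => Y.ι (j z)) (g • z) := by
  have := hm.fderiv_mem_tan (ι' := fun z => Y.ι (j z)) (u := fun s => g • s) (by fun_prop)
    ((Ch.lin Y.A g).analyticAt _) (Eventually.of_forall fun s => by rw [he, Y.eqv]; rfl) hv
  rwa [ContinuousLinearMap.fderiv] at this

theorem ng_trans (he : ∀ (g : Y.G) z, j (g • z) = g • j z) {m : ℕ}
    (hm : ∀ z, IsMfd (fun z => Y.ι (j z)) m z) {z : Z} {s : Y.T → Y.G} (hs : ContinuousAt s (j z))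
    {f : Y.T → Y.A} (h : NG Y.ι j ((s (j z))⁻¹ • z) f) :
    NG Y.ι j z fun y => s y • f ((s y)⁻¹ • y) := by
  have hs' : ContinuousAt (fun p : Y.T × Z => s p.1) (j z, z) := hs.comp_of_eq continuousAt_fst rfl
  have t1 : Tendsto (fun p : Y.T × Z => ((s p.1)⁻¹ • p.1, (s p.1)⁻¹ • p.2)) (𝓝 (j z, z))
      (𝓝 (j ((s (j z))⁻¹ • z), (s (j z))⁻¹ • z)) := by
    rw [he]
    exact (hs'.inv.smul continuousAt_fst).prodMk (hs'.inv.smul continuousAt_snd)
  have t2 := (continuous_lin Y.G Y.A).continuousAt.comp hs'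
  have t3 := (continuous_lin Y.G Y.A).continuousAt.comp hs'.inv
  have o1 : ((fun p : Y.T × Z => Y.ι p.1 - Y.ι (j p.2)) ∘
      fun p : Y.T × Z => ((s p.1)⁻¹ • p.1, (s p.1)⁻¹ • p.2)) =O[𝓝 (j z, z)]
      fun p => Y.ι p.1 - Y.ι (j p.2) :=
    (clm_isBigO t3 _).congr_left fun p => by
      simp only [comp_apply, lin_apply, he, Y.eqv, smul_sub, Pi.inv_apply]
  have o2 := (h.1.comp_tendsto t1).trans o1
  have e : ∀ p : Y.T × Z, s p.1 • (f ((s p.1)⁻¹ • p.1) - (Y.ι ((s p.1)⁻¹ • p.1) -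
      Y.ι (j ((s p.1)⁻¹ • p.2)))) = s p.1 • f ((s p.1)⁻¹ • p.1) - (Y.ι p.1 - Y.ι (j p.2)) :=
    fun p => by simp only [he, Y.eqv, smul_sub, smul_inv_smul]
  refine ⟨((clm_isBigO t2 _).trans o2).congr_left e, fun ℓ hℓ => ?_⟩
  refine (((ℓ.isBigO_comp _ _).trans_isLittleO ((clm_isLittleO t2 _).trans_isBigO o2)).add
    (((h.2 (ℓ.comp (Ch.lin Y.A (s (j z)))) fun v hv => hℓ _ ?_).comp_tendsto t1).trans_isBigO
      o1)).congr_left fun p => ?_
  · simpa using Y.smul_mem_tan' he (hm _) (s (j z)) hv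
  · rw [← e, map_sub]
    exact sub_add_cancel _ _

/-- an open neighbourhood `U` of the submanifold, an extension `e` of a projector onto its normal
bundle and a section `σ` which vanishes transversally along the submanifold -/
structure IsNrm (j : Z → Y.T) (r : ℕ) (U : Set Y.T) (e : Y.T → Y.A →L[ℂ] Y.A) (σ : Y.T → Y.A) :
    Prop where
  isOpen : IsOpen U
  inv : ∀ (g : Y.G), ∀ t ∈ U, g • t ∈ U
  mem : ∀ z, j z ∈ U
  cont : ∀ t ∈ U, ContinuousAt e t
  e_smul : ∀ (g : Y.G) t v, e (g • t) (g • v) = g • e t v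
  idem : ∀ t ∈ U, e t * e t = e t
  rank : ∀ t ∈ U, finrank ℂ (LinearMap.range (e t : Y.A →ₗ[ℂ] Y.A)) = r
  cσ : ∀ t ∈ U, ContinuousAt σ t
  σ_smul : ∀ (g : Y.G) t, σ (g • t) = g • σ t
  σ_mem : ∀ t, ∃ v, e t v = σ t
  zero : ∀ t ∈ U, σ t = 0 ↔ t ∈ range j
  ker : ∀ z, ∀ v ∈ tan Y.ι (j z), e (j z) v = 0 ↔ v ∈ tan (fun z => Y.ι (j z)) z
  mem_tan : ∀ z v, e (j z) v ∈ tan Y.ι (j z)
  tr : ∀ z, (fun p : Y.T × Z => σ p.1 - e (j z) (Y.ι p.1 - Y.ι (j p.2))) =o[𝓝 (j z, z)]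
    fun p => Y.ι p.1 - Y.ι (j p.2)

/-- the action of an element as a unit -/
noncomputable def linU (g : Y.G) : (Y.A →L[ℂ] Y.A)ˣ :=
  ⟨Ch.lin Y.A g, Ch.lin Y.A g⁻¹, ContinuousLinearMap.ext (smul_inv_smul g),
    ContinuousLinearMap.ext (inv_smul_smul g)⟩

theorem exists_proj' (hj : IsClosedEmbedding j) (he : ∀ (g : Y.G) z, j (g • z) = g • j z) {m : ℕ}
    (hm : ∀ z, IsMfd (fun z => Y.ι (j z)) m z) : ∃ Q : Y.T → Y.A →L[ℂ] Y.A, Continuous Q ∧
      (∀ (g : Y.G) t v, Q (g • t) (g • v) = g • Q t v) ∧ ∀ z,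
        (∀ v, Q (j z) v ∈ tan (fun z => Y.ι (j z)) z) ∧
          ∀ v ∈ tan (fun z => Y.ι (j z)) z, Q (j z) v = v := by
  have := smulCommClass_real (G := Y.G) (W := HomW Y.G Y.A Y.A)
  obtain ⟨Q, h1, h2, h3⟩ := exists_section Y.free (M := HomW Y.G Y.A Y.A)
    (C := fun t => {Φ | ∀ z, j z = t → (∀ v, Φ.val v ∈ tan (fun z => Y.ι (j z)) z) ∧
      ∀ v ∈ tan (fun z => Y.ι (j z)) z, Φ.val v = v})
    (fun t Φ hΦ Ψ hΨ a b _ _ hab z hz => ⟨fun w => add_mem
      (Submodule.smul_of_tower_mem _ a ((hΦ z hz).1 w))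
      (Submodule.smul_of_tower_mem _ b ((hΨ z hz).1 w)), fun w hw => by
        change a • Φ.val w + b • Ψ.val w = w
        rw [(hΦ z hz).2 w hw, (hΨ z hz).2 w hw, ← add_smul, hab, one_smul]⟩)
    (fun g t Φ hΦ z hz => by
      have h := hΦ (g⁻¹ • z) (by rw [he, hz, inv_smul_smul])
      refine ⟨fun w => ?_, fun w hw => ?_⟩
      · rw [HomW.smul_val]
        simpa only [smul_inv_smul] using Y.smul_mem_tan' he (hm _) g (h.1 (g⁻¹ • w))
      · rw [HomW.smul_val, h.2 _ (Y.smul_mem_tan' he (hm _) g⁻¹ hw), smul_inv_smul])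
    fun t => by
      by_cases ht : t ∈ range j
      · obtain ⟨z, rfl⟩ := ht
        obtain ⟨r, hr⟩ := exists_retr (hm z)
        refine ⟨_, (Y.cι.continuousAt.eventually hr.self_of_nhds.1.eventually_analyticAt).and
          (eventually_of_emb hj.isEmbedding hr), fun y => fderiv ℂ r (Y.ι y),
          fun y hy => (hy.1.fderiv.continuousAt.comp Y.cι.continuousAt).continuousWithinAt, ?_⟩
        rintro _ hy x rfl
        exact (hy.2 x rfl).2.2
      · exact ⟨_, hj.isClosed_range.isOpen_compl.mem_nhds ht, 0, continuousOn_const,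
          fun y hy z hz => absurd ⟨z, hz⟩ hy⟩
  refine ⟨Q, h1, fun g t v => ?_, fun z => h3 _ z rfl⟩
  change (Q (g • t)).val (g • v) = _
  rw [h2, HomW.smul_val, inv_smul_smul]
  rfl

theorem exists_isNrm (hj : IsClosedEmbedding j) (he : ∀ (g : Y.G) z, j (g • z) = g • j z)
    {m r : ℕ} (hm : ∀ z, IsMfd (fun z => Y.ι (j z)) (finrank ℂ Y.L + m) z) (hr : m + r = Y.n) :
    ∃ U e σ, Y.IsNrm j r U e σ := by
  obtain ⟨Q, q1, q2, q3⟩ := Y.exists_proj' hj he hm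
  obtain ⟨σ, s1, s2, s3⟩ := exists_germ (M := Y.A) Y.free (a := fun g v => g • v)
    ⟨one_smul _, mul_smul, smul_add, (smulCommClass_real (G := Y.G) (W := Y.A)).smul_comm,
      continuous_smul⟩ (Good := fun t f => ∀ z, j z = t → NG Y.ι j z f)
    ⟨by rintro _ f f' h e z rfl; exact (h z rfl).congr e, by
      rintro _ κ s c f h1 h2 h3 z rfl
      exact NG.comb s c f h1 h2 fun i hi => h3 i hi z rfl, by
      rintro _ s f h1 h2 z rfl
      exact Y.ng_trans he hm h1 (h2 _ (he _ _))⟩ fun t => by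
    by_cases ht : t ∈ range j
    · obtain ⟨z, rfl⟩ := ht
      exact exists_ng Y.cι hj.isEmbedding (hm z)
    · exact ⟨0, mem_of_superset (hj.isClosed_range.isOpen_compl.mem_nhds ht) fun y hy =>
        ⟨continuousAt_const, fun z hz => absurd ⟨z, hz⟩ hy⟩⟩
  let P : Y.T → Y.A →L[ℂ] Y.A := fun t => (1 - Q t) * Y.tanB.P t
  have Pa : ∀ t v, P t v = Y.tanB.P t v - Q t (Y.tanB.P t v) := fun _ _ => rfl
  have Pc : Continuous P := (continuous_const.sub q1).mul Y.tanB.P_cont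
  have Ps : ∀ (g : Y.G) t, P (g • t) = ConjAct.toConjAct (Y.linU g) • P t := fun g t =>
    ContinuousLinearMap.ext fun v => by
      change _ = g • P t (g⁻¹ • v)
      rw [Pa, Pa, smul_sub, ← q2, ← Y.tanB.P_smul, smul_inv_smul]
  have le : ∀ z, tan (fun z => Y.ι (j z)) z ≤ tan Y.ι (j z) := fun z =>
    tan_le_of_comp hj.continuous.continuousAt
  have Pt : ∀ z v, P (j z) v ∈ tan Y.ι (j z) := fun z v =>
    sub_mem (Y.tanB.P_mem _ v) (le z ((q3 z).1 _))
  have Pk : ∀ z, ∀ v ∈ tan Y.ι (j z), P (j z) v = 0 ↔ v ∈ tan (fun z => Y.ι (j z)) z :=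
    fun z v hv => by
      rw [Pa, Y.tanB.P_eq hv, sub_eq_zero]
      exact ⟨fun h => h ▸ (q3 z).1 v, fun h => ((q3 z).2 v h).symm⟩
  have Pi : ∀ z, P (j z) * P (j z) = P (j z) := fun z => ContinuousLinearMap.ext fun v => by
    rw [mul_apply_eq_comp, Pa _ (P _ v), Y.tanB.P_eq (Pt z v), Pa, map_sub,
      (q3 z).2 _ ((q3 z).1 _), sub_self, sub_zero]
  have Pe : ∀ z, idm (P (j z)) = P (j z) := fun z => idm_of_idem (Pi z)
  have es : ∀ (g : Y.G) t v, idm (P (g • t)) (g • v) = g • idm (P t) v := fun g t v => by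
    rw [Ps, idm_smul]
    exact congrArg (fun w => g • idm (P t) w) (inv_smul_smul g v)
  have ec : ∀ t, P t ∈ idD _ → ContinuousAt (fun t => idm (P t)) t := fun t ht =>
    (continuousAt_idm' ht).comp Pc.continuousAt
  have tr : ∀ z, (fun p : Y.T × Z => idm (P p.1) (σ p.1) -
      idm (P (j z)) (Y.ι p.1 - Y.ι (j p.2))) =o[𝓝 (j z, z)] fun p => Y.ι p.1 - Y.ι (j p.2) :=
    fun z => by
      obtain ⟨h1, h2⟩ := s3 _ z rfl
      have h3 : (fun p : Y.T × Z => σ p.1) =O[𝓝 (j z, z)] fun p => Y.ι p.1 - Y.ι (j p.2) :=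
        (h1.add (isBigO_refl _ _)).congr_left fun p => sub_add_cancel _ _
      refine (((clm_isLittleO ((ec _ (mem_idD_of_idem (Pi z))).comp_of_eq
        (continuousAt_fst (p := (j z, z))) rfl) _).trans_isBigO h3).add
        (h2 (idm (P (j z))) fun v hv => by rw [Pe, Pk z v (le z hv)]; exact hv)).congr_left
        fun p => ?_
      simp only [comp_apply, map_sub]
      abel
  let S : Set Y.T := {t | P t ∈ idD _ ∧
    finrank ℂ (LinearMap.range (idm (P t)).toLinearMap) = r ∧ (idm (P t) (σ t) = 0 → t ∈ range j)}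
  have hS : ∀ (g : Y.G), ∀ t ∈ S, g • t ∈ S := fun g t ht => ⟨Ps g t ▸ smul_mem_idD ht.1 _, by
    rw [← ht.2.1, ← LinearEquiv.finrank_map_eq (DistribMulAction.toLinearEquiv ℂ Y.A g)
      (LinearMap.range (idm (P t)).toLinearMap)]
    refine congrArg (fun S : Submodule ℂ Y.A => finrank ℂ S) (Submodule.ext fun v => ?_)
    refine ⟨fun ⟨w, hw⟩ => ⟨_, ⟨g⁻¹ • w, rfl⟩, ?_⟩, ?_⟩
    · exact (es g t _).symm.trans (by rw [smul_inv_smul]; exact hw)
    · rintro ⟨_, ⟨w, rfl⟩, rfl⟩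
      exact ⟨g • w, es g t w⟩, fun h => by
    rw [s2, es, smul_eq_zero_iff_eq] at h
    exact (smul_mem_range_iff he g t).2 (ht.2.2 h)⟩
  refine ⟨interior S, fun t => idm (P t), fun t => idm (P t) (σ t), isOpen_interior, fun g t ht =>
    ?_, fun z => mem_interior_iff_mem_nhds.2 ?_, fun t ht => ec t (interior_subset ht).1, es,
    fun t ht => idm_idem (interior_subset ht).1, fun t ht => (interior_subset ht).2.1,
    fun t ht => (ec t (interior_subset ht).1).clm_apply s1.continuousAt,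
    fun g t => by rw [s2, es], fun t => ⟨_, rfl⟩, fun t ht => ⟨(interior_subset ht).2.2, ?_⟩,
    fun z => by rw [Pe]; exact Pk z, fun z => by rw [Pe]; exact Pt z, tr⟩
  · refine mem_interior_iff_mem_nhds.2 (mem_of_superset ((continuous_const_smul g⁻¹).continuousAt
      (by rw [inv_smul_smul]; exact mem_interior_iff_mem_nhds.1 ht)) fun x hx => ?_)
    simpa using hS g _ hx
  · have h1 : ∀ᶠ y in 𝓝 (j z), P y ∈ idD _ :=
      Pc.continuousAt.eventually (isOpen_idD.mem_nhds (mem_idD_of_idem (Pi z)))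
    refine h1.and (Eventually.and ?_ ?_)
    · filter_upwards [eventually_finrank (ec _ h1.self_of_nhds) (h1.mono fun y => idm_idem)]
        with y hy
      have h2 := finrank_inf_ker (tan Y.ι (j z)) (P (j z) : Y.A →ₗ[ℂ] Y.A)
      rw [show tan Y.ι (j z) ⊓ LinearMap.ker (P (j z) : Y.A →ₗ[ℂ] Y.A) =
        tan (fun z => Y.ι (j z)) z from Submodule.ext fun v => ⟨fun h => (Pk z v h.1).1 h.2,
          fun h => ⟨le z h, (Pk z v (le z h)).2 h⟩⟩, (hm z).finrank_tan, (Y.mfd _).finrank_tan,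
        show (tan Y.ι (j z)).map (P (j z) : Y.A →ₗ[ℂ] Y.A) = LinearMap.range _ from
          le_antisymm LinearMap.map_le_range (by
            rintro _ ⟨v, rfl⟩
            exact ⟨_, Pt z v, DFunLike.congr_fun (Pi z) v⟩)] at h2
      rw [hy, Pe]
      omega
    · obtain ⟨ψ', h', rfl⟩ := hm z
      obtain ⟨Ψ, h2, h3⟩ := exists_adapt h' (Y.mfd _) hj.continuous.continuousAt (r := r)
        (by simp [← hr, add_assoc])
      obtain ⟨h4, h5⟩ := littleO_adapt h' h2 h3 (P := idm (P (j (ψ' 0))))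
        (σ := fun t => idm (P t) (σ t)) (fun v hv => by rw [Pe]; exact (Pk _ v hv).1) (tr _)
      have h6 := eventually_zero (L := (idm (P (j (ψ' 0)))).comp
        ((fderiv ℂ (fun p => Y.ι (Ψ p)) (0, 0)).comp (ContinuousLinearMap.inr ℂ _ _))) h4 h5
      rw [← h3.self_of_nhds, ← h2.lh.map_nhds, eventually_map]
      filter_upwards [h6, (continuousAt_fst (p := (0, 0))).eventually h3] with p h7 h8 h9
      exact ⟨_, h8.symm.trans (by rw [← h7 h9])⟩
  · rintro ⟨z, rfl⟩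
    simpa using (tr z).isBigO.eq_zero_imp.self_of_nhds

end HO

end Vale.Agent.P269.Loc
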