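import Vale.Agent.P269.Loc.TH
import Vale.Agent.P269.Loc.Nrm

/-!
# The self-intersection formula for suborbifolds
-/

set_option linter.unusedSectionVars false

namespace Vale.Agent.P269.Loc

open Set Function Topology Filter Module Asymptotics Vale.Agent.P291Z Vale.Agent.P269.Ch
  Vale.Agent.P269.Holo Vale.Agent.P269.Orb

namespace HO

variable (Y : HO)

theorem isOpenEmbedding_opnI (O : SubMulAction Y.G Y.T) (hO : IsOpen (O : Set Y.T)) :
    IsOpenEmbedding (Y.opnI O hO).map :=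
  (Sat.of_surj (m := Y.opnI O hO) surjective_id).isOpenEmbedding hO.isOpenEmbedding_subtypeVal

theorem tan_opn (O : SubMulAction Y.G Y.T) (hO : IsOpen (O : Set Y.T)) (t : O) :
    tan (Y.opn O hO).ι t = tan Y.ι t.1 :=
  tan_comp_lh (ι := Y.ι) (hO.isOpenEmbedding_subtypeVal.lh t)

/-- the fundamental class restricts to the fundamental class of an open subset -/
theorem res_opn (O : SubMulAction Y.G Y.T) (hO : IsOpen (O : Set Y.T)) :
    res (Y.opnI O hO).map Y.fund = (Y.opn O hO).fund := by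
  refine (Y.holOrb'.res_fund Y.isQuo (Y.opn O hO).holOrb' (Y.opn O hO).isQuo
    (Y.isOpenEmbedding_opnI O hO) (l := 1) ((Y.opn O hO).isQuo.meets dense_univ)
    fun t _ => ?_).trans (one_smul ℂ _)
  obtain ⟨φ, rfl, h2⟩ := (Y.opn O hO).exists_slK t
  have h3 : IsSlK Y.κ Y.ι (fun z => (φ z).1) 0 := IsParam.push (u := Subtype.val) h2
    (hO.isOpenEmbedding_subtypeVal.lh _) HolAt.self HolAt.self
  exact ⟨φ, fun z => (φ z).1, isSlice_iff.2 (h2.isSl Y.exp), rfl, isSlice_iff.2 (h3.isSl Y.exp),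
    Eventually.of_forall fun z => ((Y.opnI O hO).map_π _).symm, by
      rw [one_mul]
      exact congrArg Nat.cast (stab_of_injective (G := Y.G) (j := (Subtype.val : O → Y.T))
        Subtype.val_injective (fun _ _ => rfl) (φ 0)).symm⟩

section nrm

variable {Z : Type} [TopologicalSpace Z] [MulAction Y.G Z] [ContinuousSMul Y.G Z] {j : Z → Y.T}

/-- a slice adapted to a suborbifold and a normal coordinate -/
theorem exists_adapt_sl (hj : Continuous j) (he : ∀ (g : Y.G) z, j (g • z) = g • j z) {n r : ℕ}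
    (hr : n + r = Y.n) {φ : (Fin n → ℂ) → Z} (hφ : IsSlK Y.κ (fun z => Y.ι (j z)) φ 0)
    {P : Y.A →L[ℂ] Y.A}
    (hP : ∀ v ∈ tan Y.ι (j (φ 0)), P v = 0 → v ∈ tan (fun z => Y.ι (j z)) (φ 0)) {σ : Y.T → Y.A}
    (hσ : (fun p : Y.T × Z => σ p.1 - P (Y.ι p.1 - Y.ι (j p.2))) =o[𝓝 (j (φ 0), φ 0)]
      fun p => Y.ι p.1 - Y.ι (j p.2)) :
    ∃ (Φ : (Fin n → ℂ) × (Fin r → ℂ) → Y.T) (L : (Fin r → ℂ) →L[ℂ] Y.A),
      IsSlK Y.κ Y.ι Φ (0, 0) ∧ (∀ᶠ v in 𝓝 0, Φ (v, 0) = j (φ v)) ∧ Injective L ∧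
      (fun p => σ (Φ p) - L p.2) =o[𝓝 (0, 0)] fun p => p.2 := by
  have e0 : Y.κ 0 • φ 0 = φ 0 := by rw [Y.exp.zero, one_smul]
  obtain ⟨Ψ, h1, h2⟩ := exists_adapt hφ (Y.mfd _) hj.continuousAt (r := r)
    (by simp [← hr, add_assoc])
  obtain ⟨h3, h4⟩ := littleO_adapt hφ h1 h2 (P := P) (σ := σ) (by rwa [e0]) (by rwa [e0])
  set D := fderiv ℂ (fun p => Y.ι (Ψ p)) ((0, 0), 0) with hD
  let a : (Fin n → ℂ) × (Fin r → ℂ) →L[ℂ] (Y.L × (Fin n → ℂ)) × (Fin r → ℂ) :=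
    (ContinuousLinearMap.inr ℂ _ _).prodMap (ContinuousLinearMap.id ℂ _)
  let b : Y.L →L[ℂ] (Y.L × (Fin n → ℂ)) × (Fin r → ℂ) :=
    (ContinuousLinearMap.inl ℂ _ _).comp (ContinuousLinearMap.inl ℂ _ _)
  have ta : Tendsto a (𝓝 (0, 0)) (𝓝 ((0, 0), 0)) := a.continuous.tendsto' _ _ rfl
  have h5 : ∀ᶠ v in 𝓝 0, Ψ (a (v, 0)) = j (φ v) :=
    ((tendsto_inr (0 : Y.L) (0 : Fin n → ℂ)).eventually h2).mono fun v hv =>
      hv.trans (by rw [Y.exp.zero, one_smul])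
  have h6 : AnalyticAt ℂ (fun p => Y.ι (Ψ p)) (a (0, 0)) := h1.an
  have h7 : AnalyticAt ℂ (fun p => Y.ι (Ψ p)) (b 0) := h1.an
  have h8 : Y.inf (Ψ (a (0, 0))) = D.comp b := by
    have := fderiv_comp_an h7 (b.analyticAt 0)
    rw [b.fderiv] at this
    refine Eq.trans (EventuallyEq.fderiv_eq ?_) this
    rw [h5.self_of_nhds]
    exact ((tendsto_inl (0 : Y.L) (0 : Fin n → ℂ)).eventually h2).mono fun x hx =>
      congrArg Y.ι ((he _ _).symm.trans hx.symm)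
  refine ⟨fun p => Ψ (a p), P.comp (D.comp (ContinuousLinearMap.inr ℂ _ _)),
    IsSlK.of_transverse Y.exp (Y.mfd _) (Y.hol _) (h1.lh.cont.tendsto.comp ta)
      (h6.comp (a.analyticAt _)) ?_ (by simp [← hr]), h5,
    (injective_iff_map_eq_zero _).2 h3, h4.comp_tendsto ta⟩
  have h9 := fderiv_comp_an h6 (a.analyticAt (0, 0))
  rw [a.fderiv] at h9
  rw [h9]
  refine (injective_iff_map_eq_zero _).2 fun p hp => ?_
  have h10 : D (b p.1 + a p.2) = D 0 := by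
    rw [map_add, map_zero, ← hp]
    exact congrArg (· + D (a p.2)) (DFunLike.congr_fun h8 p.1).symm
  have h11 : ((p.1 + 0, 0 + p.2.1), 0 + p.2.2) = ((0, 0), 0) := h1.injective h10
  rw [add_zero, zero_add, zero_add] at h11
  exact Prod.ext (congrArg (·.1.1) h11) (Prod.ext (congrArg (·.1.2) h11) (congrArg (·.2) h11))

variable {Y} {r : ℕ} {U : Set Y.T} {e : Y.T → Y.A →L[ℂ] Y.A} {σ : Y.T → Y.A}
  (h : Y.IsNrm j r U e σ)

/-- the neighbourhood as an invariant set -/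
def IsNrm.O : SubMulAction Y.G Y.T := ⟨U, fun g _ ht => h.inv g _ ht⟩

/-- the neighbourhood as an orbifold -/
noncomputable def IsNrm.V : HO := Y.opn h.O h.isOpen

/-- the inclusion of the submanifold into the neighbourhood -/
def IsNrm.inc (z : Z) : h.O := ⟨j z, h.mem z⟩

include h in
theorem IsNrm.cont' : Continuous fun t : h.O => e t.1 :=
  continuous_iff_continuousAt.2 fun t => (h.cont _ t.2).comp continuous_subtype_val.continuousAt

include h in
theorem IsNrm.idem' {t : Y.T} (ht : t ∈ U) (v : Y.A) : e t (e t v) = e t v :=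
  DFunLike.congr_fun (h.idem t ht) v

/-- the extension of the normal bundle -/
@[reducible] noncomputable def IsNrm.N : VB h.V.toSp :=
  h.V.tanB.sub (fun t : h.O => LinearMap.range (e t.1 : Y.A →ₗ[ℂ] Y.A)) r
    (isClosed_of_proj (F := fun t : h.O => LinearMap.range (e t.1 : Y.A →ₗ[ℂ] Y.A)) fun t =>
      ⟨fun t => e t.1, h.cont'.continuousAt, Eventually.of_forall fun x w =>
        ⟨by rintro ⟨v, rfl⟩; exact h.idem' x.2 v, fun hw => ⟨w, hw⟩⟩⟩)
    (fun t => h.rank _ t.2) (by rintro g t _ ⟨v, rfl⟩; exact ⟨_, h.e_smul g t.1 v⟩)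

theorem IsNrm.isSec : h.N.IsSec fun t : h.O => σ t.1 :=
  ⟨fun t => h.σ_mem t.1, continuous_iff_continuousAt.2 fun t : h.O =>
    (h.cσ _ t.2).comp continuous_subtype_val.continuousAt, fun g t => h.σ_smul g t.1⟩

/-- the fundamental class of the submanifold is the localised Euler class -/
theorem IsNrm.gys_eul [Nice Z] (hj : IsEmbedding j) (he : ∀ (g : Y.G) z, j (g • z) = g • j z)
    {n : ℕ} (hm : ∀ z, IsMfd (fun z => Y.ι (j z)) (finrank ℂ Y.L + n) z) (hr : n + r = Y.n)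
    {X : Type} [TopologicalSpace X] {π : Z → X} (hπ : IsQuo Y.G π) {i : X → h.V.X}
    (hi : IsClosedEmbedding i) (hsq : ∀ z, i (π z) = h.V.π (h.inc z)) :
    gys i h.isSec.eul h.V.fund = fundQ Y.G (fun z => Y.ι (j z)) π n := by
  have hc : Continuous h.inc := hj.continuous.subtype_mk _
  have he' : ∀ (g : Y.G) z, h.inc (g • z) = g • h.inc z := fun g z => Subtype.ext (he g z)
  have hn : h.V.n = n + r := hr.symm
  let _ : MulAction h.V.G Z := ‹MulAction Y.G Z›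
  have : ContinuousSMul h.V.G Z := ‹ContinuousSMul Y.G Z›
  rw [fund, hn, ← one_smul ℂ (fundQ Y.G (fun z => Y.ι (j z)) π n)]
  refine (Y.holOrb_sub hj.continuous he hm).gys_eul (B₀ := Fin n → ℂ) (B₁ := Fin r → ℂ) hπ
    (hn ▸ h.V.holOrb') h.isSec rfl (finrank_fin_fun ℂ) (finrank_fin_fun ℂ) hi (fun t ht => ?_)
    (hπ.meets dense_univ) fun z _ => ?_
  · obtain ⟨z, hz⟩ := (h.zero _ t.2).1 ht
    exact ⟨_, (hsq z).trans (congrArg h.V.π (Subtype.ext hz))⟩
  obtain ⟨φ, rfl, h1⟩ := (hm z).exists_slK Y.exp ((Y.hol _).pull hj.continuous.continuousAt he)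
    (inf_pull (κ := Y.κ) (ι := Y.ι) he z ▸ Y.inf_inj _) rfl
  obtain ⟨Φ, L, h2, h3, h4, h5⟩ := h.V.exists_adapt_sl (j := h.inc) hc he' hr h1
    (P := e (j (φ 0))) (σ := fun t : h.O => σ t.1)
    (fun v hv => (h.ker _ v ((Y.tan_opn h.O h.isOpen _).le hv)).1)
    ((h.tr (φ 0)).comp_tendsto (k := fun p : h.O × Z => (p.1.1, p.2))
      (Continuous.tendsto' (by fun_prop) _ _ rfl))
  exact ⟨φ, Φ, 0, L, h1.isSl Y.exp, rfl, h2.isSl Y.exp, h3.mono fun v hv => by rw [hsq, hv], h4, h5,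
    by rw [one_mul, h3.self_of_nhds]
       exact congrArg Nat.cast (stab_of_injective (G := Y.G) (j := h.inc)
        (fun _ _ e => hj.injective (congrArg Subtype.val e)) he' _).symm⟩

end nrm

/-- **the self-intersection formula** -/
theorem selfInt {Z X U : Type} [TopologicalSpace Z] [MulAction Y.G Z] [TopologicalSpace X]
    [TopologicalSpace U] [Nice Z] [Nice X] [Nice U] {j : Z → Y.T} (hj : IsEmbedding j)
    (he : ∀ (g : Y.G) z, j (g • z) = g • j z) {n : ℕ}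
    (hm : ∀ z, IsMfd (fun z => Y.ι (j z)) (finrank ℂ Y.L + n) z) {π : Z → X} (hπ : IsQuo Y.G π)
    {jU : U → Y.X} (hU : IsOpenEmbedding jU) {iU : X → U} (hi : IsClosedEmbedding iU)
    (hsq : ∀ z, jU (iU (π z)) = Y.π (j z)) {θ : Coch U} (hθ : supp (δ θ) = ∅)
    (hθ' : supp θ ⊆ range iU)
    (e : gys iU θ (res jU Y.fund) = fundQ Y.G (fun z => Y.ι (j z)) π n)
    {Y' : Ch.Sp} (m : Mor Y' Y.toSp) {z : Y'.T → Z} (hz : ∀ t, j (z t) = m.f t) {μ : C(Y'.X, U)}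
    (hμ : ∀ x, jU (μ x) = m.map x) {K K' : VB Y'} {A : Y'.T → K.W →ₗ[ℂ] K'.W}
    {C : Y'.T → K'.W →ₗ[ℂ] Y.A} (hA : Hom (Mor.id Y') K K' A)
    (inj : ∀ t w, w ∈ K.F t → A t w = 0 → w = 0) (hC : Hom m K' Y.tanB C)
    (ex : ∀ t w, w ∈ K'.F t →
      (C t w ∈ tan (fun z => Y.ι (j z)) (z t) ↔ ∃ w' ∈ K.F t, A t w' = w))
    (surj : ∀ t, ∀ v ∈ tan Y.ι (m.f t), ∃ w ∈ K'.F t, v - C t w ∈ tan (fun z => Y.ι (j z)) (z t)) :
    K'.eu.1 = K.eu.1 * hcls (pull μ θ) := by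
  cases isEmpty_or_nonempty Y'.T with
  | inl _ => exact Subsingleton.elim _ _
  | inr hne =>
  have : ContinuousSMul Y.G Z := hj.isInducing.continuousSMul continuous_id (he _ _)
  have le : ∀ z, tan (fun z => Y.ι (j z)) z ≤ tan Y.ι (j z) := fun z =>
    tan_le_of_comp hj.continuous.continuousAt
  obtain ⟨r, hr⟩ : ∃ r, n + r = Y.n := by
    obtain ⟨t⟩ := hne
    have := Submodule.finrank_mono (le (z t))
    rw [(hm _).finrank_tan, (Y.mfd _).finrank_tan] at this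
    exact ⟨Y.n - n, by omega⟩
  let O : SubMulAction Y.G Y.T := ⟨Y.π ⁻¹' range jU, fun g t ht => by
    rwa [mem_preimage, Y.π_smul]⟩
  have hO : IsOpen (O : Set Y.T) := hU.isOpen_range.preimage Y.cont
  let j₁ : Z → O := fun z => ⟨j z, _, hsq z⟩
  have he₁ : ∀ (g : Y.G) z, j₁ (g • z) = g • j₁ z := fun g z => Subtype.ext (he g z)
  have hj₁ : IsClosedEmbedding j₁ := by
    refine ⟨hj.codRestrict (O : Set Y.T) fun z => (j₁ z).2, ?_⟩
    choose k hk using fun t : O => t.2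
    have : range j₁ = k ⁻¹' range iU := by
      ext t
      refine ⟨by rintro ⟨z, rfl⟩; exact ⟨_, hU.injective ((hsq z).trans (hk (j₁ z)).symm)⟩, ?_⟩
      rintro ⟨x, hx⟩
      obtain ⟨z, rfl⟩ := hπ.surj x
      obtain ⟨g, hg⟩ := (Y.fib _ _).1 ((hsq z).symm.trans ((congrArg jU hx).trans (hk t)))
      exact ⟨g • z, Subtype.ext ((he g z).trans hg)⟩
    rw [this]
    exact hi.isClosed_range.preimage (hU.isEmbedding.continuous_iff.2
      (by rw [show jU ∘ k = _ from funext hk]; exact Y.cont.comp continuous_subtype_val))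
  let _ : MulAction (Y.opn O hO).G Z := ‹MulAction Y.G Z›
  have : ContinuousSMul (Y.opn O hO).G Z := ‹ContinuousSMul Y.G Z›
  obtain ⟨V, p, s, h⟩ := (Y.opn O hO).exists_isNrm (j := j₁) hj₁ he₁ hm hr
  let I := (Y.opnI O hO).comp ((Y.opn O hO).opnI h.O h.isOpen)
  have hI : ⇑I.map = (Y.opnI O hO).map ∘ ((Y.opn O hO).opnI h.O h.isOpen).map :=
    congrArg DFunLike.coe (Mor.map_comp _ _)
  have o₁ := Y.isOpenEmbedding_opnI O hO
  have o₂ := (Y.opn O hO).isOpenEmbedding_opnI h.O h.isOpen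
  have hk : ∀ x : h.V.X, ∃ u, jU u = I.map x := fun x => by
    obtain ⟨t, rfl⟩ := h.V.surj x
    exact (I.map_π t).symm ▸ t.1.2
  choose g hg using hk
  have hg' : jU ∘ g = I.map := funext hg
  have og : IsOpenEmbedding g := IsOpenEmbedding.of_comp g hU (by rw [hg', hI]; exact o₁.comp o₂)
  obtain ⟨i, hi'⟩ := hπ.exists_lift (fun z => h.V.π (h.inc z)) fun a z =>
    ((h.V.fib _ _).2 ⟨a, Subtype.ext (he₁ a z).symm⟩).symm
  have gi : ∀ x, g (i x) = iU x := fun x => by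
    obtain ⟨z, rfl⟩ := hπ.surj x
    exact hU.injective (by rw [hg, hi', hsq]; exact I.map_π _)
  have ci : IsClosedEmbedding i := IsClosedEmbedding.of_comp og.isEmbedding
    (by rwa [show g ∘ i = iU from funext gi])
  have hs : g ⁻¹' range iU ⊆ range i := fun x ⟨y, hy⟩ => ⟨y, og.injective ((gi y).trans hy)⟩
  have e₁ := res_gys hi ci og IsOpenEmbedding.id gi hs hθ hθ' (res jU Y.fund)
  have e₂ := res_push_homeo IsHomeomorph.id (fundQ Y.G (fun z => Y.ι (j z)) π n)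
  rw [push_id'] at e₂
  have e₃ : res g (res jU Y.fund) = h.V.fund := by
    rw [res_res og hU, hg', hI]
    exact (res_res o₂ o₁ _).symm.trans ((congrArg _ (Y.res_opn O hO)).trans (res_opn _ _ _))
  rw [e, e₂, e₃] at e₁
  have c₁ := cocycle_pull og.continuous hθ
  have c₂ := h.V.ori.cohom_of_gys ci h.isSec.isCo.cocycle (h.isSec.isCo.supp.trans (by
      rintro _ ⟨t, ht, rfl⟩
      obtain ⟨z, hz⟩ := (h.zero _ t.2).1 ht
      exact ⟨_, (hi' z).trans (congrArg h.V.π (Subtype.ext hz))⟩)) c₁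
    ((supp_pull og.continuous θ).trans ((preimage_mono hθ').trans hs))
    ((h.gys_eul hj₁.isEmbedding he₁ hm hr hπ ci hi').trans e₁)
  have cz : Continuous z := hj.continuous_iff.2 (by rw [show j ∘ z = m.f from funext hz]; exact m.cf)
  have ez : ∀ a t, z (a • t) = m.ρ a • z t := fun a t => hj.injective (by rw [he, hz, hz, m.eqv])
  let m₂ : Mor Y' h.V.toSp := ⟨m.ρ, fun t => h.inc (z t), m.cρ,
    (hj₁.continuous.subtype_mk _).comp cz, fun a t => Subtype.ext (ez a t ▸ he₁ _ _)⟩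
  have tn : ∀ y, tan (Y.opn O hO).ι (j₁ y) = tan Y.ι (j y) := fun y => Y.tan_opn O hO _
  have cm : ∀ t w, w ∈ K'.F t → C t w ∈ tan (Y.opn O hO).ι (j₁ (z t)) := fun t w hw => by
    rw [tn, hz]
    exact hC.mem t w hw
  have hE : Ch.Exact K K' (h.N.pb m₂) A fun t => (p (j₁ (z t))).toLinearMap ∘ₗ C t := by
    refine ⟨hA, ⟨fun t w _ => ⟨_, rfl⟩, (h.cont'.comp (m₂.cf.comp
      (continuous_fst.comp continuous_subtype_val))).clm_apply hC.cont, fun a t w hw => ?_⟩, inj,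
      ?_, fun t w hw => (h.ker _ _ (cm t w hw)).trans (ex t w hw)⟩
    · refine Eq.trans ?_ (h.e_smul (m.ρ a) (j₁ (z t)) (C t w))
      change p (j₁ (z (a • t))) (C (a • t) (a • w)) = _
      rw [hC.eqv a t w hw, ez, he₁]
      rfl
    · rintro t _ ⟨v, rfl⟩
      obtain ⟨w, hw, h1⟩ := surj t _ (by rw [← hz, ← tn]; exact h.mem_tan (z t) v)
      have h2 := (map_sub _ _ _).symm.trans ((h.ker _ _ ((tn _).ge (le _ h1))).2 h1)
      exact ⟨w, hw, (sub_eq_zero.1 h2).symm.trans (h.idem' (h.mem _) v)⟩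
  rw [hE.eu, VB.eu_pb, MulMemClass.coe_mul, Hev.coe_map, ← h.isSec.hcls_eul, c₂.hcls_eq c₁,
    H.map_hcls _ c₁, pull_pull]
  refine congrArg (fun f => K.eu.1 * hcls (pull f θ)) (funext fun x => hU.injective ?_)
  obtain ⟨t, rfl⟩ := Y'.surj x
  rw [comp_apply, hg, hμ, Mor.map_π, Mor.map_π, ← hz]
  exact I.map_π _

end HO

end Vale.Agent.P269.Loc
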