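import Mathlib

/-!
# Algebra of equivariant integrals

A family of functionals `φ M` on polynomials (integration over the Borel family over `(ℙ^M)^σ`) is
represented by the polynomial `P` if `φ M f` is the coefficient of `∏ X i ^ M` in `P f`.
-/

namespace Vale.Agent.P269.Loc

open MvPolynomial TensorProduct

variable {σ : Type} [Fintype σ]

/-- the equivariant cohomology ring of a point -/
abbrev R (σ : Type) : Type := MvPolynomial σ ℂ

/-- the exponent of `∏ X i ^ M` -/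
noncomputable def topM (σ : Type) [Fintype σ] (M : ℕ) : σ →₀ ℕ :=
  Finsupp.equivFunOnFinite.symm fun _ => M

@[simp] theorem topM_apply (M : ℕ) (i : σ) : topM σ M i = M := rfl

theorem topM_zero : topM σ 0 = 0 := by ext; simp

theorem topM_succ (M : ℕ) : topM σ (M + 1) = topM σ 1 + topM σ M := by
  ext; simp [add_comm]

theorem degree_topM (M : ℕ) : (topM σ M).degree = Fintype.card σ * M := by
  rw [Finsupp.degree_eq_sum]; simp

theorem prod_X_eq : ∏ i : σ, (X i : R σ) = monomial (topM σ 1) 1 := by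
  rw [monomial_eq, C_1, one_mul, Finsupp.prod_fintype _ _ (fun i => pow_zero _)]
  simp

theorem exists_le_topM (k : σ →₀ ℕ) : ∃ M, k ≤ topM σ M :=
  ⟨∑ i, k i, fun i => Finset.single_le_sum (f := k) (fun _ _ => Nat.zero_le _) (Finset.mem_univ i)⟩

theorem topM_mono {M N : ℕ} (h : M ≤ N) : topM σ M ≤ topM σ N := fun _ => h

/-- the linear form of an integral weight -/
noncomputable def lin (w : σ → ℤ) : R σ := ∑ i, (w i : ℂ) • X i

theorem lin_ne_zero {w : σ → ℤ} (hw : w ≠ 0) : lin w ≠ 0 := by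
  classical
  intro h
  apply hw
  funext i
  have := congrArg (coeff (Finsupp.single i 1)) h
  rw [lin, coeff_sum] at this
  simp only [coeff_smul, coeff_X, Finsupp.single_left_inj one_ne_zero, smul_eq_mul, mul_ite,
    mul_one, mul_zero, Finset.sum_ite_eq', Finset.mem_univ, if_true, coeff_zero] at this
  exact_mod_cast this

theorem lin_add (w w' : σ → ℤ) : lin (w + w') = lin w + lin w' := by
  simp [lin, add_smul, Finset.sum_add_distrib]

theorem lin_zero : lin (0 : σ → ℤ) = 0 := by simp [lin]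

theorem lin_smul (c : ℤ) (w : σ → ℤ) : lin (c • w) = (c : ℂ) • lin w := by
  simp [lin, Finset.smul_sum, mul_smul]

theorem lin_single [DecidableEq σ] (i : σ) : lin (Pi.single i 1) = X i := by
  rw [lin, Finset.sum_eq_single i]
  · simp
  · intro j _ hj
    simp [Pi.single_eq_of_ne hj]
  · simp

theorem isHomogeneous_lin (w : σ → ℤ) : (lin w).IsHomogeneous 1 :=
  IsHomogeneous.sum _ _ _ fun i _ => by
    rw [smul_eq_C_mul]; simpa using (isHomogeneous_C σ (w i : ℂ)).mul (isHomogeneous_X ℂ i)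

/-- the polynomial `P` represents the family of functionals `φ` -/
def Rep (φ : ℕ → R σ → ℂ) (P : R σ) : Prop := ∀ M f, φ M f = coeff (topM σ M) (P * f)

theorem Rep.coeff_eq {φ : ℕ → R σ → ℂ} {P : R σ} (h : Rep φ P) {M : ℕ} {k : σ →₀ ℕ}
    (hk : k ≤ topM σ M) : coeff k P = φ M (monomial (topM σ M - k) 1) := by
  rw [h]
  conv_rhs => rw [← add_tsub_cancel_of_le hk]
  rw [add_tsub_cancel_left, coeff_mul_monomial, mul_one]

theorem Rep.unique {φ : ℕ → R σ → ℂ} {P P' : R σ} (h : Rep φ P) (h' : Rep φ P') : P = P' := by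
  ext k
  obtain ⟨M, hM⟩ := exists_le_topM k
  rw [h.coeff_eq hM, h'.coeff_eq hM]

/-- the non-equivariant limit -/
theorem Rep.constantCoeff {φ : ℕ → R σ → ℂ} {P : R σ} (h : Rep φ P) :
    constantCoeff P = φ 0 1 := by
  rw [h, mul_one, topM_zero]; rfl

theorem Rep.congr {φ ψ : ℕ → R σ → ℂ} {P : R σ} (h : Rep φ P) (e : ∀ M f, ψ M f = φ M f) :
    Rep ψ P := fun M f => (e M f).trans (h M f)

theorem Rep.mul {φ : ℕ → R σ → ℂ} {P : R σ} (h : Rep φ P) (q : R σ) :
    Rep (fun M f => φ M (q * f)) (q * P) := fun M f => by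
  beta_reduce
  rw [h, mul_left_comm, mul_assoc]

theorem Rep.add {φ ψ : ℕ → R σ → ℂ} {P P' : R σ} (h : Rep φ P) (h' : Rep ψ P') :
    Rep (fun M f => φ M f + ψ M f) (P + P') := fun M f => by
  beta_reduce
  rw [h, h', add_mul, coeff_add]

theorem Rep.smul {φ : ℕ → R σ → ℂ} {P : R σ} (h : Rep φ P) (c : ℂ) :
    Rep (fun M f => c * φ M f) (c • P) := fun M f => by
  beta_reduce
  rw [h, smul_mul_assoc, coeff_smul, smul_eq_mul]

theorem rep_zero : Rep (fun _ _ => 0) (0 : R σ) := fun M f => by simp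

theorem Rep.sum {ι : Type*} (s : Finset ι) {φ : ι → ℕ → R σ → ℂ} {P : ι → R σ}
    (h : ∀ c ∈ s, Rep (φ c) (P c)) : Rep (fun M f => ∑ c ∈ s, φ c M f) (∑ c ∈ s, P c) :=
  fun M f => by
    rw [Finset.sum_mul, coeff_sum]
    exact Finset.sum_congr rfl fun c hc => h c hc M f

theorem Rep.isHomogeneous {φ : ℕ → R σ → ℂ} {P : R σ} (h : Rep φ P) {d : ℕ}
    (hd : ∀ M (k : σ →₀ ℕ), k.degree + d ≠ Fintype.card σ * M → φ M (monomial k 1) = 0) :
    P.IsHomogeneous d := by
  intro k hk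
  obtain ⟨M, hM⟩ := exists_le_topM k
  rw [h.coeff_eq hM] at hk
  have h1 : (topM σ M - k).degree + k.degree = Fintype.card σ * M := by
    rw [← map_add, tsub_add_cancel_of_le hM, degree_topM]
  have h2 : k.degree = d := by
    by_contra hne
    exact hk (hd M _ (by omega))
  rw [← h2, Finsupp.degree_eq_weight_one]
  rfl

theorem Rep.eq_zero {φ : ℕ → R σ → ℂ} {P : R σ} (h : Rep φ P)
    (hd : ∀ M (k : σ →₀ ℕ), k.degree ≤ Fintype.card σ * M → φ M (monomial k 1) = 0) : P = 0 := by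
  ext k
  obtain ⟨M, hM⟩ := exists_le_topM k
  rw [h.coeff_eq hM, coeff_zero]
  refine hd M _ ?_
  rw [← degree_topM]
  exact Finsupp.degree_mono tsub_le_self

/-- existence of the representing polynomial -/
theorem exists_rep {φ : ℕ → R σ →ₗ[ℂ] ℂ} (h1 : ∀ M f, φ M f = φ (M + 1) ((∏ i, X i) * f))
    (h2 : ∀ M i f, φ M (X i ^ (M + 1) * f) = 0) {D : ℕ}
    (h3 : ∀ M (k : σ →₀ ℕ), k.degree + D < Fintype.card σ * M → φ M (monomial k 1) = 0) :
    ∃ P, Rep (fun M f => φ M f) P := by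
  classical
  have step : ∀ (k : σ →₀ ℕ) {M N : ℕ}, k ≤ topM σ M → M ≤ N →
      φ N (monomial (topM σ N - k) 1) = φ M (monomial (topM σ M - k) 1) := by
    intro k M N hM hN
    induction N, hN using Nat.le_induction with
    | base => rfl
    | succ N hN ih =>
      rw [← ih, h1 N, prod_X_eq, monomial_mul, one_mul, topM_succ,
        add_tsub_assoc_of_le (hM.trans (topM_mono hN))]
  let c : (σ →₀ ℕ) → ℂ := fun k => φ (∑ i, k i) (monomial (topM σ (∑ i, k i) - k) 1)
  have hle : ∀ k : σ →₀ ℕ, k ≤ topM σ (∑ i, k i) := fun k i =>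
    Finset.single_le_sum (f := k) (fun _ _ => Nat.zero_le _) (Finset.mem_univ i)
  have hc : ∀ (k : σ →₀ ℕ) M, k ≤ topM σ M → c k = φ M (monomial (topM σ M - k) 1) := by
    intro k M hM
    rw [← step k hM (le_max_left M (∑ i, k i)), step k (hle k) (le_max_right _ _)]
  have hfin : (Function.support c).Finite := by
    refine (Finsupp.finite_of_degree_le (σ := σ) D).subset fun k hk => ?_
    by_contra hD
    refine hk (h3 _ _ ?_)
    have h4 : (topM σ (∑ i, k i) - k).degree + k.degree = Fintype.card σ * ∑ i, k i := by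
      rw [← map_add, tsub_add_cancel_of_le (hle k), degree_topM]
    simp only [Set.mem_ofPred_eq, not_le] at hD
    omega
  let P : R σ := ∑ k ∈ hfin.toFinset, monomial k (c k)
  have hP : ∀ k, coeff k P = c k := fun k => by
    simp only [P, coeff_sum, coeff_monomial, Finset.sum_ite_eq', Set.Finite.mem_toFinset]
    split_ifs with h
    · rfl
    · exact (Function.notMem_support.1 h).symm
  refine ⟨P, fun M f => ?_⟩
  beta_reduce
  induction f using MvPolynomial.induction_on' with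
  | add p q hp hq => rw [map_add, mul_add, coeff_add]; exact congrArg₂ _ hp hq
  | monomial k a =>
    have e : (monomial k a : R σ) = a • monomial k 1 := by rw [smul_monomial, smul_eq_mul, mul_one]
    rw [coeff_mul_monomial', e, map_smul, smul_eq_mul, mul_comm]
    split_ifs with hk
    · rw [hP, hc _ M tsub_le_self, tsub_tsub_cancel_of_le hk]
    · obtain ⟨i, hi⟩ : ∃ i, M + 1 ≤ k i := by
        by_contra hne
        push Not at hne
        exact hk fun i => Nat.lt_succ_iff.1 (hne i)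
      have : (monomial k 1 : R σ) = X i ^ (M + 1) * monomial (k - Finsupp.single i (M + 1)) 1 := by
        rw [X_pow_eq_monomial, monomial_mul, one_mul,
          add_tsub_cancel_of_le (Finsupp.single_le_iff.2 hi)]
      rw [this, h2, zero_mul]

/-! ### classes on a fixed component -/

section tensor

variable {A B K : Type} [Ring A] [Algebra ℂ A] [Ring B] [Algebra ℂ B] [CommRing K] [Algebra ℂ K]

/-- polynomials in central elements -/
noncomputable def evC (x : σ → B) (hx : ∀ i b, b * x i = x i * b) : R σ →ₐ[ℂ] B :=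
  (Subalgebra.center ℂ B).val.comp
    (aeval fun i => (⟨x i, Subalgebra.mem_center_iff.2 (hx i)⟩ : Subalgebra.center ℂ B))

omit [Fintype σ] in
theorem evC_X (x : σ → B) (hx : ∀ i b, b * x i = x i * b) (i : σ) : evC x hx (X i) = x i := by
  simp [evC]

omit [Fintype σ] in
theorem evC_comm (x : σ → B) (hx : ∀ i b, b * x i = x i * b) (f : R σ) (b : B) :
    b * evC x hx f = evC x hx f * b :=
  Subalgebra.mem_center_iff.1 (aeval (fun i => (⟨x i, Subalgebra.mem_center_iff.2 (hx i)⟩ :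
    Subalgebra.center ℂ B)) f).2 b

omit [Fintype σ] in
theorem map_evC {B' : Type} [Ring B'] [Algebra ℂ B'] (x : σ → B) (hx : ∀ i b, b * x i = x i * b)
    (x' : σ → B') (hx' : ∀ i b, b * x' i = x' i * b) (g : B →ₐ[ℂ] B') (h : ∀ i, g (x i) = x' i)
    (f : R σ) : g (evC x hx f) = evC x' hx' f := by
  have : g.comp (evC x hx) = evC x' hx' := MvPolynomial.algHom_ext fun i => by
    rw [AlgHom.comp_apply, evC_X, evC_X, h]
  exact DFunLike.congr_fun this f

/-- the algebra map `R ⊗ A → B` -/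
noncomputable def evT (e : R σ →ₐ[ℂ] B) (he : ∀ f b, b * e f = e f * b) (pr : A →ₐ[ℂ] B) :
    R σ ⊗[ℂ] A →ₐ[ℂ] B :=
  Algebra.TensorProduct.lift e pr fun f a => (he f (pr a)).symm

omit [Fintype σ] in
theorem evT_tmul (e : R σ →ₐ[ℂ] B) (he : ∀ f b, b * e f = e f * b) (pr : A →ₐ[ℂ] B) (f : R σ)
    (a : A) : evT e he pr (f ⊗ₜ a) = e f * pr a := rfl

/-- integration of the second factor -/
noncomputable def intT (K : Type) [CommRing K] [Algebra ℂ K] (I : A →ₗ[ℂ] ℂ) :
    K ⊗[ℂ] A →ₗ[K] K :=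
  (AlgebraTensorModule.rid ℂ K K).toLinearMap ∘ₗ I.baseChange K

theorem intT_tmul (I : A →ₗ[ℂ] ℂ) (k : K) (a : A) : intT K I (k ⊗ₜ a) = I a • k := by
  simp [intT]

/-- change of coefficients -/
noncomputable def bc {K' : Type} [CommRing K'] [Algebra ℂ K'] (A : Type) [Ring A] [Algebra ℂ A]
    (φ : K →ₐ[ℂ] K') : K ⊗[ℂ] A →ₐ[ℂ] K' ⊗[ℂ] A :=
  Algebra.TensorProduct.map φ (AlgHom.id ℂ A)

theorem bc_tmul {K' : Type} [CommRing K'] [Algebra ℂ K'] (φ : K →ₐ[ℂ] K') (k : K) (a : A) :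
    bc A φ (k ⊗ₜ a) = φ k ⊗ₜ a := rfl

theorem intT_bc {K' : Type} [CommRing K'] [Algebra ℂ K'] (φ : K →ₐ[ℂ] K') (I : A →ₗ[ℂ] ℂ)
    (y : K ⊗[ℂ] A) : intT K' I (bc A φ y) = φ (intT K I y) := by
  induction y using TensorProduct.induction_on with
  | zero => simp
  | tmul k a => rw [bc_tmul, intT_tmul, intT_tmul, map_smul]
  | add y y' h h' => rw [map_add, map_add, map_add, map_add, h, h']

theorem tmul_one_mul (k : K) (y : K ⊗[ℂ] A) : (k ⊗ₜ[ℂ] (1 : A)) * y = k • y := by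
  rw [Algebra.smul_def]; rfl

theorem mul_tmul_one (k : K) (y : K ⊗[ℂ] A) : y * (k ⊗ₜ[ℂ] (1 : A)) = k • y := by
  rw [Algebra.smul_def, Algebra.commutes]; rfl

/-- on a product family, integrals are computed on the fibre -/
theorem rep_intT {B : ℕ → Type} [∀ M, Ring (B M)] [∀ M, Algebra ℂ (B M)]
    (e : ∀ M, R σ →ₐ[ℂ] B M) (he : ∀ M f b, b * e M f = e M f * b) (pr : ∀ M, A →ₐ[ℂ] B M)
    (ψ : ∀ M, B M →ₗ[ℂ] ℂ) (I : A →ₗ[ℂ] ℂ)
    (h : ∀ M f a, ψ M (e M f * pr M a) = coeff (topM σ M) f * I a) (y : R σ ⊗[ℂ] A) :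
    Rep (fun M f => ψ M (evT (e M) (he M) (pr M) y * e M f)) (intT (R σ) I y) := by
  induction y using TensorProduct.induction_on with
  | zero => simpa using rep_zero
  | tmul g a =>
    intro M f
    beta_reduce
    rw [evT_tmul, mul_assoc, he, ← mul_assoc, ← map_mul, h, intT_tmul, smul_mul_assoc, coeff_smul,
      smul_eq_mul, mul_comm]
  | add y y' h h' =>
    rw [map_add]
    exact (h.add h').congr fun M f => by rw [map_add, add_mul, map_add]

/-- `n` is invertible after inverting the elements of `Σ` -/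
def InvUp (S : Set (R σ)) (n : R σ ⊗[ℂ] A) : Prop :=
  ∃ n', ∃ q ∈ Submonoid.closure S, n * n' = q ⊗ₜ 1 ∧ n' * n = q ⊗ₜ 1

omit [Fintype σ] in
theorem invUp_one (S : Set (R σ)) : InvUp S (1 : R σ ⊗[ℂ] A) :=
  ⟨1, 1, one_mem _, mul_one _, mul_one _⟩

omit [Fintype σ] in
theorem InvUp.mul {S : Set (R σ)} {n m : R σ ⊗[ℂ] A} (h : InvUp S n) (h' : InvUp S m) :
    InvUp S (n * m) := by
  obtain ⟨n', q, hq, h1, h2⟩ := h
  obtain ⟨m', r, hr, h3, h4⟩ := h'
  refine ⟨m' * n', q * r, mul_mem hq hr, ?_, ?_⟩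
  · rw [mul_assoc, ← mul_assoc m, h3, tmul_one_mul, mul_smul_comm, h1, TensorProduct.smul_tmul',
      smul_eq_mul, mul_comm]
  · rw [mul_assoc, ← mul_assoc n', h2, tmul_one_mul, mul_smul_comm, h4, TensorProduct.smul_tmul',
      smul_eq_mul]

omit [Fintype σ] in
theorem InvUp.mono {S S' : Set (R σ)} {n : R σ ⊗[ℂ] A} (h : InvUp S n) (e : S ⊆ S') :
    InvUp S' n := by
  obtain ⟨n', q, hq, h1, h2⟩ := h
  exact ⟨n', q, Submonoid.closure_mono e hq, h1, h2⟩

omit [Fintype σ] in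
theorem InvUp.list_prod {S : Set (R σ)} {L : List (R σ ⊗[ℂ] A)} (h : ∀ n ∈ L, InvUp S n) :
    InvUp S L.prod := by
  induction L with
  | nil => exact invUp_one S
  | cons n L ih =>
    rw [List.prod_cons]
    exact (h n List.mem_cons_self).mul (ih fun m hm => h m (List.mem_cons_of_mem _ hm))

omit [Fintype σ] in
/-- a nonzero multiple of an element of the closure plus a nilpotent element -/
theorem invUp_add {S : Set (R σ)} {q : R σ} (hq : q ∈ Submonoid.closure S) {c : ℂ} (hc : c ≠ 0)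
    {ν : R σ ⊗[ℂ] A} (hν : IsNilpotent ν) : InvUp S ((c • q) ⊗ₜ 1 + ν) := by
  obtain ⟨k, hk⟩ := hν
  set x : R σ ⊗[ℂ] A := (c • q) ⊗ₜ 1 with hx
  have hc' : Commute x (-ν) := by
    change x * -ν = -ν * x
    rw [hx, tmul_one_mul, mul_tmul_one]
  have e : x ^ k - (-ν) ^ k = c ^ k • (q ^ k) ⊗ₜ[ℂ] (1 : A) := by
    have hk' : (-ν) ^ k = 0 := (neg_pow ν k).trans (by rw [hk, mul_zero])
    rw [hk', sub_zero, hx, Algebra.TensorProduct.tmul_pow, one_pow, smul_pow,
      TensorProduct.smul_tmul']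
  have hck : c ^ k ≠ 0 := pow_ne_zero _ hc
  refine ⟨(c ^ k)⁻¹ • ∑ i ∈ Finset.range k, x ^ i * (-ν) ^ (k - 1 - i), q ^ k, pow_mem hq _, ?_, ?_⟩
  · rw [mul_smul_comm, ← sub_neg_eq_add, hc'.mul_geom_sum₂, e, inv_smul_smul₀ hck]
  · rw [smul_mul_assoc, ← sub_neg_eq_add, hc'.geom_sum₂_mul, e, inv_smul_smul₀ hck]

omit [Fintype σ] in
theorem InvUp.isUnit {S : Set (R σ)} {n : R σ ⊗[ℂ] A} (h : InvUp S n) (φ : R σ →ₐ[ℂ] K)
    (hφ : ∀ q ∈ S, IsUnit (φ q)) : IsUnit (bc A φ n) := by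
  obtain ⟨n', q, hq, h1, h2⟩ := h
  have hu : IsUnit (φ q) := by
    clear h1 h2
    induction hq using Submonoid.closure_induction with
    | mem q hq => exact hφ q hq
    | one => simp
    | mul a b _ _ ha hb => rw [map_mul]; exact ha.mul hb
  obtain ⟨u, hu⟩ := hu
  refine ⟨⟨bc A φ n, (u⁻¹ : Kˣ).1 • bc A φ n', ?_, ?_⟩, rfl⟩
  · rw [mul_smul_comm, ← map_mul, h1, bc_tmul, ← hu, TensorProduct.smul_tmul', smul_eq_mul,
      Units.inv_mul]; rfl
  · rw [smul_mul_assoc, ← map_mul, h2, bc_tmul, ← hu, TensorProduct.smul_tmul', smul_eq_mul,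
      Units.inv_mul]; rfl

/-- **The algebra of the localisation theorem.** -/
theorem loc_alg {C : Type} [Fintype C] {A : C → Type} [∀ c, Ring (A c)] [∀ c, Algebra ℂ (A c)]
    {B : C → ℕ → Type} [∀ c M, Ring (B c M)] [∀ c M, Algebra ℂ (B c M)]
    (e : ∀ c M, R σ →ₐ[ℂ] B c M) (he : ∀ c M f b, b * e c M f = e c M f * b)
    (pr : ∀ c M, A c →ₐ[ℂ] B c M) (ψ γ : ∀ c M, B c M →ₗ[ℂ] ℂ) (I : ∀ c, A c →ₗ[ℂ] ℂ)
    (h : ∀ c M f a, ψ c M (e c M f * pr c M a) = coeff (topM σ M) f * I c a)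
    {φ : ℕ → R σ → ℂ} {P p : R σ} (hP : Rep φ P) (hp : p ≠ 0) (a n ε : ∀ c, R σ ⊗[ℂ] A c)
    (hφ : ∀ M f, φ M (p * f) = ∑ c, γ c M (evT (e c M) (he c M) (pr c M) (a c) * e c M f))
    (hγ : ∀ c M b, γ c M (b * evT (e c M) (he c M) (pr c M) (n c)) =
      ψ c M (b * e c M p * evT (e c M) (he c M) (pr c M) (ε c)))
    {S : Set (R σ)} (hn : ∀ c, InvUp S (n c)) (χ : R σ →ₐ[ℂ] K) (hχ : ∀ q ∈ S, IsUnit (χ q))
    (y : ∀ c, K ⊗[ℂ] A c) (hy : ∀ c, bc (A c) χ (n c) * y c = 1) :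
    χ P = ∑ c, intT K (I c) (bc (A c) χ (a c) * y c * bc (A c) χ (ε c)) := by
  classical
  choose n' q hq h1 h2 using hn
  have hu : ∀ c, IsUnit (χ (q c)) := fun c => by
    have hq := hq c
    generalize q c = r at hq
    induction hq using Submonoid.closure_induction with
    | mem q hq => exact hχ q hq
    | one => simp
    | mul a b _ _ ha hb => rw [map_mul]; exact ha.mul hb
  have hy' : ∀ c, bc (A c) χ (n' c) = χ (q c) • y c := fun c => by
    rw [← mul_one (bc (A c) χ (n' c)), ← hy c, ← mul_assoc, ← map_mul, h2, bc_tmul, tmul_one_mul]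
  have key : p * ((∏ c, q c) * P) = p * ∑ c, (∏ c' ∈ Finset.univ.erase c, q c') *
      intT (R σ) (I c) (a c * n' c * ε c) := by
    have r1 := (hP.mul (∏ c, q c)).mul p
    have r2 := (Rep.sum Finset.univ fun c _ => (rep_intT (e c) (he c) (pr c) (ψ c) (I c) (h c)
      (a c * n' c * ε c)).mul (∏ c' ∈ Finset.univ.erase c, q c')).mul p
    refine r1.unique (r2.congr fun M f => ?_)
    rw [mul_left_comm, hφ]
    refine Finset.sum_congr rfl fun c _ => ?_
    set r := ∏ c' ∈ Finset.univ.erase c, q c'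
    have e1 : ∏ c, q c = r * q c := (Finset.prod_erase_mul _ _ (Finset.mem_univ c)).symm
    have e2 : e c M (q c) = evT (e c M) (he c M) (pr c M) (n' c) *
        evT (e c M) (he c M) (pr c M) (n c) := by
      rw [← map_mul, h2, evT_tmul, map_one, mul_one]
    have e3 : e c M (r * q c * f) = e c M (r * f) * e c M (q c) := by
      rw [← map_mul, mul_right_comm]
    rw [e1, e3, e2, ← mul_assoc, ← mul_assoc, hγ, map_mul (evT _ _ _), map_mul (evT _ _ _)]
    congr 1
    rw [mul_left_comm r, map_mul (e c M) p, mul_assoc _ (e c M (r * f)), ← he c M (r * f)]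
    simp only [mul_assoc]
    rw [← he c M p, ← he c M (r * f), mul_assoc]
  have key2 := congrArg χ (mul_left_cancel₀ hp key)
  have hU : IsUnit (χ (∏ c, q c)) := by
    rw [map_prod]; exact IsUnit.prod_univ_iff.2 hu
  refine hU.mul_left_cancel ?_
  rw [← map_mul, key2, map_sum, Finset.mul_sum]
  refine Finset.sum_congr rfl fun c _ => ?_
  rw [map_mul, ← intT_bc, map_mul (bc _ _), map_mul (bc _ _), hy', mul_smul_comm, smul_mul_assoc, map_smul,
    smul_eq_mul, ← mul_assoc, ← map_mul, Finset.prod_erase_mul _ _ (Finset.mem_univ c)]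

end tensor

end Vale.Agent.P269.Loc
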