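import Vale.Agent.P269.Loc.Bor
import Vale.Agent.P269.Loc.Alg
import Vale.Agent.P269.Orb.Ori

/-!
# Equivariant parameters, the inclusions of the approximations, equivariant integrals
-/

set_option linter.unusedSectionVars false

namespace Vale.Agent.P269.Loc

open Set Function Topology Filter Module MvPolynomial Vale.Agent.P291Z Vale.Agent.P269.Ch
  Vale.Agent.P269.Orb

variable {σ : Type} [Fintype σ] {Y Y' Y'' : Ch.Sp}

/-- the image of every orbit is an orbit -/
def Sat (m : Mor Y' Y) : Prop := ∀ (g : Y.G) t, ∃ g' : Y'.G, m.f (g' • t) = g • m.f t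

namespace Sat

variable {m : Mor Y' Y}

theorem of_surj (h : Surjective m.ρ) : Sat m := fun g t => by
  obtain ⟨g', rfl⟩ := h g
  exact ⟨g', m.eqv g' t⟩

theorem comp {m' : Mor Y'' Y'} (h : Sat m) (h' : Sat m') : Sat (m.comp m') := fun g t => by
  obtain ⟨g', e⟩ := h g (m'.f t)
  obtain ⟨g'', e'⟩ := h' g' t
  exact ⟨g'', (congrArg m.f e').trans e⟩

theorem isClosedEmbedding (h : Sat m) (hf : IsClosedEmbedding m.f) : IsClosedEmbedding m.map :=
  Y'.isQuo.isClosedEmbedding_map Y.isQuo m.map_π h hf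

theorem isOpenEmbedding (h : Sat m) (hf : IsOpenEmbedding m.f) : IsOpenEmbedding m.map :=
  Y'.isQuo.isOpenEmbedding_map Y.isQuo m.map_π h hf

theorem isEmbedding (h : Sat m) (hf : IsEmbedding m.f) : IsEmbedding m.map :=
  Y'.isQuo.isEmbedding_map Y.isQuo m.map_π h hf

theorem mem_range (h : Sat m) {t : Y.T} : Y.π t ∈ range m.map ↔ t ∈ range m.f := by
  refine ⟨fun ⟨x, hx⟩ => ?_, by rintro ⟨x, rfl⟩; exact ⟨_, m.map_π x⟩⟩
  obtain ⟨x, rfl⟩ := Y'.surj x
  obtain ⟨g, hg⟩ := (Y.fib _ _).1 ((m.map_π x).symm.trans hx)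
  obtain ⟨g', e⟩ := h g x
  exact ⟨_, e.trans hg⟩

theorem bo' {a : TS σ Y} {a' : TS σ Y'} (h : Sat m) (he : a.IsEq a' m) {P' P : PS σ}
    (u : P'.P → P.P) (hu : Continuous u) (hs : ∀ (s : Tor σ) p, u (s • p) = s • u p) :
    Sat (he.bo' u hu hs) := fun k x => by
  obtain ⟨g, e⟩ := h k.1 (a'.a k.2 x.1)
  exact ⟨(g, k.2), Prod.ext (e.trans (congrArg (k.1 • ·) (he k.2 x.1))) (hs k.2 x.2)⟩

theorem bo {a : TS σ Y} {a' : TS σ Y'} (h : Sat m) (he : a.IsEq a' m) (P : PS σ) :
    Sat (he.bo P) := h.bo' he _ _ _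

end Sat

theorem sat_id : Sat (Mor.id Y) := Sat.of_surj surjective_id

theorem range_map (m : Mor Y' Y) : range m.map = Y.π '' range m.f :=
  Y'.isQuo.range_map Y.isQuo m.map_π

theorem exists_compact (Y : Ch.Sp) {C : Set Y.X} (hC : IsCompact C) :
    ∃ K, IsCompact K ∧ C ⊆ Y.π '' K := by
  refine hC.induction_on (p := fun C => ∃ K, IsCompact K ∧ C ⊆ Y.π '' K)
    ⟨∅, isCompact_empty, empty_subset _⟩ (fun _ _ h ⟨K, h1, h2⟩ => ⟨K, h1, h.trans h2⟩)
    (fun _ _ ⟨K, h1, h2⟩ ⟨K', h3, h4⟩ =>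
      ⟨K ∪ K', h1.union h3, by rw [image_union]; exact union_subset_union h2 h4⟩) fun x _ => ?_
  obtain ⟨t, rfl⟩ := Y.surj x
  obtain ⟨K, h1, h2⟩ := exists_compact_mem_nhds t
  exact ⟨_, mem_nhdsWithin_of_mem_nhds (Y.quo.isOpenMap.image_mem_nhds h2), K, h1, Subset.rfl⟩

/-- the absolute value -/
noncomputable def absT (s : Tor σ) : Tor σ := fun i => Units.mk0 (‖(s i : ℂ)‖ : ℂ) (by simp)

omit [Fintype σ] in
theorem mul_absT_mem (s : Tor σ) : (absT s)⁻¹ * s ∈ cpt σ := fun i => by simp [absT]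

namespace PM

variable {M : ℕ}

/-- the norms of the components -/
noncomputable def nrm (p : PM σ M) : Tor σ :=
  fun i => Units.mk0 (‖p.val i‖ : ℂ) (by simpa using p.ne i)

omit [Fintype σ] in
@[fun_prop] theorem continuous_nrm : Continuous (nrm : PM σ M → Tor σ) :=
  continuous_pi fun i => Units.isEmbedding_val₀.continuous_iff.2
    (show Continuous fun p : PM σ M => (‖p.val i‖ : ℂ) by fun_prop)

omit [Fintype σ] in
theorem nrm_smul (s : Tor σ) (p : PM σ M) : nrm (s • p) = absT s * nrm p :=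
  funext fun i => Units.ext (by simp [nrm, absT, norm_smul])

theorem isCompact_sph : IsCompact {p : PM σ M | ∀ i, ‖p.val i‖ = 1} := by
  rw [isOpenEmbedding_val.isEmbedding.isCompact_iff]
  convert isCompact_univ_pi fun _ : σ => isCompact_sphere (0 : Fin (M + 1) → ℂ) 1
  ext z
  refine ⟨?_, fun h => ⟨⟨z, fun i e => ?_⟩, fun i => mem_sphere_zero_iff_norm.1 (h i trivial), rfl⟩⟩
  · rintro ⟨p, hp, rfl⟩ i -
    exact mem_sphere_zero_iff_norm.2 (hp i)
  · simpa [e] using h i trivial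

omit [Fintype σ] in
theorem norm_nrm (p : PM σ M) (i : σ) : ‖((nrm p)⁻¹ • p).val i‖ = 1 := by
  simp [nrm, norm_smul, p.ne i]

/-- the inclusion of a hyperplane -/
def inc (p : PM σ M) : PM σ (M + 1) :=
  ⟨fun i => Fin.cons 0 (p.val i), fun i h => p.ne i (funext fun j => congrFun h j.succ)⟩

omit [Fintype σ] in
theorem inc_smul (s : Tor σ) (p : PM σ M) : inc (s • p) = s • inc p :=
  ext (funext fun i => funext fun j => Fin.cases (smul_zero (s i : ℂ)).symm (fun _ => rfl) j)

omit [Fintype σ] in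
theorem mem_range_inc {p : PM σ (M + 1)} : p ∈ range inc ↔ ∀ i, p.val i 0 = 0 := by
  refine ⟨by rintro ⟨q, rfl⟩ i; rfl, fun h => ⟨⟨fun i => Fin.tail (p.val i), fun i e => p.ne i
    (funext fun j => Fin.cases (h i) (fun j => congrFun e j) j)⟩,
    ext (funext fun i => funext fun j => Fin.cases (h i).symm (fun _ => rfl) j)⟩⟩

theorem isClosedEmbedding_inc : IsClosedEmbedding (inc : PM σ M → PM σ (M + 1)) := by
  have hc : Continuous (inc : PM σ M → PM σ (M + 1)) := Continuous.subtype_mk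
    (continuous_pi fun i => continuous_pi fun j => Fin.cases continuous_const
      (fun j => show Continuous fun p : PM σ M => p.val i j by fun_prop) j) _
  refine ⟨IsEmbedding.of_comp hc (g := fun (p : PM σ (M + 1)) i (j : Fin (M + 1)) => p.val i j.succ)
    (continuous_pi fun i => continuous_pi fun j =>
      show Continuous fun p : PM σ (M + 1) => p.val i j.succ by fun_prop)
    isOpenEmbedding_val.isEmbedding, ?_⟩
  rw [show range inc = ⋂ i, {p : PM σ (M + 1) | p.val i 0 = 0} from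
    Set.ext fun p => by rw [mem_range_inc, mem_iInter]; rfl]
  exact isClosed_iInter fun i => isClosed_eq (by fun_prop) continuous_const

/-- the base point -/
def one : PM σ 0 := ⟨fun _ _ => 1, fun _ h => one_ne_zero (congrFun h 0)⟩

/-- the identification with the torus -/
noncomputable def unit (p : PM σ 0) : Tor σ :=
  fun i => Units.mk0 (p.val i 0) fun h => p.ne i (funext fun j => by rwa [Fin.fin_one_eq_zero j])

omit [Fintype σ] in
@[fun_prop] theorem continuous_unit : Continuous (unit : PM σ 0 → Tor σ) :=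
  continuous_pi fun i => Units.isEmbedding_val₀.continuous_iff.2
    (show Continuous fun p : PM σ 0 => p.val i 0 by fun_prop)

omit [Fintype σ] in
theorem unit_smul (s : Tor σ) (p : PM σ 0) : unit (s • p) = s * unit p :=
  funext fun _ => Units.ext rfl

omit [Fintype σ] in
theorem unit_one : unit (one : PM σ 0) = 1 := funext fun _ => Units.ext rfl

omit [Fintype σ] in
theorem unit_smul_one (p : PM σ 0) : unit p • (one : PM σ 0) = p :=
  ext (funext fun _ => funext fun j => by rw [Fin.fin_one_eq_zero j]; exact mul_one _)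

end PM

section intg

variable {X X' : Type} [TopologicalSpace X] [TopologicalSpace X']

/-- the integral against a Borel-Moore class on a compact space -/
noncomputable def intg (β : BM X) : H X →ₗ[ℂ] ℂ := Dual.eval ℂ _ (cls 1) ∘ₗ pd β

theorem intg_eq (β : BM X) (c : H X) : intg β c = ev (cap c β) 1 := (ev_eq (cap c β) 1).symm

theorem one_mem_Zc [CompactSpace X] : (1 : Coch X) ∈ Zc X :=
  ⟨(isClosed_supp _).isCompact, cocycle_one⟩

theorem intg_hcls [CompactSpace X] (β : BM X) {t : Coch X} (ht : supp (δ t) = ∅) :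
    intg β (hcls t) = ev β t := by rw [intg_eq, ev_cap ht one_mem_Zc, one_mul]

theorem intg_cap (β : BM X) (c c' : H X) : intg (cap c' β) c = intg β (c * c') :=
  congrArg (fun γ : BM X => γ (cls 1)) (pd_mul β c c').symm

theorem intg_sum {ι : Type*} (s : Finset ι) (β : ι → BM X) (c : H X) :
    intg (∑ i ∈ s, β i) c = ∑ i ∈ s, intg (β i) c := by
  simp only [intg_eq, map_sum, sum_ev]

theorem intg_push [Nice X] [Nice X'] [CompactSpace X] [CompactSpace X'] (f : C(X, X')) (β : BM X)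
    (c : H X') : intg (push f β) c = intg β (H.map f c) := by
  have hf := IsPr.of_compact f.continuous
  rw [intg_eq, intg_eq, ← push_cap hf, ev_push hf _ one_mem_Zc, map_one]

theorem intg_deg [Nice X] {β : BM X} {c : H X} {k j : ℤ} (hβ : BM.IsDeg k β) (hc : H.IsDeg j c)
    (h : j ≠ k) : intg β c = 0 := by
  rw [intg_eq]
  exact hβ.cap hc 0 1 (by omega) isDeg_one

end intg

/-- evaluation of characters -/
noncomputable def evalC {G : Type} [Group G] [TopologicalSpace G] (k : G) : (G →ₜ* ℂˣ) →* ℂˣ :=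
  ⟨⟨fun χ => χ k, rfl⟩, fun χ ψ => ContinuousMonoidHom.mul_apply χ ψ k⟩

namespace TS

variable (a : TS σ Y) {a' : TS σ Y'} (P : PS σ)

/-- the coordinate characters -/
noncomputable def chi (i : σ) : (a.bo P).G →ₜ* ℂˣ :=
  ⟨(Pi.evalMonoidHom (fun _ : σ => ℂˣ) i).comp (MonoidHom.snd Y.G (Tor σ)),
    (continuous_apply i).comp continuous_snd⟩

/-- polynomials in the equivariant parameters -/
noncomputable def ev : R σ →ₐ[ℂ] Hev (a.bo P).X := aeval fun i => c1 (a.chi P i)

theorem ev_X (i : σ) : a.ev P (X i) = c1 (a.chi P i) := aeval_X _ i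

theorem ev_lin (w : σ → ℤ) : a.ev P (lin w) = c1 (a.ch P w) := by
  rw [show a.ch P w = ∏ i, a.chi P i ^ w i from ContinuousMonoidHom.ext fun k => by
    change _ = evalC k _
    simp only [map_prod, map_zpow]
    rfl, c1_prod, lin, map_sum]
  exact Finset.sum_congr rfl fun i _ => by
    rw [map_smul, ev_X, c1_zpow, Int.cast_smul_eq_zsmul]

theorem ev_deg {f : R σ} {d : ℕ} (h : f.IsHomogeneous d) : a.ev P f ∈ Hev.deg _ d := by
  rw [ev, aeval_def, eval₂_eq']
  refine Submodule.sum_mem _ fun k hk => ?_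
  rw [← Algebra.smul_def]
  refine Submodule.smul_mem _ _ ?_
  have := Hev.prod_deg Finset.univ fun i _ => Hev.pow_deg (c1_deg (a.chi P i)) (k i)
  convert this
  rw [← h (mem_support_iff.1 hk), Finsupp.weight_eq_sum]
  simp

variable {a}

theorem IsEq.map_ev' {m : Mor Y' Y} (h : a.IsEq a' m) {P' P : PS σ} (u : P'.P → P.P)
    (hu : Continuous u) (he : ∀ (s : Tor σ) p, u (s • p) = s • u p) (f : R σ) :
    Hev.map (h.bo' u hu he).map (a.ev P f) = a'.ev P' f :=
  DFunLike.congr_fun (algHom_ext fun i => by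
    rw [AlgHom.comp_apply, ev_X, ev_X, map_c1]
    rfl : (Hev.map (h.bo' u hu he).map).comp (a.ev P) = a'.ev P') f

theorem IsEq.map_ev {m : Mor Y' Y} (h : a.IsEq a' m) (P : PS σ) (f : R σ) :
    Hev.map (h.bo P).map (a.ev P f) = a'.ev P f := h.map_ev' _ _ _ f

variable (a)

/-- the approximations of the Borel construction -/
noncomputable abbrev B (M : ℕ) : Ch.Sp := a.bo (pm σ M)

/-- polynomials in the equivariant parameters -/
noncomputable def e (M : ℕ) : R σ →ₐ[ℂ] H (a.B M).X := (Hev _).val.comp (a.ev (pm σ M))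

theorem e_apply (M : ℕ) (f : R σ) : a.e M f = (a.ev (pm σ M) f).1 := rfl

theorem e_comm (M : ℕ) (f : R σ) (c : H (a.B M).X) : c * a.e M f = a.e M f * c :=
  (Hev.commute (a.ev (pm σ M) f).2 c).symm

theorem e_deg (M : ℕ) {f : R σ} {d : ℕ} (h : f.IsHomogeneous d) : H.IsDeg (2 * d) (a.e M f) :=
  a.ev_deg _ h

theorem IsEq.map_e {a : TS σ Y} {m : Mor Y' Y} (h : a.IsEq a' m) (M : ℕ) (f : R σ) :
    H.map (h.bo (pm σ M)).map (a.e M f) = a'.e M f := congrArg Subtype.val (h.map_ev _ f)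

theorem e_X_pow (M : ℕ) (i : σ) : a.e M (X i ^ (M + 1)) = 0 := by
  have h : (chars fun _ : Fin (M + 1) => a.chi (pm σ M) i).IsSec fun x => x.2.val i :=
    ⟨fun _ => trivial, show Continuous fun x : Y.T × PM σ M => x.2.val i by fun_prop,
      fun _ _ => rfl⟩
  have := h.eu_eq_zero fun x => x.2.ne i
  rw [eu_chars, Finset.prod_const, Finset.card_univ, Fintype.card_fin] at this
  rw [e_apply, map_pow, ev_X, this]
  rfl

/-- the inclusion of the approximations -/
noncomputable def inc (M : ℕ) : Mor (a.B M) (a.B (M + 1)) :=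
  a.isEq_id.bo' PM.inc PM.isClosedEmbedding_inc.continuous PM.inc_smul

theorem sat_inc (M : ℕ) : Sat (a.inc M) := sat_id.bo' _ _ _ _

theorem isClosedEmbedding_inc (M : ℕ) : IsClosedEmbedding (a.inc M).map :=
  (a.sat_inc M).isClosedEmbedding (IsClosedEmbedding.id.prodMap PM.isClosedEmbedding_inc)

theorem map_inc_e (M : ℕ) (f : R σ) : H.map (a.inc M).map (a.e (M + 1) f) = a.e M f :=
  congrArg Subtype.val (a.isEq_id.map_ev' _ _ _ f)

theorem IsEq.inc_comm {a : TS σ Y} {m : Mor Y' Y} (h : a.IsEq a' m) (M : ℕ) (x : (a'.B M).X) :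
    (h.bo (pm σ (M + 1))).map ((a'.inc M).map x) = (a.inc M).map ((h.bo (pm σ M)).map x) := by
  obtain ⟨x, rfl⟩ := (a'.B M).surj x
  simp only [Mor.map_π]
  rfl

/-- the section that cuts out the previous approximation -/
theorem isSec_col (M : ℕ) : (chars (a.chi (pm σ (M + 1)))).IsSec fun x i => x.2.val i 0 :=
  ⟨fun _ => trivial, show Continuous fun (x : Y.T × PM σ (M + 1)) i => x.2.val i 0 by fun_prop,
    fun _ _ => rfl⟩

theorem mem_range_inc_f (M : ℕ) {x : (a.B (M + 1)).T} :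
    x ∈ range (a.inc M).f ↔ (fun i => x.2.val i 0) = 0 :=
  ⟨by rintro ⟨y, rfl⟩; rfl, fun h => by
    obtain ⟨p, hp⟩ := PM.mem_range_inc.2 (congrFun h)
    exact ⟨(x.1, p), Prod.ext rfl hp⟩⟩

theorem isCo_col (M : ℕ) : IsCo (range (a.inc M).map) (Fintype.card σ) (a.isSec_col M).eul := by
  rw [range_map, show range (a.inc M).f = _ from Set.ext fun x => a.mem_range_inc_f M]
  exact (a.isSec_col M).isCo

theorem hcls_col (M : ℕ) : hcls (a.isSec_col M).eul = a.e (M + 1) (∏ i, X i) := by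
  rw [(a.isSec_col M).hcls_eul, eu_chars, e_apply, map_prod]
  simp only [ev_X]

/-- the zeroth approximation -/
noncomputable def base : Mor Y (a.B 0) :=
  ⟨MonoidHom.inl _ _, fun t => (t, PM.one), continuous_id.prodMk continuous_const,
    continuous_id.prodMk continuous_const, fun g t =>
      Prod.ext (congrArg (g • ·) (a.one t).symm) (one_smul _ _).symm⟩

theorem isHomeomorph_base : IsHomeomorph a.base.map := by
  obtain ⟨q, hq⟩ := (a.B 0).isQuo.exists_lift (fun x => Y.π (a.a (PM.unit x.2)⁻¹ x.1)) fun k x => by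
    change Y.π (a.a (PM.unit (k.2 • x.2))⁻¹ (k.1 • a.a k.2 x.1)) = _
    rw [PM.unit_smul, a.comm, Y.π_smul, ← a.mul, mul_inv_rev, inv_mul_cancel_right]
  refine isHomeomorph_iff_exists_inverse.2 ⟨a.base.map.continuous, q, fun x => ?_, fun x => ?_,
    (a.B 0).isQuo.continuous_lift (Y.cont.comp
      (show Continuous fun x : Y.T × PM σ 0 => a.a (PM.unit x.2)⁻¹ x.1 by fun_prop)) hq⟩
  · obtain ⟨t, rfl⟩ := Y.surj x
    rw [Mor.map_π, hq]
    change Y.π (a.a (PM.unit PM.one)⁻¹ t) = _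
    rw [PM.unit_one, inv_one, a.one]
  · obtain ⟨x, rfl⟩ := (a.B 0).surj x
    rw [hq, Mor.map_π]
    exact ((a.B 0).fib _ _).2 ⟨(1, PM.unit x.2),
      Prod.ext ((one_smul _ _).trans (a.a_inv _ _)) (PM.unit_smul_one _)⟩

theorem IsEq.base_comm {a : TS σ Y} {m : Mor Y' Y} (h : a.IsEq a' m) (x : Y'.X) :
    (h.bo (pm σ 0)).map (a'.base.map x) = a.base.map (m.map x) := by
  obtain ⟨x, rfl⟩ := Y'.surj x
  simp only [Mor.map_π]
  rfl

theorem isCompact_bo (M : ℕ) {C : Set Y.X} (hC : IsCompact C) {D : Set (a.B M).X}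
    (hD : IsClosed D) (h : ∀ x, (a.B M).π x ∈ D → Y.π x.1 ∈ C) : IsCompact D := by
  obtain ⟨K, h1, h2⟩ := exists_compact Y hC
  refine ((h1.prod PM.isCompact_sph).image (a.B M).cont).of_isClosed_subset hD fun x hx => ?_
  obtain ⟨x, rfl⟩ := (a.B M).surj x
  rw [← (a.B M).π_smul (1, (PM.nrm x.2)⁻¹)] at hx ⊢
  obtain ⟨t, ht, e⟩ := h2 (h _ hx)
  obtain ⟨g, hg⟩ := (Y.fib _ _).1 e.symm
  rw [← (a.B M).π_smul (g, 1)]
  refine mem_image_of_mem _ ⟨?_, fun i => ?_⟩
  · change g • a.a 1 _ ∈ K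
    rwa [a.one, hg]
  · change ‖((1 : Tor σ) • (PM.nrm x.2)⁻¹ • (show PM σ M from x.2)).val i‖ = 1
    rw [one_smul, PM.norm_nrm]

instance [CompactSpace Y.X] (M : ℕ) : CompactSpace (a.B M).X :=
  ⟨a.isCompact_bo M isCompact_univ isClosed_univ fun _ _ => trivial⟩

/-- an equivariant cohomology class -/
def IsCl (α : ∀ M, H (a.B M).X) : Prop := ∀ M, H.map (a.inc M).map (α (M + 1)) = α M

/-- an equivariant Borel-Moore class of complex dimension `d` -/
structure IsBM (d : ℤ) (β : ∀ M, BM (a.B M).X) : Prop where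
  step : ∀ M, gys (a.inc M).map (a.isSec_col M).eul (β (M + 1)) = β M
  deg : ∀ M : ℕ, BM.IsDeg (2 * (d + Fintype.card σ * M)) (β M)

/-- the polynomial `P` is the equivariant integral of `α` over `β` -/
def IsInt (β : ∀ M, BM (a.B M).X) (α : ∀ M, H (a.B M).X) (P : R σ) : Prop :=
  Rep (fun M f => intg (β M) (α M * a.e M f)) P

variable {a}

theorem isCl_e (f : R σ) : a.IsCl fun M => a.e M f := fun M => a.map_inc_e M f

theorem IsCl.mul {α α' : ∀ M, H (a.B M).X} (h : a.IsCl α) (h' : a.IsCl α') :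
    a.IsCl fun M => α M * α' M := fun M => by rw [map_mul, h, h']

theorem IsCl.add {α α' : ∀ M, H (a.B M).X} (h : a.IsCl α) (h' : a.IsCl α') :
    a.IsCl fun M => α M + α' M := fun M => by rw [map_add, h, h']

theorem IsCl.smul {α : ∀ M, H (a.B M).X} (h : a.IsCl α) (c : ℂ) : a.IsCl fun M => c • α M :=
  fun M => by rw [H.map_smulC, h]

theorem IsCl.map {α : ∀ M, H (a.B M).X} (h : a.IsCl α) {m : Mor Y' Y} (hm : a.IsEq a' m) :
    a'.IsCl fun M => H.map (hm.bo (pm σ M)).map (α M) := fun M => by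
  beta_reduce
  rw [← h M, H.map_map, H.map_map]
  exact congrArg (fun f => H.map f (α (M + 1))) (ContinuousMap.ext (hm.inc_comm M))

theorem _root_.Vale.Agent.P269.Loc.TV.isCl {E : VB Y} (b : TV a E) :
    a.IsCl fun M => (b.bo (pm σ M)).eu.1 := fun M =>
  (congrArg Subtype.val (Iso.eu (m := a.inc M) (E' := b.bo (pm σ M)) (E := b.bo (pm σ (M + 1)))
    (A := fun _ => LinearMap.id) ⟨Hom.of_continuous (fun _ _ h => h) continuous_snd
      fun _ _ _ _ => rfl, fun _ _ _ h => h, fun _ w h => ⟨w, h, rfl⟩⟩)).symm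

theorem _root_.Vale.Agent.P269.Loc.TV.map_base {E : VB Y} (b : TV a E) :
    Hev.map a.base.map (b.bo (pm σ 0)).eu = E.eu :=
  (Iso.eu (m := a.base) (E' := E) (E := b.bo (pm σ 0)) (A := fun _ => LinearMap.id)
    ⟨Hom.of_continuous (fun _ _ h => h) continuous_snd fun g _ w _ =>
      show g • w = g • b.b 1 w by rw [map_one, End.one_apply], fun _ _ _ h => h,
      fun _ w h => ⟨w, h, rfl⟩⟩).symm

theorem IsBM.push_inc {d : ℤ} {β : ∀ M, BM (a.B M).X} (h : a.IsBM d β) (M : ℕ) :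
    push (a.inc M).map (β M) = cap (a.e (M + 1) (∏ i, X i)) (β (M + 1)) := by
  rw [← h.step M, ← a.hcls_col, ← gys_id_eq_cap (a.isCo_col M).cocycle]
  exact push_gys (a.isClosedEmbedding_inc M) IsClosedEmbedding.id (a.isCo_col M).cocycle
    (a.isCo_col M).supp _

theorem IsInt.unique {β : ∀ M, BM (a.B M).X} {α : ∀ M, H (a.B M).X} {P P' : R σ}
    (h : a.IsInt β α P) (h' : a.IsInt β α P') : P = P' := Rep.unique h h'

theorem IsInt.add {β : ∀ M, BM (a.B M).X} {α α' : ∀ M, H (a.B M).X} {P P' : R σ}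
    (h : a.IsInt β α P) (h' : a.IsInt β α' P') : a.IsInt β (fun M => α M + α' M) (P + P') :=
  (Rep.add h h').congr fun M f => by rw [add_mul, map_add]

theorem IsInt.smul {β : ∀ M, BM (a.B M).X} {α : ∀ M, H (a.B M).X} {P : R σ}
    (h : a.IsInt β α P) (c : ℂ) : a.IsInt β (fun M => c • α M) (c • P) :=
  (Rep.smul h c).congr fun M f => by rw [smul_mul_assoc, map_smul, smul_eq_mul]

theorem IsInt.mul {β : ∀ M, BM (a.B M).X} {α : ∀ M, H (a.B M).X} {P : R σ}
    (h : a.IsInt β α P) (q : R σ) : a.IsInt β (fun M => α M * a.e M q) (q * P) :=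
  (Rep.mul h q).congr fun M f => by rw [map_mul (a.e M), mul_assoc]

variable [CompactSpace Y.X] {d : ℤ} {β : ∀ M, BM (a.B M).X} {α : ∀ M, H (a.B M).X}

omit [CompactSpace Y.X] in
theorem IsBM.intg_eq_zero (hβ : a.IsBM d β) {j : ℤ} (hj : ∀ M, H.IsDeg j (α M)) {M : ℕ}
    {k : σ →₀ ℕ} (h : j + 2 * k.degree ≠ 2 * (d + Fintype.card σ * M)) :
    intg (β M) (α M * a.e M (monomial k 1)) = 0 :=
  intg_deg (hβ.deg M) ((hj M).mul (a.e_deg M (isHomogeneous_monomial 1 rfl))) h

/-- **Existence of equivariant integrals** -/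
theorem IsBM.exists_isInt (hβ : a.IsBM d β) (hα : a.IsCl α) {j : ℤ} (hj : ∀ M, H.IsDeg j (α M)) :
    ∃ P, a.IsInt β α P :=
  exists_rep (φ := fun M => intg (β M) ∘ₗ LinearMap.mulLeft ℂ (α M) ∘ₗ (a.e M).toLinearMap)
    (fun M f => by
      change intg (β M) (α M * a.e M f) = intg (β (M + 1)) (α (M + 1) * a.e (M + 1) (_ * f))
      rw [← hα M, ← a.map_inc_e M f, ← map_mul, ← intg_push, hβ.push_inc, intg_cap, mul_comm _ f,
        map_mul (a.e (M + 1)), mul_assoc])
    (fun M i f => by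
      change intg (β M) (α M * a.e M (_ * f)) = 0
      rw [map_mul (a.e M), e_X_pow, zero_mul, mul_zero, map_zero]) (D := (j - 2 * d).toNat)
    fun M k hk => hβ.intg_eq_zero hj (by
      have : ((k.degree + (j - 2 * d).toNat : ℕ) : ℤ) < (Fintype.card σ * M : ℕ) := by exact_mod_cast hk
      push_cast at this
      omega)

omit [CompactSpace Y.X] in
theorem IsInt.isHomogeneous {P : R σ} (h : a.IsInt β α P) (hβ : a.IsBM d β) {j : ℤ}
    (hj : ∀ M, H.IsDeg j (α M)) {k : ℕ} (hk : j = 2 * (d + k)) : P.IsHomogeneous k :=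
  Rep.isHomogeneous h fun M l hl => hβ.intg_eq_zero hj fun e => hl (by
    have : ((l.degree + k : ℕ) : ℤ) = (Fintype.card σ * M : ℕ) := by push_cast; omega
    exact_mod_cast this)

omit [CompactSpace Y.X] in
theorem IsInt.eq_zero {P : R σ} (h : a.IsInt β α P) (hβ : a.IsBM d β) {j : ℤ}
    (hj : ∀ M, H.IsDeg j (α M)) (hk : j < 2 * d) : P = 0 :=
  Rep.eq_zero h fun M l hl => hβ.intg_eq_zero hj (by
    have : (l.degree : ℤ) ≤ (Fintype.card σ * M : ℕ) := by exact_mod_cast hl
    push_cast at this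
    omega)

/-- **The non-equivariant limit** -/
theorem IsInt.constantCoeff {P : R σ} (h : a.IsInt β α P) :
    constantCoeff P = intg (res a.base.map (β 0)) (H.map a.base.map (α 0)) := by
  rw [Rep.constantCoeff h, map_one, mul_one, ← intg_push, push_res_homeo a.isHomeomorph_base]

end TS

end Vale.Agent.P269.Loc
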