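import Vale.Agent.P269.Loc.Sum
import Vale.Agent.P269.Loc.Lam
import Vale.Agent.P269.Orb.LC

/-! Local formal localisation: calculus of localised Gysin maps. -/

set_option linter.unusedSectionVars false

namespace Vale.Agent.P269.Loc

open Set Function Topology Filter Vale.Agent.P291Z Vale.Agent.P269.Ch Vale.Agent.P269.Orb

variable {Y U F X D X' : Type} [TopologicalSpace Y] [TopologicalSpace U] [TopologicalSpace F]
  [TopologicalSpace X] [TopologicalSpace D] [TopologicalSpace X'] [Nice Y] [Nice U] [Nice F]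
  [Nice X] [Nice D] [Nice X']

set_option linter.unusedVariables false in
/-- **Formal localisation**, local form: `D` is an open and closed part of `X ∩ F` -/
theorem core_loc {jU : U → Y} (hU : IsOpenEmbedding jU) {iF : F → U} (hF : IsClosedEmbedding iF)
    {j : X → Y} (hj : IsClosedEmbedding j) {i : D → X} (hi : IsClosedEmbedding i) {κ : D → F}
    (hκ : IsClosedEmbedding κ) (hsq : ∀ x, j (i x) = jU (iF (κ x)))
    (hr : Isol (range κ) ((jU ∘ iF) ⁻¹' range j)) {dt dθ du : ℕ} {t u : Coch Y}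
    (ht : LCo (range j) t) (hdt : IsDeg (2 * dt) t) {θ : Coch U} (hθ : IsCo (range iF) dθ θ)
    (hu : supp (δ u) = ∅) (hdu : IsDeg (2 * du) u)
    (hs : ∀ x, ∀ᶠ y in 𝓝 (j (i x)), y ∈ supp u → y ∈ range (jU ∘ iF)) (β : BM Y) :
    LCo (range i) (pull j u) ∧ LCo (range κ) (pull (jU ∘ iF) t) ∧
      cap (hcls (pull (iF ∘ κ) θ)) (lgys i (pull j u) (lgys j t β)) =
        cap (hcls (pull (j ∘ i) u)) (lgys κ (pull (jU ∘ iF) t) (gys iF θ (res jU β))) := by
  have e : j ∘ i = jU ∘ iF ∘ κ := funext hsq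
  have h1 : Isol (range (j ∘ i)) (range (jU ∘ iF) ∩ range j) := by
    rw [e, ← comp_assoc, range_comp]
    exact hr.image (hU.isEmbedding.comp hF.isEmbedding).isInducing
  have h2 : Isol (range i) (j ⁻¹' supp u) := by
    rintro _ ⟨x, rfl⟩
    filter_upwards [hj.continuous.continuousAt.eventually ((h1 _ ⟨x, rfl⟩).and (hs x))] with y hy h
    obtain ⟨z, hz⟩ := hy.1 ⟨hy.2 h, y, rfl⟩
    exact ⟨z, hj.injective hz⟩
  have h3 : range κ ⊆ (jU ∘ iF) ⁻¹' range j := by
    rintro _ ⟨x, rfl⟩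
    exact ⟨_, hsq x⟩
  have cF := hU.continuous.comp hF.continuous
  have hD := hF.comp hκ
  have cu := cocycle_pull hU.continuous hu
  refine ⟨LCo.of_cocycle (cocycle_pull hj.continuous hu) (h2.mono (supp_pull hj.continuous u)),
    (ht.pull cF).mono h3 hr, ?_⟩
  obtain ⟨h4, h5⟩ := lgys_lgys hj ht hi (s := u) (fun z => supp_eq_empty.1 hu _) h2 β
  have h6 := (h4.pull_open (hj.comp hi) hU IsOpenEmbedding.id (i' := iF ∘ κ)
    fun z => (hsq z).symm).2
  obtain ⟨h7, h8⟩ := lgys_lgys hF (LCo.of_isCo hθ) hκ (s := pull jU t)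
    (fun z => van_δ_pull hU.continuous.continuousAt (ht.cyc _ ⟨_, hsq z⟩))
    ((hr.trans h3 (ht.isol.preimage cF)).mono fun y hy => supp_pull hU.continuous t hy)
    (res jU β)
  have h9 := LCoh.comm hD.isClosed_range hF.isClosed_range h6 (LCo.of_isCo hθ) hθ.deg
  rw [inter_eq_left.2 (range_comp_subset_range κ iF)] at h9
  rw [h5, lgys_res (hj.comp hi) h4 hU (i' := iF ∘ κ) fun z => (hsq z).symm,
    cap_lgys hD h6 fun z => supp_eq_empty.1 hθ.cocycle _,
    ← lgys_eq_gys hF hθ.cocycle hθ.supp, ← pull_pull iF jU, h8, e, ← pull_pull (iF ∘ κ) jU,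
    cap_lgys hD h7 fun z => supp_eq_empty.1 cu _, ← mul_assoc, ← map_mul,
    h9.lgys hD (h6.mul_left fun x _ => supp_eq_empty.1 hθ.cocycle x)]

/-- two localising cocycles -/
theorem cap_lgys_comm {i : D → X} (hi : IsClosedEmbedding i) {u u' : Coch X}
    (hu : LCo (range i) u) (hu' : LCo (range i) u') {d : ℤ} (hd : IsDeg (2 * d) u') (β : BM X) :
    cap (hcls (pull i u)) (lgys i u' β) = cap (hcls (pull i u')) (lgys i u β) := by
  have h := LCoh.comm hi.isClosed_range hi.isClosed_range hu hu' hd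
  rw [inter_self] at h
  rw [cap_lgys hi hu' fun z => hu.cyc _ ⟨z, rfl⟩, cap_lgys hi hu fun z => hu'.cyc _ ⟨z, rfl⟩,
    h.lgys hi (hu.mul_left hu'.cyc)]

/-- a cocycle supported on `F` near `D` is divisible by the Thom class -/
theorem core_inv {iF : F → U} (hF : IsClosedEmbedding iF) {κ : D → F} (hκ : Continuous κ)
    {N n : ℤ} {β : BM U} (hβ : BM.IsDeg (2 * N) β) {dθ du : ℕ} {θ u : Coch U}
    (hθ : IsCo (range iF) dθ θ) (ho : Ori (2 * n) (gys iF θ β)) (hu : supp (δ u) = ∅)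
    (hdu : IsDeg (2 * du) u) (hs : ∀ x, ∀ᶠ y in 𝓝 (iF (κ x)), y ∈ supp u → y ∈ range iF) :
    ∃ b ∈ Hev D, b * hcls (pull (iF ∘ κ) θ) = hcls (pull (iF ∘ κ) u) := by
  obtain ⟨O, hO, h1, h2⟩ := exists_open_of_eventually (A := range (iF ∘ κ)) (forall_mem_range.2 hs)
  have hO' := hO.preimage hF.continuous
  have : Nice O := Nice.of_isLocallyClosed hO.isLocallyClosed
  have : Nice (iF ⁻¹' O : Set F) := Nice.of_isLocallyClosed hO'.isLocallyClosed
  have hi : IsClosedEmbedding (O.restrictPreimage iF) := O.restrictPreimage_isClosedEmbedding hF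
  have hr : Subtype.val ⁻¹' range iF = range (O.restrictPreimage iF) :=
    (O.range_restrictPreimage iF).symm
  have hv := hO.isOpenEmbedding_subtypeVal
  have c1 := cocycle_pull hv.continuous hθ.cocycle
  have c2 := cocycle_pull hv.continuous hu
  have s1 : supp (pull Subtype.val θ) ⊆ range (O.restrictPreimage iF) := fun y hy =>
    hr.subset (hθ.supp (supp_pull hv.continuous θ hy))
  have s2 : supp (pull Subtype.val u) ⊆ range (O.restrictPreimage iF) := fun y hy =>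
    hr.subset (h2 y y.2 (supp_pull hv.continuous u hy))
  have ho' := ho.res hO'.isOpenEmbedding_subtypeVal
  rw [res_gys hF hi hv hO'.isOpenEmbedding_subtypeVal (fun _ => rfl) hr.subset hθ.cocycle
    hθ.supp] at ho'
  obtain ⟨b, b1, b2, b3⟩ := ho'.exists_cap ((hβ.res Subtype.val).gys (O.restrictPreimage iF)
    (hdu.pull (Subtype.val : O → U)))
  have e := cap_lgys_comm hi (LCo.of_supp c1 s1) (LCo.of_supp c2 s2) (hdu.pull _)
    (res Subtype.val β)
  rw [lgys_eq_gys hi c1 s1, lgys_eq_gys hi c2 s2, ← b3, ← cap_mul] at e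
  let κ' : C(D, (iF ⁻¹' O : Set F)) := ⟨fun x => ⟨κ x, h1 ⟨x, rfl⟩⟩, hκ.subtype_mk _⟩
  have e2 := congrArg (H.map κ') (ho'.pd_bijective.1 e)
  rw [map_mul, H.map_hcls _ (cocycle_pull hi.continuous c1),
    H.map_hcls _ (cocycle_pull hi.continuous c2), pull_pull, pull_pull, pull_pull, pull_pull] at e2
  have hb : H.map κ' (hcls b) ∈ Hev D :=
    map_mem_Hev _ (mem_Hev (k := n - (N - du)) (hcls_isDeg (b2.cast (by ring))))
  exact ⟨_, hb, (Hev.commute hb _).trans e2⟩

/-- a map is proper near an isolated compact part of a preimage -/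
theorem exists_proper_nhds {μ : X' → X} (hμ : Continuous μ) {K' : Set X'} (hK' : IsCompact K')
    {K : Set X} (hm : MapsTo μ K' K) (h : Isol K' (μ ⁻¹' K)) : ∃ (W' : Set X') (W : Set X),
      IsOpen W' ∧ IsOpen W ∧ K' ⊆ W' ∧ K ⊆ W ∧ MapsTo μ W' W ∧ W' ∩ μ ⁻¹' K ⊆ K' ∧
      ∀ C ⊆ W, IsCompact C → IsCompact (W' ∩ μ ⁻¹' C) := by
  obtain ⟨O, hO, h1, h2⟩ := h.exists_isOpen
  obtain ⟨C', c1, c2, c3⟩ := exists_compact_between hK' hO h1
  have hW : IsOpen (μ '' (C' \ interior C'))ᶜ :=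
    ((c1.diff isOpen_interior).image hμ).isClosed.isOpen_compl
  have hK : K ⊆ (μ '' (C' \ interior C'))ᶜ := by
    rintro _ hk ⟨y, hy, rfl⟩
    exact hy.2 (c2 (h2 ⟨c3 hy.1, hk⟩))
  refine ⟨interior C' ∩ μ ⁻¹' (μ '' (C' \ interior C'))ᶜ, _,
    isOpen_interior.inter (hW.preimage hμ), hW, fun y hy => ⟨c2 hy, hK (hm hy)⟩, hK,
    fun y hy => hy.2, fun y hy => h2 ⟨c3 (interior_subset hy.1.1), hy.2⟩, fun C hC hc => ?_⟩
  have e : interior C' ∩ μ ⁻¹' (μ '' (C' \ interior C'))ᶜ ∩ μ ⁻¹' C = C' ∩ μ ⁻¹' C :=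
    Subset.antisymm (fun y hy => ⟨interior_subset hy.1.1, hy.2⟩) fun y hy =>
      ⟨⟨by_contra fun h3 => hC hy.2 ⟨y, ⟨hy.1, h3⟩, rfl⟩, hC hy.2⟩, hy.2⟩
  rw [e]
  exact c1.inter_right (hc.isClosed.preimage hμ)

theorem fn_sum {ι : Type*} (s : Finset ι) (g : ι → X → ℂ) :
    fn (∑ c ∈ s, g c) = ∑ c ∈ s, fn (g c) :=
  map_sum (AddMonoidHom.mk' (fn (X := X)) fn_add) g s

/-- integrals over a finite disjoint union -/
theorem intg_eq_sum [CompactSpace X] {C : Type} [Fintype C] {Z : C → Type}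
    [∀ c, TopologicalSpace (Z c)] [∀ c, Nice (Z c)] (e : ∀ c, C(Z c, X))
    (h1 : ∀ c, IsOpenEmbedding (e c)) (h2 : ∀ c, IsClosed (range (e c)))
    (h3 : ∀ x, ∃! c, x ∈ range (e c)) (β : BM X) (y : H X) :
    intg β y = ∑ c, intg (res (e c) β) (H.map (e c) y) := by
  classical
  obtain ⟨t, ht, rfl⟩ := hcls_surj y
  let g : C → X → ℂ := fun c => (range (e c)).indicator fun _ => 1
  have hg : ∀ c, supp (δ (t * fn (g c))) = ∅ := fun c => cocycle_mul ht (cocycle_fn.2
    ((LocallyConstant.const X (1 : ℂ)).indicator ⟨h2 c, (h1 c).isOpen_range⟩).isLocallyConstant)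
  have hs : ∑ c, g c = fun _ => 1 := funext fun x => by
    obtain ⟨c, hc, hc'⟩ := h3 x
    rw [Finset.sum_apply, Finset.sum_eq_single c (fun c' _ h => indicator_of_notMem
      (fun h' => h (hc' c' h')) _) (by simp)]
    exact indicator_of_mem hc _
  have e1 : hcls t = ∑ c, hcls (t * fn (g c)) := by
    rw [← hcls_sum _ fun c _ => hg c, ← Finset.mul_sum, ← fn_sum, hs, fn_one, mul_one]
  conv_lhs => rw [e1, map_sum]
  refine Finset.sum_congr rfl fun c _ => ?_
  have : CompactSpace (Z c) := (IsClosedEmbedding.mk (h1 c).isEmbedding (h2 c)).compactSpace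
  rw [H.map_hcls _ ht, intg_hcls _ (cocycle_pull (e c).continuous ht), intg_hcls _ (hg c),
    ← ev_res (h1 c) β ⟨(isClosed_supp _).isCompact, hg c⟩ fun x hx => by_contra fun h =>
      fn_van.2 (mem_of_superset ((h2 c).isOpen_compl.mem_nhds h) fun z hz =>
        indicator_of_notMem hz _) (supp_mul _ _ hx).2, map_mul, pull_fn,
    show g c ∘ e c = fun _ => 1 from funext fun z =>
      indicator_of_mem (mem_range_self (f := e c) z) fun _ => (1 : ℂ),
    fn_one, mul_one]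

theorem map_fn (f : C(X', X)) {g : X → ℂ} (hg : IsLocallyConstant g) :
    H.map f (hcls (fn g)) = hcls (fn (g ∘ f)) := by
  rw [H.map_hcls _ (cocycle_fn.2 hg), pull_fn]

theorem fn_mem_Hev (g : X → ℂ) : hcls (fn g) ∈ Hev X :=
  mem_Hev (k := 0) (hcls_isDeg (isDeg_fn g))

end Vale.Agent.P269.Loc
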