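import Vale.Agent.P269.Loc.Fix

/-!
# Equivariant slices at fixed points of the torus; the fixed loci are submanifolds
-/

set_option linter.unusedSectionVars false

namespace Vale.Agent.P269.Loc

open Set Function Topology Filter Module Vale.Agent.P291Z Vale.Agent.P269.Ch Vale.Agent.P269.Holo
  Vale.Agent.P269.Orb

variable {σ : Type} [Fintype σ]

section lin

variable {V : Type} [NormedAddCommGroup V] [NormedSpace ℂ V] [FiniteDimensional ℂ V]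
  {τ : Tor σ →* End ℂ V}

/-- An invariant subspace has an equivariant projector. -/
theorem Wtd.exists_proj (hw : Wtd τ) {Γ : Type} [Group Γ] [Finite Γ] [DistribMulAction Γ V]
    [SMulCommClass Γ ℂ V] (hc : ∀ (g : Γ) s v, τ s (g • v) = g • τ s v) {U : Submodule ℂ V}
    (h1 : ∀ s, ∀ v ∈ U, τ s v ∈ U) (h2 : ∀ (g : Γ), ∀ v ∈ U, g • v ∈ U) :
    ∃ P : V →ₗ[ℂ] V, (∀ v, P v ∈ U) ∧ (∀ v ∈ U, P v = v) ∧ (∀ s v, P (τ s v) = τ s (P v)) ∧
      ∀ (g : Γ) v, P (g • v) = g • P v := by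
  obtain ⟨K, hK⟩ := U.exists_isCompl
  obtain ⟨p, h3, h4⟩ := hw.exists_avg hw (Submodule.projection U K hK)
  have h5 : ∀ v, p v ∈ U := fun v => hw.induction (P := fun v => p v ∈ U) v
    (fun w v hv => h3 w v hv ▸ hw.wpr_mem_of_gen (h1 _) w (Submodule.projection_apply_mem hK v))
    (by simp) fun a b ha hb => by rw [map_add]; exact U.add_mem ha hb
  have h6 : ∀ v ∈ U, p v = v := fun v hv => by
    obtain ⟨W, hW⟩ := exists_wts τ
    conv_lhs => rw [← hw.sum_wpr hW v, map_sum]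
    refine (Finset.sum_congr rfl fun w _ => ?_).trans (hw.sum_wpr hW v)
    rw [h3 w _ (hw.wpr_mem w v), Submodule.projection_apply_left hK
      ⟨_, hw.wpr_mem_of_gen (h1 _) w hv⟩, hw.wpr_wpr]
  have := Fintype.ofFinite Γ
  have key : ∀ v, ((Fintype.card Γ : ℂ)⁻¹ • ∑ g : Γ, DistribSMul.toLinearMap ℂ V g⁻¹ ∘ₗ p ∘ₗ
      DistribSMul.toLinearMap ℂ V g) v = (Fintype.card Γ : ℂ)⁻¹ • ∑ g : Γ, g⁻¹ • p (g • v) :=
    fun v => by rw [LinearMap.smul_apply, LinearMap.sum_apply]; rfl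
  refine ⟨_, fun v => key v ▸ U.smul_mem _ (U.sum_mem fun g _ => h2 _ _ (h5 _)), fun v hv => ?_,
    fun s v => ?_, fun g v => ?_⟩
  · rw [key, Finset.sum_congr rfl fun g _ => show g⁻¹ • p (g • v) = v by
      rw [h6 _ (h2 g v hv), inv_smul_smul], Finset.sum_const, Finset.card_univ,
      ← Nat.cast_smul_eq_nsmul ℂ, inv_smul_smul₀ (Nat.cast_ne_zero.2 Fintype.card_ne_zero)]
  · rw [key, key, map_smul, map_sum]
    exact congrArg _ (Finset.sum_congr rfl fun g _ => by rw [← hc, h4, hc])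
  · rw [key, key, smul_comm g, Finset.smul_sum (r := g)]
    exact congrArg _ (Fintype.sum_equiv (Equiv.mulRight g) _ _ fun k => by simp [mul_smul])

/-- An invariant subspace is the product of its fixed part and its moving part. -/
theorem Wtd.exists_split (hw : Wtd τ) {U : Submodule ℂ V} (h1 : ∀ s, ∀ v ∈ U, τ s v ∈ U) :
    ∃ e : (U ⊓ wsp τ 0 : Submodule ℂ V) × (U ⊓ mov τ : Submodule ℂ V) →L[ℂ] U, Bijective e ∧
      (∀ y, (e (y, 0) : V) = y) ∧ ∀ p, (e p : V) ∈ wsp τ 0 ↔ p.2 = 0 := by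
  let e : (U ⊓ wsp τ 0 : Submodule ℂ V) × (U ⊓ mov τ : Submodule ℂ V) →L[ℂ] U :=
    LinearMap.toContinuousLinearMap
      ((Submodule.inclusion inf_le_left).coprod (Submodule.inclusion inf_le_left))
  have h2 : ∀ p, (e p : V) = p.1 + p.2 := fun _ => rfl
  have h3 : ∀ p, wpr τ 0 (e p) = p.1 := fun p => by
    rw [h2, map_add, hw.wpr_of_mem p.1.2.2, hw.mem_mov.1 p.2.2.2, add_zero]
  have h4 : ∀ p, (e p : V) ∈ wsp τ 0 ↔ p.2 = 0 := fun p => by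
    rw [← hw.wpr_eq_iff, h3, h2, left_eq_add, ZeroMemClass.coe_eq_zero]
  refine ⟨e, ⟨(injective_iff_map_eq_zero _).2 fun p hp => Prod.ext (Subtype.ext ?_)
    ((h4 p).1 (by simp [hp])), fun v => ?_⟩, fun y => by simp [h2], h4⟩
  · simpa [hp] using (h3 p).symm
  · have := hw.wpr_mem_of_gen (h1 _) 0 v.2
    exact ⟨(⟨_, this, hw.wpr_mem 0 v⟩, ⟨_, U.sub_mem v.2 this, hw.sub_wpr_mem v⟩),
      Subtype.ext (by simp [h2])⟩

/-- Statements that hold near zero hold along the orbits of the compact torus near zero. -/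
theorem Wtd.eventually_cpt (hw : Wtd τ) {U : Submodule ℂ V} (h1 : ∀ s, ∀ v ∈ U, τ s v ∈ U)
    {p : U × U → Prop} (hp : ∀ᶠ q in 𝓝 0, p q) :
    ∀ᶠ v : U in 𝓝 0, ∀ s ∈ cpt σ, p (v, ⟨τ s v, h1 s v v.2⟩) :=
  isCompact_cpt.eventually_forall_of_forall_eventually
    (P := fun (v : U) s => p (v, ⟨τ s v, h1 s v v.2⟩)) fun s _ =>
    (Continuous.tendsto' (f := fun z : U × Tor σ => (z.1, (⟨τ z.2 z.1, h1 _ _ z.1.2⟩ : U)))
      (continuous_fst.prodMk ((hw.cont₂.comp (f := fun z : U × Tor σ => (z.2, (z.1 : V)))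
        (by fun_prop)).subtype_mk _)) (0, s) 0 (by simp)).eventually hp

theorem fderiv_split {U : Submodule ℂ V} {F B : Type} [NormedAddCommGroup F] [NormedSpace ℂ F]
    [NormedAddCommGroup B] [NormedSpace ℂ B] {f : U → V} (hf : AnalyticAt ℂ f 0)
    (hd : ∀ v : U, fderiv ℂ f 0 v = v) (e : F × B →L[ℂ] U) {g : F → V}
    (hg : ∀ᶠ y in 𝓝 0, g y = f (e (y, 0))) (y : F) : fderiv ℂ g 0 y = e (y, 0) := by
  let l := e.comp (ContinuousLinearMap.inl ℂ F B)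
  rw [EventuallyEq.fderiv_eq (f := fun y => f (l y)) hg,
    fderiv_comp_an (by rwa [map_zero]) (l.analyticAt 0), map_zero, l.fderiv]
  exact hd _

end lin

namespace TH

variable {Y : HO} (h : TH σ Y) {d : Dat σ Y.G}

theorem τ_smul {t : Y.T} (ht : t ∈ h.toTS.Fx d) {g : Y.G} (hg : g • t = t) (s : Tor σ) (v : Y.A) :
    h.τ d s (g • v) = g • h.τ d s v :=
  h.tanV.τ_comm d (TS.commute_of_fx ht (hg.symm ▸ ht)) s v

theorem τ_mem_tan {t : Y.T} (ht : t ∈ h.toTS.Fx d) (s : Tor σ) (v : Y.A) (hv : v ∈ tan Y.ι t) :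
    h.τ d s v ∈ tan Y.ι t := h.tanV.τ_mem ht s hv

theorem τ_mem_orb {t : Y.T} (ht : t ∈ h.toTS.Fx d) (s : Tor σ) (v : Y.A) (hv : v ∈ Y.orbB.F t) :
    h.τ d s v ∈ Y.orbB.F t := h.orbV.τ_mem ht s hv

theorem mem_fx_of_gen {x : Y.T}
    (hx : h.a (gen σ ^ d.m) x = d.ρ (gen σ) • x) : x ∈ h.toTS.Fx d :=
  (h.mem_fx_iff d).2 ((h.wtd_τ d).mem_wsp_zero_of_gen_pow one_ne_zero (by
    rw [pow_one, h.τ_ι d gen_mem, hx, inv_smul_smul]))

theorem exists_proj {t : Y.T} (ht : t ∈ h.toTS.Fx d) {U : Submodule ℂ Y.A}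
    (h1 : ∀ s, ∀ v ∈ U, h.τ d s v ∈ U) (h2 : ∀ g : Y.G, g • t = t → ∀ v ∈ U, g • v ∈ U) :
    ∃ P : Y.A →ₗ[ℂ] Y.A, (∀ v, P v ∈ U) ∧ (∀ v ∈ U, P v = v) ∧
      (∀ s v, P (h.τ d s v) = h.τ d s (P v)) ∧
      ∀ g : Y.G, g • t = t → ∀ v, P (g • v) = g • P v := by
  obtain ⟨P, h3, h4, h5, h6⟩ := (h.wtd_τ d).exists_proj (Γ := MulAction.stabilizer Y.G t)
    (fun g => h.τ_smul ht g.2) h1 fun g => h2 g g.2
  exact ⟨P, h3, h4, h5, fun g hg => h6 ⟨g, hg⟩⟩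

theorem eventually_tw {t : Y.T} (ht : t ∈ h.toTS.Fx d) {p : Y.T → Prop} (hp : ∀ᶠ x in 𝓝 t, p x) :
    ∀ᶠ x in 𝓝 t, ∀ s ∈ cpt σ, p ((d.ρ s)⁻¹ • h.a (s ^ d.m) x) :=
  isCompact_cpt.eventually_forall_of_forall_eventually
    (P := fun x s => p ((d.ρ s)⁻¹ • h.a (s ^ d.m) x)) fun s _ =>
    (Continuous.tendsto' (f := fun z : Y.T × Tor σ => (d.ρ z.2)⁻¹ • h.a (z.2 ^ d.m) z.1)
      ((d.cρ.comp continuous_snd).inv.smul (h.continuous_a (continuous_snd.pow _) continuous_fst))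
      (t, s) t (by rw [ht s, inv_smul_smul])).eventually hp

omit h in
theorem eventually_stab {X Z : Type} [TopologicalSpace X] [TopologicalSpace Z] {t : Y.T} {x : X}
    {z : Z} {f : ∀ g : Y.G, g • t = t → X → Z} (hf : ∀ g hg, Tendsto (f g hg) (𝓝 x) (𝓝 z))
    {p : Z → Prop} (hp : ∀ᶠ y in 𝓝 z, p y) : ∀ᶠ y in 𝓝 x, ∀ g hg, p (f g hg y) :=
  (eventually_all.2 fun g : MulAction.stabilizer Y.G t => (hf g g.2).eventually hp).mono
    fun _ hy g hg => hy ⟨g, hg⟩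

/-- Linearisation of the twisted action and of the stabiliser at a fixed point. -/
theorem exists_lin {t : Y.T} (ht : t ∈ h.toTS.Fx d) : ∃ ψ : Y.A → Y.T, ψ 0 = t ∧
    IsParam Y.ι (fun v : tan Y.ι t => ψ v) 0 ∧
    (∀ v : tan Y.ι t, fderiv ℂ (fun v : tan Y.ι t => Y.ι (ψ v)) 0 v = v) ∧
    (∀ᶠ v : tan Y.ι t in 𝓝 0, ∀ s ∈ cpt σ, h.a (s ^ d.m) (ψ v) = d.ρ s • ψ (h.τ d s v)) ∧
    ∀ᶠ v : tan Y.ι t in 𝓝 0, ∀ g : Y.G, g • t = t → g • ψ v = ψ (g • (v : Y.A)) := by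
  obtain ⟨P, p1, p2, p3, p4⟩ := h.exists_proj ht (h.τ_mem_tan ht)
    fun g hg v hv => by simpa only [hg] using Y.smul_mem_tan g t v hv
  let Q : Y.A →L[ℂ] tan Y.ι t := LinearMap.toContinuousLinearMap (P.codRestrict _ p1)
  have q1 : ∀ v : tan Y.ι t, Q v = v := fun v => Subtype.ext (p2 v v.2)
  obtain ⟨ψ, hψ, h0⟩ := Y.mfd t
  have hu : AnalyticAt ℂ (fun z => Q (Y.ι (ψ z) - Y.ι t)) 0 :=
    (Q.analyticAt _).comp (hψ.an.sub analyticAt_const)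
  have hd : ∀ z, (fderiv ℂ (fun z => Q (Y.ι (ψ z) - Y.ι t)) 0 z : Y.A) =
      fderiv ℂ (fun z => Y.ι (ψ z)) 0 z := fun z => by
    rw [fderiv_comp_an (f := fun z => Y.ι (ψ z) - Y.ι t) (Q.analyticAt _)
      (hψ.an.sub analyticAt_const), Q.fderiv, fderiv_sub_const]
    exact p2 _ (h0 ▸ fderiv_mem_tan hψ.lh.cont hψ.an z)
  obtain ⟨-, k, k1, k2, k3, k4⟩ := ift hu ⟨fun a b e => hψ.injective (by rw [← hd, e, hd]),
    fun v => by
      obtain ⟨z, hz⟩ := hψ.tan_eq.le (show v.1 ∈ _ by rw [h0]; exact v.2)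
      exact ⟨z, Subtype.ext ((hd z).trans hz)⟩⟩
  simp only [h0, sub_self, map_zero] at k1 k2 k4
  have k5 : ∀ v, fderiv ℂ (fun z => Q (Y.ι (ψ z) - Y.ι t)) 0 (fderiv ℂ k 0 v) = v := fun v => by
    simpa only [k2] using fderiv_leftInv (by rwa [k2]) k1 k4 v
  have hk : IsParam Y.ι (fun v => ψ (k v)) 0 := IsParam.comp (by rwa [k2]) k1
    (bijective_of_injective _ (LeftInverse.injective k5) (by
      rw [(Y.mfd t).finrank_tan, finrank_fin_fun]))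
  have h1 : ∀ᶠ x in 𝓝 t, ψ (k (Q (Y.ι x - Y.ι t))) = x := by
    refine (h0 ▸ hψ.lh.map_nhds).ge (eventually_map.2 (k3.mono fun z hz => ?_))
    rw [hz]
  have h2 : Tendsto (fun v => ψ (k v)) (𝓝 0) (𝓝 t) := by
    simpa only [k2, h0] using hk.lh.cont.tendsto
  have h3 : ∀ (l : Y.A →ₗ[ℂ] Y.A) (v : tan Y.ι t) (x : Y.T), l (Y.ι t) = Y.ι t →
      (∀ a, P (l a) = l (P a)) → Y.ι x = l (Y.ι (ψ (k v))) → Q (Y.ι (ψ (k v)) - Y.ι t) = v →
      Q (Y.ι x - Y.ι t) = Q (l v) := fun l v x e1 e2 e3 e4 => Subtype.ext (show P _ = P _ by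
    rw [e3, ← e1, ← map_sub, e2, e2, p2 _ v.2]
    exact congrArg l (congrArg Subtype.val e4))
  refine ⟨fun v => ψ (k (Q v)), by simp only [map_zero, k2, h0], ?_⟩
  simp only [q1]
  refine ⟨hk, fun v => ?_, ?_, ?_⟩
  · rw [fderiv_comp_an (g := fun z => Y.ι (ψ z)) (by rw [k2]; exact hψ.an) k1, k2,
      ContinuousLinearMap.comp_apply, ← hd, k5]
  · filter_upwards [h2.eventually (h.eventually_tw ht h1), k4] with v a b s hs
    rw [← h3 (h.τ d s) v _ (mem_wsp_zero.1 ((h.mem_fx_iff d).1 ht) s) (p3 s) (h.τ_ι d hs _).symm b,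
      a s hs, smul_inv_smul]
  · filter_upwards [h2.eventually (eventually_stab (f := fun g _ x => g • x) (fun g hg =>
      (continuous_const_smul g).tendsto' _ _ hg) h1), k4] with v a b g hg
    rw [← a g hg, h3 (DistribSMul.toLinearMap ℂ Y.A g) v _
      (by rw [DistribSMul.toLinearMap_apply, ← Y.eqv, hg]) (p4 g hg) (Y.eqv g _) b]
    rfl

/-- The fixed points of the twisted action form a submanifold. -/
theorem isMfd_fx {Z : Type} [TopologicalSpace Z] {j : Z → Y.T}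
    (hj : IsEmbedding j) {z : Z} (h1 : ∀ z, j z ∈ h.toTS.Fx d)
    (h2 : ∀ᶠ x in 𝓝 (j z), x ∈ h.toTS.Fx d → x ∈ range j) :
    IsMfd (fun z => Y.ι (j z)) (finrank ℂ (tan Y.ι (j z) ⊓ wsp (h.τ d) 0 : Submodule ℂ Y.A)) z ∧
      tan (fun z => Y.ι (j z)) z = tan Y.ι (j z) ⊓ wsp (h.τ d) 0 := by
  obtain ⟨ψ, h0, hψ, hd, ht, -⟩ := h.exists_lin (h1 z)
  obtain ⟨e, e1, e2, e3⟩ := (h.wtd_τ d).exists_split (h.τ_mem_tan (h1 z))
  have hc : Tendsto (fun v : tan Y.ι (j z) => ψ v) (𝓝 0) (𝓝 (j z)) := h0 ▸ hψ.lh.cont.tendsto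
  have h3 : ∀ᶠ v : tan Y.ι (j z) in 𝓝 0, ψ v ∈ range j ↔ v.1 ∈ wsp (h.τ d) 0 := by
    filter_upwards [ht, hc.eventually h2, (h.wtd_τ d).eventually_cpt (h.τ_mem_tan (h1 z))
      (nhds_prod_eq.le hψ.lh.eventually_inj)] with v a b c
    refine ⟨fun ⟨y, hy⟩ => (h.wtd_τ d).mem_wsp_zero_of_gen_pow one_ne_zero ?_,
      fun hv => b (h.mem_fx_of_gen ?_)⟩
    · rw [pow_one]
      exact (congrArg Subtype.val (c _ gen_mem (MulAction.injective (d.ρ (gen σ))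
        ((hy ▸ h1 y (gen σ)).symm.trans (a _ gen_mem))))).symm
    · rw [a _ gen_mem, mem_wsp_zero.1 hv]
  obtain ⟨φ, h4, h5⟩ := (IsParam.comp (y := (0, 0)) (by rwa [Prod.mk_zero_zero, map_zero])
    (e.analyticAt _) (by rwa [e.fderiv])).restrict hj
    (((e.continuous.tendsto' (0, 0) 0 (map_zero e)).eventually h3).mono fun p hp => hp.trans (e3 p))
  have h7 : φ 0 = z := hj.injective (by rw [h5.self_of_nhds, e2]; exact h0)
  refine ⟨(congrArg _ h7).mp (h4.isMfd rfl), ((congrArg _ h7).symm.trans h4.tan_eq).trans ?_⟩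
  have h6 := fderiv_split hψ.an hd e (h5.mono fun y hy => congrArg Y.ι hy)
  simp only [e2] at h6
  exact le_antisymm (by rintro _ ⟨y, rfl⟩; exact (h6 y).symm ▸ y.2) fun v hv => ⟨⟨v, hv⟩, h6 _⟩

/-- Existence of equivariant slices. -/
theorem exists_isES {t : Y.T} (ht : t ∈ h.toTS.Fx d) :
    ∃ E φ, h.IsES d t E φ := by
  obtain ⟨ψ, h0, hψ, hd, h1, h2⟩ := h.exists_lin ht
  obtain ⟨r, r1, r2, r3, r4⟩ := h.exists_proj ht (h.τ_mem_orb ht)
    fun g hg v hv => by simpa only [hg] using Y.orbB.inv g t v hv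
  let E := tan Y.ι t ⊓ LinearMap.ker r
  let i : E →L[ℂ] tan Y.ι t := LinearMap.toContinuousLinearMap (Submodule.inclusion inf_le_left)
  have hi : Tendsto i (𝓝 0) (𝓝 0) := i.continuous.tendsto' _ _ (map_zero i)
  have hc : Tendsto (fun v : E => ψ v) (𝓝 0) (𝓝 (ψ 0)) := hψ.lh.cont.tendsto.comp hi
  have ha : AnalyticAt ℂ (fun v : E => Y.ι (ψ v)) 0 :=
    hψ.an.comp_of_eq (i.analyticAt 0) (map_zero i)
  have h3 : ∀ v : E, fderiv ℂ (fun v : E => Y.ι (ψ v)) 0 v = v := fun v => by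
    have := fderiv_comp_an (g := fun v : tan Y.ι t => Y.ι (ψ v)) (f := i) (x := 0)
      (by rw [map_zero]; exact hψ.an) (i.analyticAt 0)
    rw [map_zero, i.fderiv] at this
    exact (DFunLike.congr_fun this v).trans (hd _)
  have h4 : ∀ g : Y.G, g • t = t → ∀ v ∈ E, g • v ∈ E := fun g hg v hv =>
    ⟨hg ▸ Y.smul_mem_tan g t v hv.1,
      show r _ = 0 by rw [r4 g hg, show r v = 0 from hv.2, smul_zero]⟩
  have h5 : IsSlK Y.κ Y.ι (fun v : E => ψ v) 0 := by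
    subst h0
    refine IsSlK.of_range Y.exp (Y.mfd _) (Y.hol _) hc ha
      ((injective_iff_map_eq_zero _).2 fun p hp => ?_) fun v hv => ?_
    · rw [ContinuousLinearMap.coprod_apply, h3] at hp
      have e := congrArg r hp
      rw [map_add, map_zero, show r p.2 = 0 from p.2.2.2, add_zero] at e
      replace e := (r2 _ ⟨p.1, rfl⟩).symm.trans e
      exact Prod.ext (Y.inf_inj _ (e.trans (map_zero _).symm))
        (Subtype.ext (by simpa using (add_eq_left.1 (hp.trans e.symm))))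
    · obtain ⟨x, hx⟩ := r1 v
      refine ⟨x, ⟨v - r v, Submodule.sub_mem _ hv (hx ▸ Y.inf_mem_tan _ x),
        show r _ = 0 by rw [map_sub, r2 _ (r1 v), sub_self]⟩, ?_⟩
      rw [h3]
      exact (congrArg (· + (v - r v)) hx).trans (add_sub_cancel _ _)
  have h6 : ∀ᶠ v : E in 𝓝 0, ∀ g : Y.G, g • t = t → g • ψ v = ψ (g • (v : Y.A)) :=
    hi.eventually h2
  refine ⟨E, ψ, h0, h5, h3, fun s v hv => ⟨h.τ_mem_tan ht s v hv.1,
    show r _ = 0 by rw [r3, show r v = 0 from hv.2, map_zero]⟩, h4, hi.eventually h1, h6, ?_⟩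
  have h7 : Tendsto (fun p : Y.G × E × E => ((p.1, p.2.1), ((1 : Y.G), p.2.2)))
      (𝓝 1 ×ˢ 𝓝 0) (𝓝 (1, 0) ×ˢ 𝓝 (1, 0)) := by
    rw [← nhds_prod_eq, ← nhds_prod_eq]
    exact Continuous.tendsto' (by fun_prop) _ _ rfl
  obtain ⟨N, hN, Q, hQ, h8⟩ := eventually_prod_iff.1
    (h7.eventually (h5.isSl Y.exp).1.eventually_inj)
  obtain ⟨O, h9, h10, h11⟩ := _root_.eventually_nhds_iff.1 hN
  have h12 := eventually_mem_of_proper (x := t) (y := t) (isOpen_iUnion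
    fun k : MulAction.stabilizer Y.G t => h10.preimage (continuous_mul_const (k : Y.G)⁻¹))
    fun g hg => mem_iUnion.2 ⟨⟨g, hg⟩, by simpa using h11⟩
  rw [h0] at hc
  filter_upwards [(nhds_prod_eq.le.trans (hc.prodMap hc).le_comap) (mem_comap.2 ⟨_, h12, subset_rfl⟩),
    (continuousAt_fst (p := (0 : E × E))).eventually h6,
    eventually_stab (x := (0 : E × E)) (f := fun g hg p => ((⟨g • p.1.1, h4 g hg _ p.1.2⟩ : E), p.2))
      (fun g hg => Continuous.tendsto' (by fun_prop) _ _ (by simp)) hQ] with p a b c g hg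
  obtain ⟨k, hk⟩ := mem_iUnion.1 (a g hg)
  obtain ⟨e1, e2⟩ := Prod.mk.inj (h8 (h9 _ hk) (c k k.2) (by
    simp only [← b k k.2, smul_smul, inv_mul_cancel_right, one_smul, hg]))
  obtain rfl := mul_inv_eq_one.1 e1
  exact ⟨k.2, congrArg Subtype.val e2⟩

namespace IsES

variable {h} {t : Y.T} {E : Submodule ℂ Y.A} {φ : Y.A → Y.T} (hE : h.IsES d t E φ)
include hE

theorem tendsto : Tendsto (fun v : E => φ v) (𝓝 0) (𝓝 t) := hE.zero ▸ hE.slk.cont Y.exp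

theorem mem_tan {v : Y.A} : v ∈ tan Y.ι t ↔ ∃ x, ∃ u ∈ E, Y.inf t x + u = v := by
  obtain rfl := hE.zero
  refine (hE.slk.mem_tan Y.exp (Y.hol _)).trans (exists_congr fun x => ?_)
  simp only [hE.der]
  exact ⟨fun ⟨u, e⟩ => ⟨u, u.2, e⟩, fun ⟨u, hu, e⟩ => ⟨⟨u, hu⟩, e⟩⟩

theorem le_tan : E ≤ tan Y.ι t := fun v hv => hE.mem_tan.2 ⟨0, v, hv, by simp⟩

theorem disjoint : Disjoint E (Y.orbB.F t) := by
  obtain rfl := hE.zero
  rw [Submodule.disjoint_def]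
  rintro _ hv ⟨x, rfl⟩
  have := (injective_iff_map_eq_zero _).1 (hE.slk.injective Y.exp (Y.hol _)) (-x, ⟨_, hv⟩) (by
    rw [ContinuousLinearMap.coprod_apply, hE.der, map_neg]
    exact neg_add_cancel _)
  exact congrArg (fun p => p.2.1) this

theorem sup_eq : E ⊔ Y.orbB.F t = tan Y.ι t :=
  le_antisymm (sup_le hE.le_tan (by rintro _ ⟨x, rfl⟩; exact Y.inf_mem_tan t x)) fun v hv => by
    obtain ⟨x, u, hu, rfl⟩ := hE.mem_tan.1 hv
    exact Submodule.add_mem _ (Submodule.mem_sup_right ⟨x, rfl⟩) (Submodule.mem_sup_left hu)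

/-- The weight spaces of the tangent space split along the slice and the orbit. -/
theorem wsp_sup_eq (ht : t ∈ h.toTS.Fx d) (w : σ → ℤ) :
    E ⊓ wsp (h.τ d) w ⊔ Y.orbB.F t ⊓ wsp (h.τ d) w = tan Y.ι t ⊓ wsp (h.τ d) w := by
  refine le_antisymm (sup_le (inf_le_inf_right _ hE.le_tan)
    (inf_le_inf_right _ (le_sup_right.trans hE.sup_eq.le))) fun v hv => ?_
  obtain ⟨x, u, hu, rfl⟩ := hE.mem_tan.1 hv.1
  rw [← (h.wtd_τ d).wpr_of_mem hv.2, map_add]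
  exact Submodule.add_mem _
    (Submodule.mem_sup_right ⟨(h.wtd_τ d).wpr_mem_of_gen (h.τ_mem_orb ht _) w ⟨x, rfl⟩, (h.wtd_τ d).wpr_mem w _⟩)
    (Submodule.mem_sup_left ⟨(h.wtd_τ d).wpr_mem_of_gen (hE.τ_mem _) w hu, (h.wtd_τ d).wpr_mem w _⟩)

theorem finrank_wsp (ht : t ∈ h.toTS.Fx d) (w : σ → ℤ) :
    finrank ℂ (E ⊓ wsp (h.τ d) w : Submodule ℂ Y.A) +
      finrank ℂ (Y.orbB.F t ⊓ wsp (h.τ d) w : Submodule ℂ Y.A) =
      finrank ℂ (tan Y.ι t ⊓ wsp (h.τ d) w : Submodule ℂ Y.A) := by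
  rw [← Submodule.finrank_sup_add_finrank_inf_eq, hE.wsp_sup_eq ht,
    (hE.disjoint.mono inf_le_left inf_le_left).eq_bot, finrank_bot, add_zero]

/-- In an equivariant slice the fixed points are the vectors of weight zero. -/
theorem eventually_fix : ∀ᶠ v : E in 𝓝 0,
    (φ v ∈ h.toTS.Fix → v.1 ∈ wsp (h.τ d) 0) ∧ (v.1 ∈ wsp (h.τ d) 0 → φ v ∈ h.toTS.Fx d) := by
  filter_upwards [hE.tw, (h.wtd_τ d).eventually_cpt hE.τ_mem hE.orb] with v a b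
  refine ⟨fun hv => (h.wtd_τ d).mem_wsp_zero_of_finite
    (finite_range fun g : MulAction.stabilizer Y.G t => (g : Y.G) • v.1) fun k => ?_,
    fun hv => h.mem_fx_of_gen (by rw [a _ gen_mem, mem_wsp_zero.1 hv])⟩
  have h1 := (cpt σ).pow_mem gen_mem k
  have h2 := hv _ ((cpt σ).pow_mem h1 d.m)
  rw [a _ h1, Y.π_smul] at h2
  obtain ⟨g, hg⟩ := (Y.fib _ _).1 h2.symm
  exact ⟨⟨g, (b _ h1 g hg).1⟩, (b _ h1 g hg).2⟩

end IsES

/-- Points near `t` with fixed orbit are conjugate to fixed points of the twisted action. -/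
theorem eventually_fix {t : Y.T} (ht : t ∈ h.toTS.Fx d) :
    ∃ γ : Y.T → Y.G, γ t = 1 ∧ ∀ᶠ x in 𝓝 t, ContinuousAt γ x ∧
      (x ∈ h.toTS.Fix → γ x • x ∈ h.toTS.Fx d) := by
  obtain ⟨E, φ, hE⟩ := h.exists_isES ht
  obtain ⟨w, -, h1, -, h2, h3⟩ := hE.slk.exists_inv Y.exp
  simp only [ZeroMemClass.coe_zero, hE.zero] at h1 h2 h3
  have h4 : Tendsto (fun x => (w (Y.ι x)).2) (𝓝 t) (𝓝 0) := by
    simpa only [h1] using h3.cont.snd.tendsto
  refine ⟨fun x => (Y.κ (w (Y.ι x)).1)⁻¹, by simp only [h1, Y.exp.zero, inv_one], ?_⟩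
  filter_upwards [h2, h3.eventually_cont, h4.eventually (hE.eventually_fix)] with x a b c
  refine ⟨(Y.exp.cont.continuousAt.comp b.fst).inv, fun hx => ?_⟩
  have e := inv_smul_eq_iff.2 a.symm
  exact e ▸ c.2 (c.1 (e ▸ TS.smul_mem_fix hx _))

/-- The locus of fixed orbits is a submanifold. -/
theorem isMfd_fix {Z : Type} [TopologicalSpace Z] [MulAction Y.G Z]
    {j : Z → Y.T} (hj : IsEmbedding j) (he : ∀ (g : Y.G) z, j (g • z) = g • j z) {z : Z}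
    (hz : j z ∈ h.toTS.Fx d) (h1 : ∀ z, j z ∈ h.toTS.Fix)
    (h2 : ∀ᶠ x in 𝓝 (j z), x ∈ h.toTS.Fix → x ∈ range j) {n : ℕ}
    (hn : n + finrank ℂ (Y.orbB.F (j z) ⊓ wsp (h.τ d) 0 : Submodule ℂ Y.A) =
      finrank ℂ (tan Y.ι (j z) ⊓ wsp (h.τ d) 0 : Submodule ℂ Y.A)) :
    IsMfd (fun z => Y.ι (j z)) (finrank ℂ Y.L + n) z ∧
      tan (fun z => Y.ι (j z)) z = (tan Y.ι (j z) ⊓ wsp (h.τ d) 0) ⊔ Y.orbB.F (j z) := by
  obtain ⟨E, φ, hE⟩ := h.exists_isES hz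
  obtain ⟨e, e1, e2, e3⟩ := (h.wtd_τ d).exists_split hE.τ_mem
  have h3 : ∀ᶠ v : E in 𝓝 0, φ v ∈ range j ↔ v.1 ∈ wsp (h.τ d) 0 := by
    filter_upwards [hE.eventually_fix, hE.tendsto.eventually h2] with v a b
    exact ⟨fun ⟨y, hy⟩ => a.1 (hy ▸ h1 y), fun hv => b (TS.fx_subset (a.2 hv))⟩
  obtain ⟨φ', h4, h5⟩ := (IsSlK.comp (x := (0, 0))
    (by rw [Prod.mk_zero_zero, map_zero]; exact hE.slk)
    (e.analyticAt _) (by rwa [e.fderiv])).restrict Y.exp hj he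
    (((e.continuous.tendsto' (0, 0) 0 (map_zero e)).eventually h3).mono fun p hp => hp.trans (e3 p))
  have h7 : φ' 0 = z := hj.injective (by rw [h5.self_of_nhds, e2]; exact hE.zero)
  have h6 := fderiv_split (hE.slk.an Y.exp) hE.der e (h5.mono fun y hy => congrArg Y.ι hy)
  have h8 := fun v => h4.mem_tan Y.exp ((Y.hol _).pull hj.continuous.continuousAt he) (v := v)
  simp only [h6, e2, h7, inf_pull he] at h8
  obtain rfl := Nat.add_right_cancel (hn.trans (hE.finrank_wsp hz 0).symm)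
  refine ⟨(congrArg _ h7).mp (h4.isMfd Y.exp), ?_⟩
  rw [← hE.wsp_sup_eq hz, sup_assoc,
    sup_eq_right.2 (inf_le_left (a := Y.orbB.F (j z)))]
  refine le_antisymm (fun v hv => ?_) (sup_le (fun v hv => (h8 v).2 ⟨0, ⟨v, hv⟩, by simp⟩) ?_)
  · obtain ⟨x, y, rfl⟩ := (h8 v).1 hv
    exact Submodule.add_mem _ (Submodule.mem_sup_right ⟨x, rfl⟩) (Submodule.mem_sup_left y.2)
  · rintro _ ⟨x, rfl⟩
    exact (h8 _).2 ⟨x, 0, add_zero _⟩

end TH

end Vale.Agent.P269.Loc
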