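import Vale.Agent.P269.Loc.Semi
import Vale.Agent.P269.Loc.ES
import Vale.Agent.P269.Loc.Nrm

/-!
# Fixed orbits are fixed points of twisted actions, cut functions, ranks of weight spaces
-/

namespace Vale.Agent.P269.Loc

open Set Function Topology Filter Module Vale.Agent.P291Z Vale.Agent.P269.Ch Vale.Agent.P269.Holo
  Vale.Agent.P269.Orb

variable {σ : Type} [Fintype σ]

/-- a map from a simply connected space to an orbit lifts to the group -/
theorem exists_orbit_lift {G T A : Type} [Group G] [TopologicalSpace G] [IsTopologicalGroup G]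
    [T1Space G] [TopologicalSpace T] [MulAction G T] [ProperSMul G T] [TopologicalSpace A]
    [SimplyConnectedSpace A] [LocallyPathConnectedSpace A] {t : T}
    (hf : Finite (MulAction.stabilizer G t)) {u : A → T} (hu : Continuous u)
    (ho : ∀ x, ∃ g : G, g • t = u x) {x₀ : A} (h0 : u x₀ = t) :
    ∃ γ : A → G, Continuous γ ∧ γ x₀ = 1 ∧ ∀ x, γ x • t = u x := by
  have h1 : IsClosedMap fun g : G => g • t := fun C hC => by
    have := ((ProperSMul.isProperMap_smul_pair (G := G) (X := T)).isClosedMap _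
      (hC.prod isClosed_univ)).preimage (continuous_id.prodMk (continuous_const (y := t)))
    convert this using 1
    ext y
    refine ⟨?_, ?_⟩
    · rintro ⟨g, hg, rfl⟩
      exact ⟨(g, t), ⟨hg, trivial⟩, rfl⟩
    · rintro ⟨⟨g, z⟩, hg, e⟩
      obtain ⟨e1, rfl⟩ := Prod.mk.inj e
      exact ⟨g, hg.1, e1⟩
  have h2 : ∀ g : G, g • t ∈ MulAction.orbit G t := fun g => ⟨g, rfl⟩
  have h3 : IsQuotientMap ((MulAction.orbit G t).codRestrict (fun g : G => g • t) h2) :=
    (h1.codRestrict h2).isQuotientMap ((continuous_id.smul continuous_const).codRestrict h2)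
      fun ⟨_, g, e⟩ => ⟨g, Subtype.ext e⟩
  have h4 := (h3.isQuotientCoveringMap_of_subgroupOp (MulAction.stabilizer G t)
    (Set.toFinite _).isDiscrete fun {g g'} => by
      rw [Subtype.ext_iff, MulAction.mem_stabilizer_iff, mul_smul, inv_smul_eq_iff, eq_comm]
      rfl).isCoveringMap
  obtain ⟨γ, ⟨h5, h6⟩, -⟩ := h4.existsUnique_continuousMap_lifts
    ⟨fun x => ⟨u x, ho x⟩, hu.subtype_mk _⟩ x₀ 1 (Subtype.ext ((one_smul G t).trans h0.symm))
  exact ⟨γ, γ.continuous, h5, fun x => congrArg Subtype.val (congrFun h6 x)⟩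

/-- a point with a fixed orbit is a fixed point of a twisted action -/
theorem TS.exists_dat {Y : Ch.Sp} (a : TS σ Y) (ha : ∀ s t, a.a (ph s) t = a.a s t) {t : Y.T}
    (ht : t ∈ a.Fix) : ∃ d : Dat σ Y.G, t ∈ a.Fx d := by
  have := (Y.free t).t2Space
  obtain ⟨γ, hγ, h0, hall⟩ := exists_orbit_lift (G := Y.G) (t := t) inferInstance
    (u := fun x : σ → ℂ => a.a (expT x) t) (a.continuous_a continuous_expT continuous_const)
    (fun x => (Y.fib _ _).1 (by rw [← ha, ht _ (ph_mem _)])) (x₀ := 0) (by rw [expT_zero, a.one])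
  have hadd : ∀ x y, γ (x + y) = γ x * γ y := by
    intro x y
    have := eq_of_stab (Ch_eventually_stab Y t) (D := fun p : (σ → ℂ) × (σ → ℂ) =>
      (γ (p.1 + p.2))⁻¹ * (γ p.1 * γ p.2)) ((hγ.comp continuous_add).inv.mul
        ((hγ.comp continuous_fst).mul (hγ.comp continuous_snd))) (fun p => by
        rw [mul_smul, inv_smul_eq_iff, hall, add_comm, expT_add, a.mul, ← hall p.1, a.comm, ← hall,
          mul_smul]) (x, y) (0, 0)
    simpa [h0, inv_mul_eq_one] using this
  let m := Nat.card (MulAction.stabilizer Y.G t)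
  have hpow : ∀ (k : ℕ) x, γ (k • x) = γ x ^ k := fun k x => by
    induction k with
    | zero => rw [zero_nsmul, h0, pow_zero]
    | succ k ih => rw [succ_nsmul, hadd, ih, pow_succ]
  have hker : ∀ x y, expT x = expT y → γ (m • x) = γ (m • y) := by
    intro x y e
    have e1 : expT (x - y) = 1 := by
      apply mul_right_cancel (b := expT y)
      rw [← expT_add, sub_add_cancel, e, one_mul]
    have e2 : γ (x - y) ∈ MulAction.stabilizer Y.G t := by
      rw [MulAction.mem_stabilizer_iff, hall, e1, a.one]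
    have e3 : γ (x - y) ^ m = 1 :=
      congrArg Subtype.val (pow_card_eq_one' (x := (⟨_, e2⟩ : MulAction.stabilizer Y.G t)))
    rw [← sub_add_cancel x y, nsmul_add, hadd, hpow, e3, one_mul]
  let lg : Tor σ → σ → ℂ := fun s i => Complex.log (s i)
  have hlg : ∀ s, expT (lg s) = s := fun s => by
    funext i; ext; exact Complex.exp_log (s i).ne_zero
  let ρ : Tor σ →* Y.G := MonoidHom.mk' (fun s => γ (m • lg s)) fun s s' => by
    rw [← hadd, ← nsmul_add]
    exact hker _ _ (by rw [expT_add, hlg, hlg, hlg])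
  have e1 : ContinuousAt lg 1 := continuousAt_pi.2 fun i =>
    ContinuousAt.clog (f := fun s : Tor σ => (s i : ℂ))
      (Units.continuous_val.comp (continuous_apply i)).continuousAt (by simp)
  refine ⟨Dat.of m Nat.card_pos.ne' ρ
    (continuous_of_continuousAt_one ρ (hγ.continuousAt.comp (e1.const_smul m))), fun s => ?_⟩
  change a.a (s ^ m) t = γ (m • lg (ph s)) • t
  rw [hall, expT_nsmul, hlg, ← map_pow, ha]

/-- semi-invariant functions that cut out the fixed locus in a compact set -/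
theorem TH.exists_cut {Y : HO} (h : TH σ Y) {C : Set Y.X} (hC : IsCompact C) :
    ∃ (N : ℕ) (w : Fin N → σ → ℤ) (f : Fin N → Y.T → ℂ),
      (∀ i, w i ≠ 0 ∧ h.toTS.IsSemi (w i) (f i)) ∧
      ∀ t, Y.π t ∈ C → (∀ i, f i t = 0) → t ∈ h.toTS.Fix :=
  h.toTS.exists_isSemi_fam hC fun t ht _ => by
    obtain ⟨d, hd⟩ := h.toTS.exists_dat h.a_ph ht
    obtain ⟨E, φ, e⟩ := h.exists_isES hd
    exact e.exists_isSemi (h.wtd_τ d) hd

/-- the ranks of the weight spaces are locally constant -/
theorem TV.isLocallyConstant_rank {F : Ch.Sp} {E : VB F} (b : TV (TS.triv σ F) E) (h : Wtd b.b)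
    (w : σ → ℤ) :
    IsLocallyConstant fun t => finrank ℂ (E.F t ⊓ wsp b.b w : Submodule ℂ E.W) := by
  let e : F.T → E.W →L[ℂ] E.W := fun t => (LinearMap.toContinuousLinearMap (wpr b.b w)).comp (E.P t)
  have h1 : ∀ t v, e t v ∈ E.F t ⊓ wsp b.b w := fun t v =>
    ⟨h.wpr_mem_of_gen (b.inv _ t) w (E.P_mem t v), h.wpr_mem w _⟩
  have h2 : ∀ t, ∀ v ∈ E.F t ⊓ wsp b.b w, e t v = v := fun t v hv =>
    (congrArg (wpr b.b w) (E.P_eq hv.1)).trans (h.wpr_of_mem hv.2)
  have h3 : ∀ t, LinearMap.range (e t : E.W →ₗ[ℂ] E.W) = E.F t ⊓ wsp b.b w := fun t =>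
    le_antisymm (by rintro _ ⟨v, rfl⟩; exact h1 t v) fun v hv => ⟨v, h2 t v hv⟩
  refine (IsLocallyConstant.iff_eventually_eq _).2 fun t => ?_
  refine (eventually_finrank (e := e) (t := t) (continuous_const.clm_comp E.P_cont).continuousAt
    (Eventually.of_forall fun y => ContinuousLinearMap.ext fun v => h2 y _ (h1 y v))).mono
      fun y hy => ?_
  rwa [h3, h3] at hy

end Vale.Agent.P269.Loc
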