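import Vale.Agent.P269.Loc.Formal
import Vale.Agent.P269.Orb.Ori

/-!
# Formal localisation with several components
-/

namespace Vale.Agent.P269.Loc

open Set Function Topology Filter Vale.Agent.P291Z

/-- a cocycle supported on a finite disjoint union of closed sets splits -/
theorem exists_split {Z C : Type} [TopologicalSpace Z] [Nice Z] [Fintype C] {K : C → Set Z}
    (hK : ∀ c, IsClosed (K c)) (hd : ∀ c c' z, z ∈ K c → z ∈ K c' → c = c') {d : ℕ} {u : Coch Z}
    (hu : IsCo (⋃ c, K c) d u) : ∃ v : C → Coch Z, (∀ c, IsCo (K c) d (v c) ∧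
      ∀ z ∈ K c, z ∉ supp (v c - u)) ∧ hcls u = ∑ c, hcls (v c) := by
  classical
  have hO : ∀ c, ∃ O : Set Z, IsOpen O ∧ K c ⊆ O ∧ closure O ⊆ (⋃ c' ∈ {c' | c' ≠ c}, K c')ᶜ :=
    fun c => normal_exists_closure_subset (hK c)
      ((toFinite _).isClosed_biUnion fun c' _ => hK c').isOpen_compl fun z hz h => by
        obtain ⟨c', hc', h'⟩ := mem_iUnion₂.1 h
        exact hc' (hd _ _ _ h' hz)
  choose O hO h1 h2 using hO
  let v : C → Coch Z := fun c => fn ((O c).indicator fun _ => 1) * u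
  have ha : ∀ c, ∀ z ∈ K c, v c - u ∈ Van z := fun c z hz => by
    rw [show v c - u = (fn ((O c).indicator fun _ => 1) - 1) * u by rw [sub_mul, one_mul]]
    refine Van.mul_right ?_ u
    rw [← fn_one, ← fn_sub, fn_van]
    filter_upwards [(hO c).mem_nhds (h1 c hz)] with y hy
    simp [hy]
  have hb : ∀ c z, z ∉ K c → v c ∈ Van z := fun c z hz => by
    by_cases h : z ∈ ⋃ c, K c
    · obtain ⟨c', hc'⟩ := mem_iUnion.1 h
      have h3 : z ∉ closure (O c) := fun h3 =>
        h2 c h3 (mem_iUnion₂.2 ⟨c', fun e => hz (by rw [← show c' = c from e]; exact hc'), hc'⟩)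
      refine Van.mul_right (fn_van.2 ?_) u
      filter_upwards [isClosed_closure.isOpen_compl.mem_nhds h3] with y hy
      exact indicator_of_notMem (fun h4 => hy (subset_closure h4)) _
    · exact Van.mul_left (fun h3 => h (hu.supp h3)) _
  have hc : ∀ c, supp (δ (v c)) = ∅ := fun c => supp_eq_empty.2 fun z => by
    by_cases hz : z ∈ K c
    · rw [show δ (v c) = δ (v c - u) + δ u by rw [map_sub, sub_add_cancel]]
      exact (Van z).add_mem (Van.δ (ha c z hz)) (supp_eq_empty.1 hu.cocycle z)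
    · exact Van.δ (hb c z hz)
  refine ⟨v, fun c => ⟨⟨hc c, ((isDeg_fn _).mul hu.deg).cast (zero_add _), fun z hz => ?_⟩, ha c⟩,
    ?_⟩
  · by_contra h
    exact hb c z h hz
  · rw [← hcls_sum _ fun c _ => hc c]
    refine hcls_eq_of_null (cocycle_sum fun c _ => hc c) fun z => ?_
    by_cases h : z ∈ ⋃ c, K c
    · obtain ⟨c, hz⟩ := mem_iUnion.1 h
      rw [← Finset.add_sum_erase _ _ (Finset.mem_univ c), ← sub_sub, ← neg_sub (v c) u]
      refine (Van z).sub_mem ((Van z).neg_mem (ha c z hz)) ((Van z).sum_mem fun c' hc' => ?_)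
      exact hb c' z fun h' => (Finset.ne_of_mem_erase hc') (hd _ _ _ h' hz)
    · exact (Van z).sub_mem (fun h3 => h (hu.supp h3))
        ((Van z).sum_mem fun c _ => hb c z fun h' => h (mem_iUnion.2 ⟨c, h'⟩))

theorem res_id' {X : Type} [TopologicalSpace X] [Nice X] (β : BM X) : res id β = β := by
  have h := res_push_homeo (e := (id : X → X)) IsHomeomorph.id β
  rwa [push_id'] at h

/-- **Formal localisation**, several components -/
theorem loc_sum {Y Z C : Type} [TopologicalSpace Y] [TopologicalSpace Z] [Nice Y] [Nice Z]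
    [Fintype C] {U F D : C → Type} [∀ c, TopologicalSpace (U c)] [∀ c, TopologicalSpace (F c)]
    [∀ c, TopologicalSpace (D c)] [∀ c, Nice (U c)] [∀ c, Nice (F c)] [∀ c, Nice (D c)]
    {iZ : Z → Y} (hZ : IsClosedEmbedding iZ) {jU : ∀ c, U c → Y} (hU : ∀ c, IsOpenEmbedding (jU c))
    {iF : ∀ c, F c → U c} (hF : ∀ c, IsClosedEmbedding (iF c)) {k : ∀ c, D c → Z}
    (hk : ∀ c, IsClosedEmbedding (k c)) {k' : ∀ c, D c → F c} (hk' : ∀ c, IsClosedEmbedding (k' c))
    (hsq : ∀ c x, iZ (k c x) = jU c (iF c (k' c x)))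
    (hr : ∀ c x, jU c (iF c x) ∈ range iZ → x ∈ range (k' c)) {da du : ℕ} {dθ : C → ℕ}
    {a u : Coch Y} (ha : IsCo (range iZ) da a) {θ : ∀ c, Coch (U c)}
    (hθ : ∀ c, IsCo (range (iF c)) (dθ c) (θ c)) {A : Set Y} (hu : IsCo A du u)
    (hcov : ∀ z, iZ z ∈ A → ∃ c, z ∈ range (k c))
    (hA : ∀ c z, iZ z ∈ A → iZ z ∈ range (jU c) → z ∈ range (k c))
    (hd : ∀ c c' z, z ∈ range (k c) → z ∈ range (k c') → c = c') (β : BM Y) :
    ∃ γ : ∀ c, BM (D c), cap (hcls (pull iZ u)) (gys iZ a β) = ∑ c, push (k c) (γ c) ∧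
      ∀ c, cap (hcls (pull (iF c ∘ k' c) (θ c))) (γ c) = cap (hcls (pull (iZ ∘ k c) u))
        (gys (k' c) (pull (jU c ∘ iF c) a) (gys (iF c) (θ c) (res (jU c) β))) := by
  obtain ⟨v, hv, hs⟩ := exists_split (K := fun c => range (k c)) (fun c => (hk c).isClosed_range)
    hd (IsCo.mono' (IsCo.pull' hu hZ.continuous) fun z hz => mem_iUnion.2 (hcov z hz))
  refine ⟨fun c => gys (k c) (v c) (gys iZ a β), ?_, fun c => ?_⟩
  · rw [hs, ← Orb.pd_eq_cap, map_sum]
    exact Finset.sum_congr rfl fun c _ => by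
      rw [push_gys_eq_cap (hk c) (hv c).1.cocycle (hv c).1.supp, Orb.pd_eq_cap]
  have hW : IsOpen (iZ ⁻¹' range (jU c)) := (hU c).isOpen_range.preimage hZ.continuous
  have : Nice (iZ ⁻¹' range (jU c) : Set Z) := Nice.of_isLocallyClosed hW.isLocallyClosed
  have hval := hW.isOpenEmbedding_subtypeVal
  obtain ⟨i, hi⟩ : ∃ i : (iZ ⁻¹' range (jU c) : Set Z) → U c, ∀ z, jU c (i z) = iZ z :=
    ⟨fun z => z.2.choose, fun z => z.2.choose_spec⟩
  have hir : jU c ⁻¹' range iZ = range i := by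
    ext y
    constructor
    · rintro ⟨z, hz⟩
      exact ⟨⟨z, y, hz.symm⟩, (hU c).injective ((hi _).trans hz)⟩
    · rintro ⟨z, rfl⟩
      exact ⟨z, (hi z).symm⟩
  have hie : jU c ∘ i = iZ ∘ Subtype.val := funext hi
  have hic : IsClosedEmbedding i :=
    ⟨(hU c).isEmbedding.of_comp_iff.1 (hie ▸ hZ.isEmbedding.comp IsEmbedding.subtypeVal),
      hir ▸ hZ.isClosed_range.preimage (hU c).continuous⟩
  let κ : D c → (iZ ⁻¹' range (jU c) : Set Z) := fun x => ⟨k c x, _, (hsq c x).symm⟩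
  have hκr : Subtype.val ⁻¹' range (k c) = range κ := by
    ext z
    constructor
    · rintro ⟨x, hx⟩
      exact ⟨x, Subtype.ext hx⟩
    · rintro ⟨x, rfl⟩
      exact ⟨x, rfl⟩
  have hκ : IsClosedEmbedding κ :=
    ⟨IsEmbedding.subtypeVal.of_comp_iff.1 (hk c).isEmbedding,
      hκr ▸ (hk c).isClosed_range.preimage continuous_subtype_val⟩
  have hsq' : ∀ x, i (κ x) = iF c (k' c x) := fun x => (hU c).injective ((hi _).trans (hsq c x))
  have hA' : i ⁻¹' (jU c ⁻¹' A) ⊆ range κ := fun z hz => by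
    rw [← hκr]
    exact hA c z (by rw [← hi]; exact hz) z.2
  have hu' := IsCo.pull' hu (hU c).continuous
  have hu'' := IsCo.mono' (IsCo.pull' hu' hic.continuous) hA'
  have hv' : IsCo (range κ) du (pull Subtype.val (v c)) :=
    hκr ▸ IsCo.pull' (hv c).1 continuous_subtype_val
  have e1 := res_gys (hk c) hκ hval IsOpenEmbedding.id (fun _ => rfl) hκr.subset
    (hv c).1.cocycle (hv c).1.supp (gys iZ a β)
  have e2 := res_gys hZ hic (hU c) hval hi hir.subset ha.cocycle ha.supp β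
  have e3 : gys κ (pull Subtype.val (v c)) = gys κ (pull i (pull (jU c) u)) := by
    refine gys_congr hκ hv'.cocycle hv'.supp hu''.cocycle hu''.supp
      ⟨0, by rw [supp_zero]; exact empty_subset _, supp_eq_empty.2 fun z => ?_⟩
    rw [map_zero, sub_zero]
    by_cases hz : z ∈ range κ
    · rw [pull_pull, hie, ← pull_pull, ← map_sub]
      exact supp_pull_at continuous_subtype_val.continuousAt ((hv c).2 z (hκr.superset hz))
    · exact (Van z).sub_mem (fun h => hz (hv'.supp h)) fun h => hz (hu''.supp h)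
  have e4 := formal_loc hic (hF c) hκ (hk' c) hsq' (fun x hx => hr c x (hir.superset hx))
    (hir ▸ IsCo.pull' ha (hU c).continuous) (hθ c) hu' hA' (res (jU c) β)
  have e5 : i ∘ κ = iF c ∘ k' c := funext hsq'
  have e6 : jU c ∘ i ∘ κ = iZ ∘ k c := funext fun x => hi _
  rw [res_id', e2, e3] at e1
  rw [pull_pull (i ∘ κ), pull_pull (iF c), e6, e5, ← e1] at e4
  exact e4

end Vale.Agent.P269.Loc
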