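import Vale.Agent.P269.Loc.FD
import Vale.Agent.P269.Loc.ES
import Vale.Agent.P269.Loc.BH
import Vale.Agent.P269.Loc.SI
import Vale.Agent.P269.Loc.Sum

/-!
# Components of the fixed locus of a complex orbifold
-/

set_option linter.unusedSectionVars false

namespace Vale.Agent.P269.Loc

open Set Function Topology Filter Module MvPolynomial TensorProduct Vale.Agent.P291Z
  Vale.Agent.P269.Ch Vale.Agent.P269.Holo Vale.Agent.P269.Orb

/-- vanishing of the cohomology of closed subsets of oriented spaces -/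
theorem H_eq_zero_of_emb {X Z : Type} [TopologicalSpace X] [TopologicalSpace Z] [Nice X] {d : ℤ}
    {β : BM X} (h : Ori d β) {i : Z → X} (hi : IsClosedEmbedding i) {k : ℤ} {c : H Z}
    (hc : H.IsDeg k c) (hk : d < k) : c = 0 := by
  obtain ⟨a, h0, h1, rfl⟩ := H.isDeg_iff.1 hc
  obtain ⟨b, h2, rfl, -, h3⟩ := (Taut.of_isClosedEmbedding hi).surj h1
  have hU : IsOpen (supp (δ b))ᶜ := (isClosed_supp _).isOpen_compl
  have := Nice.of_isLocallyClosed hU.isLocallyClosed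
  have h4 : supp (δ (pull (Subtype.val : ↥(supp (δ b))ᶜ → X) b)) = ∅ := by
    rw [δ_pull]
    exact eq_empty_of_forall_notMem fun x hx => x.2 (supp_pull continuous_subtype_val _ hx)
  have := congrArg (H.map ⟨fun z => (⟨i z, h3 z (supp_eq_empty.1 h0 z)⟩ : ↥(supp (δ b))ᶜ),
    hi.continuous.subtype_mk _⟩)
    ((h.res hU.isOpenEmbedding_subtypeVal).H_eq_zero (hcls_isDeg (h2.pull Subtype.val)) hk)
  rwa [H.map_hcls _ h4, pull_pull, map_zero] at this

variable {σ : Type} [Fintype σ] {Y : HO}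

theorem TH.hom_tan (h : TH σ Y) (M : ℕ) : Hom (Mor.id _) (h.tanV.bo (pm σ M)) (h.bo M).tanB
    fun x => LinearMap.inl ℂ Y.A (σ → Fin (M + 1) → ℂ) ∘ₗ h.b x.2.nrm :=
  Hom.of_continuous (fun x v hv => (h.mem_tan_bo M).2 ((h.b_inv x.2.nrm v).symm ▸ hv))
    ((h.continuous_b (PM.continuous_nrm.comp (continuous_snd.comp continuous_fst))
      continuous_snd).prodMk continuous_const)
    fun (k : Y.G × Tor σ) (x : Y.T × PM σ M) (v : Y.A) _ => Prod.ext
      (show h.b (k.2 • x.2).nrm (k.1 • h.b (ph k.2) v) = k.1 • h.b k.2 (h.b x.2.nrm v) by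
        rw [PM.nrm_smul, h.bcomm, ← End.mul_apply, ← End.mul_apply, ← map_mul, ← map_mul,
          mul_right_comm, absT_mul_ph]) (funext fun i => (smul_zero (k.2 i : ℂ)).symm)

/-- the equivariant fundamental class -/
noncomputable def TH.fundB (h : TH σ Y) (M : ℕ) : BM (h.toTS.B M).X := (h.bo M).fund

theorem TH.oriB (h : TH σ Y) (M : ℕ) :
    Ori (2 * (Y.n + Fintype.card σ * M : ℕ)) (h.fundB M) := (h.bo M).ori

/-- a presentation of an open part of the fixed locus on which the weights are constant -/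
structure FC (h : TH σ Y) extends FD h.toTS where
  emb : IsEmbedding i.map
  opn : ∀ t, ∀ᶠ x in 𝓝 (i.f t), x ∈ h.toTS.Fix → Y.π x ∈ range i.map
  /-- the weights of the tangent bundle -/
  kT : (toFD.tv h.tanV).Rk
  /-- the weights of the tangent spaces of the orbits -/
  kO : (toFD.tv h.orbV).Rk

namespace FC

variable {h : TH σ Y} (c : FC h)

/-- the saturation of the image -/
def S : SubMulAction Y.G Y.T :=
  ⟨{t | Y.π t ∈ range c.i.map}, fun g t ht => by rwa [mem_ofPred, Y.π_smul]⟩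

theorem mem_S {t : Y.T} : t ∈ c.S ↔ ∃ (g : Y.G) (u : c.F.T), g • c.i.f u = t := by
  change Y.π t ∈ range c.i.map ↔ _
  rw [range_map]
  exact ⟨fun ⟨_, ⟨u, e⟩, e'⟩ => let ⟨g, hg⟩ := (Y.fib _ _).1 e'; ⟨g, u, e ▸ hg⟩,
    fun ⟨g, u, e⟩ => ⟨_, ⟨u, rfl⟩, (Y.fib _ _).2 ⟨g, e⟩⟩⟩

theorem i_mem (u : c.F.T) : c.i.f u ∈ c.S := ⟨_, c.i.map_π u⟩

theorem π_a' (s : Tor σ) {t : Y.T} (ht : t ∈ c.S) : Y.π (h.a s t) = Y.π t := by
  obtain ⟨g, u, rfl⟩ := c.mem_S.1 ht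
  rw [h.comm, Y.π_smul, Y.π_smul, c.π_a]

theorem a_mem_S (s : Tor σ) (t : Y.T) (ht : t ∈ c.S) : h.a s t ∈ c.S :=
  show Y.π _ ∈ range c.i.map from c.π_a' s ht ▸ ht

theorem mem_fix {t : Y.T} (ht : t ∈ c.S) : t ∈ h.toTS.Fix := fun s _ => c.π_a' s ht

/-- the open set in which the fixed locus is the given one -/
def U : Set Y.T := {t | ∀ᶠ x in 𝓝 t, x ∈ h.toTS.Fix → x ∈ c.S}

theorem isOpen_U : IsOpen c.U := isOpen_setOfPred_eventually_nhds

theorem smul_mem_U (g : Y.G) {t : Y.T} (ht : t ∈ c.U) : g • t ∈ c.U :=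
  (((continuous_const_smul g⁻¹).tendsto' _ _ (inv_smul_smul g t)).eventually ht).mono
    fun x hx h' => smul_inv_smul g x ▸ c.S.smul_mem g (hx (TS.smul_mem_fix h' _))

theorem a_mem_U (s : Tor σ) {t : Y.T} (ht : t ∈ c.U) : h.a s t ∈ c.U :=
  (((h.continuous_a continuous_const continuous_id).tendsto' _ _ (h.inv_a s t)).eventually ht).mono
    fun x hx h' => h.a_inv s x ▸ c.a_mem_S s _ (hx (TS.a_mem_fix h' _))

theorem mem_U {t : Y.T} (ht : t ∈ c.S) : t ∈ c.U := by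
  obtain ⟨g, u, rfl⟩ := c.mem_S.1 ht
  exact c.smul_mem_U g (c.opn u)

theorem mem_S_of {t : Y.T} (h1 : t ∈ h.toTS.Fix) (h2 : t ∈ c.U) : t ∈ c.S := h2.self_of_nhds h1

theorem isLocallyClosed_S : IsLocallyClosed (c.S : Set Y.T) := by
  rw [show (c.S : Set Y.T) = c.U ∩ h.toTS.Fix from
    Subset.antisymm (fun _ ht => ⟨c.mem_U ht, c.mem_fix ht⟩) fun _ ht => c.mem_S_of ht.2 ht.1]
  exact c.isOpen_U.isLocallyClosed.inter h.toTS.isClosed_fix.isLocallyClosed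

/-- the dimension -/
def n : ℕ := c.kT.r 0 - c.kO.r 0

theorem isMfd_i (u : c.F.T) :
    IsMfd (fun z : c.S => Y.ι z) (finrank ℂ Y.L + c.n) ⟨_, c.i_mem u⟩ ∧
      tan (fun z : c.S => Y.ι z) ⟨_, c.i_mem u⟩ =
        (tan Y.ι (c.i.f u) ⊓ wsp (h.τ c.toDat) 0) ⊔ Y.orbB.F (c.i.f u) :=
  h.isMfd_fix IsEmbedding.subtypeVal (fun _ _ => rfl) (c.fix u) (fun z => c.mem_fix z.2)
    ((c.opn u).mono fun x hx h' => ⟨⟨x, hx h'⟩, rfl⟩) (by
      have h1 := c.kT.rank 0 u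
      have h2 := c.kO.rank 0 u
      have h3 : finrank ℂ (Y.orbB.F (c.i.f u) ⊓ wsp (h.τ c.toDat) 0 : Submodule ℂ Y.A) ≤
          finrank ℂ (tan Y.ι (c.i.f u) ⊓ wsp (h.τ c.toDat) 0 : Submodule ℂ Y.A) :=
        Submodule.finrank_mono (inf_le_inf_right _ (by rintro _ ⟨x, rfl⟩; exact Y.inf_mem_tan _ x))
      rw [n, ← h1, ← h2]
      exact Nat.sub_add_cancel h3)

theorem isMfd_S (z : c.S) : IsMfd (fun z : c.S => Y.ι z) (finrank ℂ Y.L + c.n) z := by
  obtain ⟨g, u, e⟩ := c.mem_S.1 z.2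
  obtain rfl : z = g • (⟨_, c.i_mem u⟩ : c.S) := Subtype.ext e.symm
  have := (Y.orb.sub c.S c.isLocallyClosed_S).contSMul
  exact (c.isMfd_i u).1.push (u := fun s => g • s)
    ((Homeomorph.smul g).isOpenEmbedding.lh _)
    ⟨_, (Ch.lin Y.A g).analyticAt _, Eventually.of_forall fun s => Y.eqv g s⟩
    ⟨_, (Ch.lin Y.A g⁻¹).analyticAt _, Eventually.of_forall fun s =>
      (inv_smul_smul g (Y.ι s)).symm.trans (congrArg (g⁻¹ • ·) (Y.eqv g s).symm)⟩

/-- the quotient map of the saturation -/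
noncomputable def q (s : c.S) : c.F.X := c.emb.toHomeomorph.symm ⟨Y.π s, s.2⟩

theorem map_q (s : c.S) : c.i.map (c.q s) = Y.π s :=
  congrArg Subtype.val (c.emb.toHomeomorph.apply_symm_apply ⟨Y.π s, s.2⟩)

theorem isQuo : IsQuo Y.G c.q :=
  ⟨c.emb.toHomeomorph.symm.isOpenQuotientMap.comp (Y.quo.restrictPreimage (range c.i.map)),
    fun t t' => by
      rw [← c.emb.injective.eq_iff, map_q, map_q, Y.fib]
      exact exists_congr fun g => (Subtype.ext_iff (a1 := g • t)).symm⟩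

/-- the component as a complex orbifold -/
noncomputable def orb : HO where
  toSp := Sp.of (Y.orb.sub c.S c.isLocallyClosed_S) c.isQuo
  L := Y.L
  A := Y.A
  aA := Y.aA
  cA := Y.cA
  tA := Y.tA
  κ := Y.κ
  ι := fun s : c.S => Y.ι s
  n := c.n
  exp := Y.exp
  an := Y.an
  emb := Y.emb.comp IsEmbedding.subtypeVal
  eqv g t := Y.eqv g t.1
  mfd := c.isMfd_S

/-- the fundamental class -/
noncomputable def fund : BM c.F.X := c.orb.fund

theorem fund_def : c.fund = fundQ Y.G (fun s : c.S => Y.ι s) c.q c.n := rfl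

theorem ori : Ori (2 * c.n) c.fund := c.orb.ori

/-- the torus action on the component -/
noncomputable def hS : TH σ c.orb where
  a s t := ⟨h.a s t.1, c.a_mem_S s _ t.2⟩
  one t := Subtype.ext (h.one t.1)
  mul s s' t := Subtype.ext (h.mul s s' t.1)
  cont := (h.continuous_a continuous_fst (continuous_subtype_val.comp continuous_snd)).subtype_mk _
  comm s g t := Subtype.ext (h.comm s g t.1)
  b := h.b
  wtd := h.wtd
  bcomm := h.bcomm
  eqv s t := h.eqv s t.1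

/-- the inclusion -/
noncomputable def incl : Mor c.orb.toSp Y.toSp :=
  ⟨MonoidHom.id _, fun s : c.S => s.1, continuous_id, continuous_subtype_val, fun _ _ => rfl⟩

theorem isEq : h.toTS.IsEq c.hS.toTS c.incl := fun _ _ => rfl

/-- the presentation of the component -/
@[reducible] noncomputable def dS : FD c.hS.toTS where
  toDat := c.toDat
  F := c.F
  i := ⟨c.i.ρ, fun u => (⟨_, c.i_mem u⟩ : c.S), c.i.cρ, c.i.cf.subtype_mk _,
    fun g u => Subtype.ext (c.i.eqv g u)⟩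
  fix u s := Subtype.ext (c.fix u s)
  comm := c.comm

theorem dS_map (x : c.F.X) : c.dS.i.map x = x := by
  obtain ⟨u, rfl⟩ := c.F.surj x
  exact (c.dS.i.map_π u).trans (c.emb.injective ((c.map_q _).trans (c.i.map_π u).symm))

/-- the identification of the Borel constructions -/
noncomputable def φ (M : ℕ) : C((c.B M).X, (c.hS.toTS.B M).X) := (c.dS.mor M).map

theorem φ_π (M : ℕ) (x : (c.B M).T) :
    c.φ M ((c.B M).π x) = (c.hS.toTS.B M).π (⟨_, c.i_mem x.1⟩, x.2) := (c.dS.mor M).map_π x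

theorem isHomeomorph_φ (M : ℕ) : IsHomeomorph (c.φ M) :=
  isHomeomorph_iff_isEmbedding_surjective.2 ⟨c.dS.isEmbedding_mor
    (funext c.dS_map ▸ IsEmbedding.id) M, fun x => by
      obtain ⟨x, rfl⟩ := (c.hS.toTS.B M).surj x
      exact c.dS.mem_range_mor.2 ⟨_, c.dS_map _⟩⟩

theorem mor_eq (M : ℕ) : (c.mor M).map = (c.isEq.bo (pm σ M)).map.comp (c.φ M) :=
  (Mor.map_ext fun _ => rfl).trans (Mor.map_comp (c.isEq.bo (pm σ M)) (c.dS.mor M))

/-- the equivariant fundamental class -/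
noncomputable def fundB (M : ℕ) : BM (c.B M).X := res (c.φ M) (c.hS.fundB M)

theorem isPr_pr (M : ℕ) : IsPr (c.pr M).map ∧ ∀ f, push (c.pr M).map (cap (c.e M f) (c.fundB M)) =
    coeff (topM σ M) f • c.fund := by
  obtain ⟨pr, h1, h2, h3⟩ := c.hS.toTS.exists_pr fun s t => c.emb.injective
    ((c.map_q _).trans ((c.π_a' s t.2).trans (c.map_q t).symm))
  have e : ⇑(c.pr M).map = pr M ∘ c.φ M := funext fun x => by
    obtain ⟨x, rfl⟩ := (c.B M).surj x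
    exact (c.pr_π M x).trans ((c.dS_map _).symm.trans ((c.dS.i.map_π x.1).trans
      ((h1 M (⟨_, c.i_mem x.1⟩, x.2)).symm.trans (congrArg (pr M) (c.φ_π M x).symm))))
  have hφ := IsPr.of_isHomeomorph (c.isHomeomorph_φ M)
  refine ⟨e ▸ (h2 M).comp hφ, fun f => ?_⟩
  have e' : c.e M f = H.map (c.φ M) (c.hS.toTS.e M f) := by
    rw [FD.e_apply, mor_eq, ← H.map_map, c.isEq.map_e]
  rw [e]
  refine (push_push hφ (h2 M) _).symm.trans ?_
  rw [e', push_cap hφ, fundB, push_res_homeo (c.isHomeomorph_φ M)]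
  exact (h3 _ _ c.hS.isBM_fund c.orb.ori.top M f).trans (congrArg _ c.hS.res_base)

/-- the open subset of the Borel construction -/
def UB (M : ℕ) : Set (h.toTS.B M).X := (h.toTS.B M).π '' {x | x.1 ∈ c.U}

theorem isOpen_UB (M : ℕ) : IsOpen (c.UB M) :=
  (h.toTS.B M).quo.isOpenMap _ (c.isOpen_U.preimage continuous_fst)

instance (M : ℕ) : Nice (c.UB M) := Nice.of_isLocallyClosed (c.isOpen_UB M).isLocallyClosed

theorem mem_UB {M : ℕ} {x : (h.toTS.B M).T} : (h.toTS.B M).π x ∈ c.UB M ↔ x.1 ∈ c.U := by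
  refine ⟨fun ⟨y, hy, e⟩ => ?_, fun hx => ⟨x, hx, rfl⟩⟩
  obtain ⟨k, rfl⟩ := ((h.toTS.B M).fib _ _).1 e
  exact c.smul_mem_U _ (c.a_mem_U _ hy)

/-- the inclusion into the open subset -/
noncomputable def iU (M : ℕ) : C((c.hS.toTS.B M).X, c.UB M) :=
  ⟨fun x => ⟨(c.isEq.bo (pm σ M)).map x, _, c.mem_U ((c.hS.toTS.B M).out x).1.2, rfl⟩,
    (c.isEq.bo (pm σ M)).map.continuous.subtype_mk _⟩

/-- the inclusion into the open subset -/
noncomputable def iF (M : ℕ) : C((c.B M).X, c.UB M) := (c.iU M).comp (c.φ M)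

theorem coe_iF (M : ℕ) (x : (c.B M).X) : (c.iF M x).1 = (c.mor M).map x := by
  rw [mor_eq]
  rfl

theorem isClosedEmbedding_iF (M : ℕ) : IsClosedEmbedding (c.iF M) := by
  refine ⟨IsEmbedding.subtypeVal.of_comp_iff.1
    ((funext (c.coe_iF M) : Subtype.val ∘ c.iF M = _) ▸ c.isEmbedding_mor c.emb M), ?_⟩
  have h1 : IsClosed ((h.toTS.B M).π '' {x | x.1 ∈ h.toTS.Fix}) := by
    rw [← (h.toTS.B M).quo.isQuotientMap.isClosed_preimage]
    rw [show (h.toTS.B M).π ⁻¹' ((h.toTS.B M).π '' {x | x.1 ∈ h.toTS.Fix}) =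
      {x | x.1 ∈ h.toTS.Fix} from Set.ext fun x => ⟨fun ⟨y, hy, e⟩ => by
        obtain ⟨k, rfl⟩ := ((h.toTS.B M).fib _ _).1 e
        exact TS.smul_mem_fix (TS.a_mem_fix hy _) _, fun hx => ⟨x, hx, rfl⟩⟩]
    exact h.toTS.isClosed_fix.preimage continuous_fst
  convert h1.preimage continuous_subtype_val using 1
  refine Subset.antisymm ?_ ?_
  · rintro _ ⟨x, rfl⟩
    obtain ⟨x, rfl⟩ := (c.B M).surj x
    exact ⟨(_, x.2), c.mem_fix (c.i_mem x.1), ((c.coe_iF M _).trans (c.mor_π M x.1 x.2)).symm⟩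
  · rintro ⟨_, hu⟩ ⟨x, hx, rfl⟩
    obtain ⟨y, e⟩ := c.mem_range_mor.2 (c.mem_S_of hx (c.mem_UB.1 hu))
    exact ⟨y, Subtype.ext ((c.coe_iF M y).trans e)⟩

theorem range_iU (M : ℕ) : range (c.iU M) = range (c.iF M) :=
  ((c.isHomeomorph_φ M).surjective.range_comp _).symm

theorem isClosedEmbedding_iU (M : ℕ) : IsClosedEmbedding (c.iU M) :=
  ⟨IsEmbedding.subtypeVal.of_comp_iff.1 (((Sat.of_surj surjective_id).bo c.isEq _).isEmbedding
    (IsEmbedding.subtypeVal.prodMap IsEmbedding.id)),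
    c.range_iU M ▸ (c.isClosedEmbedding_iF M).isClosed_range⟩

theorem n_le (u : c.F.T) : c.n ≤ Y.n := by
  have := Submodule.finrank_mono (tan_le_of_comp (ι := Y.ι) (u := fun z : c.S => z.1)
    (t' := ⟨_, c.i_mem u⟩) continuous_subtype_val.continuousAt)
  rw [(c.isMfd_i u).1.finrank_tan, (Y.mfd _).finrank_tan] at this
  omega

theorem cor_mem_tan {M : ℕ} (u : c.F.T) (p : PM σ M) {v : Y.A} :
    c.cor h.tanV p v ∈ tan c.orb.ι ⟨_, c.i_mem u⟩ ↔
      v ∈ (tan Y.ι (c.i.f u) ⊓ wsp (h.τ c.toDat) 0) ⊔ Y.orbB.F (c.i.f u) := by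
  rw [show tan c.orb.ι ⟨_, c.i_mem u⟩ = _ from (c.isMfd_i u).2]
  refine c.cor_mem_iff h.tanV p fun s v hv => ?_
  obtain ⟨a, ha, b, hb, rfl⟩ := Submodule.mem_sup.1 hv
  rw [map_add]
  exact Submodule.add_mem_sup ⟨h.tanV.tw_mem (c.fix u) s ha.1, mem_wsp_zero.2 fun s' => by
    rw [← h.tanV.τ_tw, mem_wsp_zero.1 ha.2]⟩ (h.orbV.tw_mem (c.fix u) s hb)

/-- **the Thom class of the component and its restriction** -/
theorem exists_thom (M : ℕ) : ∃ θ : Coch (c.UB M), IsCo (range (c.iF M)) (Y.n - c.n) θ ∧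
    gys (c.iF M) θ (res Subtype.val (h.fundB M)) = c.fundB M ∧
    c.evT M (inH _ (c.kT.eqc c.m)) =
      c.evT M (inH _ (c.kO.eqc c.m)) * hcls (pull (c.iF M) θ) := by
  rcases isEmpty_or_nonempty c.F.T with h0 | ⟨⟨u⟩⟩
  · have : IsEmpty (c.B M).T := ⟨fun x => h0.false x.1⟩
    exact ⟨0, ⟨by rw [map_zero, supp_zero], fun _ _ => rfl, supp_zero.le.trans (empty_subset _)⟩, LinearMap.ext fun a => by
      obtain ⟨a, ha, rfl⟩ := cls_surj a
      rw [Subsingleton.elim a 0, cls_zero, map_zero, map_zero], Subsingleton.elim _ _⟩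
  have hj := (c.isOpen_UB M).isOpenEmbedding_subtypeVal
  obtain ⟨θ, h1, h2, h3, h4⟩ := ((h.oriB M).res hj).exists_gys (c.isClosedEmbedding_iU M)
    (c.hS.oriB M).deg
  refine ⟨θ, ⟨h1, h3.cast ?_, c.range_iU M ▸ h2⟩, ?_, ?_⟩
  · change 2 * ((Y.n + Fintype.card σ * M : ℕ) : ℤ) - 2 * ((c.n + Fintype.card σ * M : ℕ) : ℤ) = _
    have := c.n_le u
    omega
  · rw [fundB, ← h4, res_gys (c.isClosedEmbedding_iU M) (c.isClosedEmbedding_iF M)
      IsOpenEmbedding.id (c.isHomeomorph_φ M).isOpenEmbedding (fun _ => rfl) (c.range_iU M).le h1 h2,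
      pull_id, res_id']
  · rw [c.evT_inH, c.evT_inH, ← c.kT.eu_mv (c.ev_lin M), ← c.kO.eu_mv (c.ev_lin M)]
    have hw := h.wtd_τ c.toDat
    have hI : Hom (Mor.id _) (c.kT.tm.bo (c.P M)) ((c.tv h.tanV).bo (c.P M))
        fun _ => LinearMap.id :=
      Hom.of_continuous (fun _ _ hv => hv.1) continuous_snd fun _ _ _ _ => rfl
    refine @HO.selfInt (h.bo M) (c.hS.bo M).T _ _ _ (c.hS.bo M).act _ _ (c.hS.bo M).nice _ _
      (c.isEq.bo (pm σ M)).f (IsEmbedding.subtypeVal.prodMap IsEmbedding.id) (fun _ _ => rfl) _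
      (c.hS.bo M).mfd _ (c.hS.bo M).isQuo _ hj _ (c.isClosedEmbedding_iU M)
      (c.isEq.bo (pm σ M)).map_π θ h1 h2 h4 _ (c.mor M) (c.dS.mor M).f (fun _ => rfl) (c.iF M)
      (c.coe_iF M) _ _ (fun _ => LinearMap.id) _ (Hom.of_continuous (fun x v hv =>
        ⟨by obtain ⟨y, rfl⟩ := hv.1; exact Y.inf_mem_tan _ y, hv.2⟩) continuous_snd
        fun _ _ _ _ => rfl) (fun _ _ _ e => e)
      (((h.hom_tan M).comp (c.iso_tv h.tanV M).toHom).comp hI)
      (fun x (w : Y.A) hw' => ((c.hS.mem_tan_bo M).trans ?_)) fun x v hv => ?_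
    · change h.b x.2.nrm⁻¹ (h.b x.2.nrm (c.cor h.tanV x.2 w)) ∈ tan c.orb.ι ⟨_, c.i_mem x.1⟩ ↔ _
      rw [h.b_inv, c.cor_mem_tan]
      refine ⟨fun e => ⟨w, ⟨?_, hw'.2⟩, rfl⟩, fun ⟨w', e, e'⟩ =>
        Submodule.mem_sup_right ((show w' = w from e') ▸ e.1)⟩
      obtain ⟨a, ha, b, hb, rfl⟩ := Submodule.mem_sup.1 e
      have h5 := hw.mem_mov.1 hw'.2
      rw [map_add, hw.wpr_of_mem ha.2] at h5
      rw [eq_neg_of_add_eq_zero_left h5, neg_add_eq_sub]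
      exact sub_mem hb ((c.tv h.orbV).wpr_mem hw 0 hb)
    · obtain ⟨w, e⟩ := c.cor_surj h.tanV x.2 (h.b x.2.nrm⁻¹ v.1)
      have h5 : w ∈ tan Y.ι (c.i.f x.1) := (c.cor_mem_iff h.tanV x.2 fun s _ =>
        h.tanV.tw_mem (c.fix x.1) s).1 (e ▸ (h.mem_tan_bo M).1 hv)
      have h6 := (c.tv h.tanV).wpr_mem hw 0 (t := x.1) h5
      refine ⟨w - wpr (h.τ c.toDat) 0 w, ⟨sub_mem h5 h6, hw.sub_wpr_mem w⟩,
        (c.hS.mem_tan_bo M).2 ?_⟩
      change h.b x.2.nrm⁻¹ (v.1 - h.b x.2.nrm (c.cor h.tanV x.2 (w - wpr (h.τ c.toDat) 0 w))) ∈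
        tan c.orb.ι ⟨_, c.i_mem x.1⟩
      rw [map_sub, h.b_inv, ← e, ← map_sub, sub_sub_cancel, c.cor_mem_tan]
      exact Submodule.mem_sup_left ⟨h6, hw.wpr_mem 0 w⟩

end FC

end Vale.Agent.P269.Loc
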