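import Vale.Agent.P269.Loc.Dat
import Vale.Agent.P269.Loc.FC

/-!
# Open parts of pure dimension of the fixed locus of a complex orbifold
-/

set_option linter.unusedSectionVars false

namespace Vale.Agent.P269.Loc

open Set Function Topology Filter Module MvPolynomial TensorProduct Vale.Agent.P291Z
  Vale.Agent.P269.Ch Vale.Agent.P269.Holo Vale.Agent.P269.Orb

variable {σ : Type} [Fintype σ] {Y : HO}

/-- an open part of pure dimension of the fixed locus -/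
structure FP (h : TH σ Y) where
  /-- the set -/
  S : SubMulAction Y.G Y.T
  /-- the dimension -/
  n : ℕ
  fix : ∀ t ∈ S, t ∈ h.toTS.Fix
  opn : ∀ t ∈ S, ∀ᶠ x in 𝓝 t, x ∈ h.toTS.Fix → x ∈ S
  mfd : ∀ z : S, IsMfd (fun z : S => Y.ι z) (finrank ℂ Y.L + n) z
  /-- the orbit space -/
  X : Type
  [tX : TopologicalSpace X]
  /-- the quotient map -/
  q : S → X
  isQuo : IsQuo Y.G q

attribute [instance] FP.tX

theorem TH.π_a (h : TH σ Y) (s : Tor σ) {t : Y.T} (ht : t ∈ h.toTS.Fix) :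
    Y.π (h.a s t) = Y.π t := h.a_ph s t ▸ ht _ (ph_mem s)

theorem TH.a_mem (h : TH σ Y) {S : SubMulAction Y.G Y.T} (s : Tor σ) {t : Y.T}
    (h1 : t ∈ h.toTS.Fix) (h2 : t ∈ S) : h.a s t ∈ S := by
  obtain ⟨g, e⟩ := (Y.fib _ _).1 (h.π_a s h1).symm
  exact e ▸ S.smul_mem g h2

theorem HO.isMfd_smul (Y : HO) {S : SubMulAction Y.G Y.T} {n : ℕ} {z : S}
    (h : IsMfd (fun z : S => Y.ι z) n z) (g : Y.G) : IsMfd (fun z : S => Y.ι z) n (g • z) :=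
  have : ContinuousSMul Y.G S := IsInducing.subtypeVal.continuousSMul continuous_id rfl
  h.push (u := fun s => g • s) ((Homeomorph.smul g).isOpenEmbedding.lh _)
    ⟨_, (Ch.lin Y.A g).analyticAt _, Eventually.of_forall fun s => Y.eqv g s⟩
    ⟨_, (Ch.lin Y.A g⁻¹).analyticAt _, Eventually.of_forall fun s =>
      (inv_smul_smul g (Y.ι s)).symm.trans (congrArg (g⁻¹ • ·) (Y.eqv g s).symm)⟩

theorem TH.isMfd_of_fx (h : TH σ Y) {S : SubMulAction Y.G Y.T} (h1 : ∀ t ∈ S, t ∈ h.toTS.Fix)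
    {d : Dat σ Y.G} {z : S} (hz : z.1 ∈ h.toTS.Fx d)
    (h2 : ∀ᶠ x in 𝓝 z.1, x ∈ h.toTS.Fix → x ∈ S) : IsMfd (fun z : S => Y.ι z) (finrank ℂ Y.L +
      (finrank ℂ (tan Y.ι z.1 ⊓ wsp (h.τ d) 0 : Submodule ℂ Y.A) -
        finrank ℂ (Y.orbB.F z.1 ⊓ wsp (h.τ d) 0 : Submodule ℂ Y.A))) z ∧
      tan (fun z : S => Y.ι z) z = (tan Y.ι z.1 ⊓ wsp (h.τ d) 0) ⊔ Y.orbB.F z.1 :=
  h.isMfd_fix IsEmbedding.subtypeVal (fun _ _ => rfl) hz (fun z => h1 _ z.2)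
    (h2.mono fun x hx h' => ⟨⟨x, hx h'⟩, rfl⟩) (Nat.sub_add_cancel (Submodule.finrank_mono
      (inf_le_inf_right _ (by rintro _ ⟨x, rfl⟩; exact Y.inf_mem_tan _ x))))

theorem isOpenEmbedding_sub {S S' : SubMulAction Y.G Y.T} (h1 : ∀ t ∈ S, t ∈ S')
    (h2 : ∀ t ∈ S, ∀ᶠ x in 𝓝 t, x ∈ S' → x ∈ S) :
    IsOpenEmbedding fun z : S => (⟨z, h1 _ z.2⟩ : S') :=
  ⟨IsEmbedding.subtypeVal.of_comp_iff.1 IsEmbedding.subtypeVal, isOpen_iff_mem_nhds.2 (by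
    rintro _ ⟨z, rfl⟩
    exact ((continuous_subtype_val.tendsto (⟨z, h1 _ z.2⟩ : S')).eventually (h2 _ z.2)).mono
      fun x hx => ⟨⟨x, hx x.2⟩, rfl⟩)⟩

/-- the fixed locus -/
def TH.fixS (h : TH σ Y) : SubMulAction Y.G Y.T :=
  ⟨h.toTS.Fix, fun g _ ht => TS.smul_mem_fix ht g⟩

/-- the part of dimension `n` of the fixed locus -/
def TH.fpS (h : TH σ Y) (n : ℕ) : SubMulAction Y.G Y.T :=
  ⟨{t | ∃ ht : t ∈ h.fixS, IsMfd (fun z : h.fixS => Y.ι z) (finrank ℂ Y.L + n) ⟨t, ht⟩},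
    fun g _ ⟨_, ht⟩ => ⟨_, Y.isMfd_smul ht g⟩⟩

theorem TH.fpS_opn (h : TH σ Y) (n : ℕ) (t : Y.T) (ht : t ∈ h.fpS n) :
    ∀ᶠ x in 𝓝 t, x ∈ h.fixS → x ∈ h.fpS n :=
  (eventually_of_emb IsEmbedding.subtypeVal ht.2.eventually).mono
    fun x hx h' => ⟨h', hx ⟨x, h'⟩ rfl⟩

/-- the part of dimension `n` of the fixed locus -/
noncomputable def TH.fp (h : TH σ Y) (n : ℕ) : FP h :=
  have : ContinuousSMul Y.G (h.fpS n) := IsInducing.subtypeVal.continuousSMul continuous_id rfl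
  { S := h.fpS n
    n := n
    fix := fun _ ht => ht.1
    opn := h.fpS_opn n
    mfd := fun z => z.2.2.pull (u := fun z : h.fpS n => (⟨z, z.2.1⟩ : h.fixS))
      ((isOpenEmbedding_sub (S := h.fpS n) (fun _ ht => ht.1) (h.fpS_opn n)).lh _)
    X := Q Y.G (h.fpS n)
    q := Q.mk Y.G
    isQuo := ⟨Q.isOpenQuotientMap, fun _ _ => Q.mk_eq⟩ }

theorem TH.exists_fp (h : TH σ Y) {t : Y.T} (ht : t ∈ h.toTS.Fix) : ∃ n, t ∈ (h.fp n).S :=
  let ⟨_, hd⟩ := h.toTS.exists_dat h.a_ph ht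
  ⟨_, ht, (h.isMfd_of_fx (S := h.fixS) (fun _ h => h) (z := ⟨t, ht⟩) hd
    (Eventually.of_forall fun _ h => h)).1⟩

theorem TH.fp_unique (h : TH σ Y) {t : Y.T} {n n' : ℕ} (h1 : t ∈ (h.fp n).S)
    (h2 : t ∈ (h.fp n').S) : n = n' := Nat.add_left_cancel (h1.2.unique h2.2)

namespace FP

variable {h : TH σ Y} (c : FP h)

theorem a_mem_S (s : Tor σ) (t : Y.T) (ht : t ∈ c.S) : h.a s t ∈ c.S := h.a_mem s (c.fix t ht) ht

theorem mem_fp {t : Y.T} (ht : t ∈ c.S) : t ∈ (h.fp c.n).S :=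
  ⟨c.fix t ht, (c.mfd ⟨t, ht⟩).push (u := fun z : c.S => (⟨z, c.fix _ z.2⟩ : h.fixS))
    ((isOpenEmbedding_sub (S' := h.fixS) c.fix c.opn).lh _)
    ⟨_, analyticAt_id, Eventually.of_forall fun _ => rfl⟩
    ⟨_, analyticAt_id, Eventually.of_forall fun _ => rfl⟩⟩

/-- the open set in which the fixed locus is the given one -/
def U : Set Y.T := {t | ∀ᶠ x in 𝓝 t, x ∈ h.toTS.Fix → x ∈ c.S}

theorem isOpen_U : IsOpen c.U := isOpen_setOfPred_eventually_nhds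

theorem smul_mem_U (g : Y.G) {t : Y.T} (ht : t ∈ c.U) : g • t ∈ c.U :=
  (((continuous_const_smul g⁻¹).tendsto' _ _ (inv_smul_smul g t)).eventually ht).mono
    fun x hx h' => smul_inv_smul g x ▸ c.S.smul_mem g (hx (TS.smul_mem_fix h' _))

theorem a_mem_U (s : Tor σ) {t : Y.T} (ht : t ∈ c.U) : h.a s t ∈ c.U :=
  (((h.continuous_a continuous_const continuous_id).tendsto' _ _ (h.inv_a s t)).eventually ht).mono
    fun x hx h' => h.a_inv s x ▸ c.a_mem_S s _ (hx (TS.a_mem_fix h' _))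

theorem mem_S_of {t : Y.T} (h1 : t ∈ h.toTS.Fix) (h2 : t ∈ c.U) : t ∈ c.S := h2.self_of_nhds h1

theorem isLocallyClosed_S : IsLocallyClosed (c.S : Set Y.T) := by
  rw [show (c.S : Set Y.T) = c.U ∩ h.toTS.Fix from
    Subset.antisymm (fun _ ht => ⟨c.opn _ ht, c.fix _ ht⟩) fun _ ht => c.mem_S_of ht.2 ht.1]
  exact c.isOpen_U.isLocallyClosed.inter h.toTS.isClosed_fix.isLocallyClosed

theorem tan_eq {d : Dat σ Y.G} {z : c.S} (hz : z.1 ∈ h.toTS.Fx d) :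
    tan (fun z : c.S => Y.ι z) z = (tan Y.ι z.1 ⊓ wsp (h.τ d) 0) ⊔ Y.orbB.F z.1 :=
  (h.isMfd_of_fx c.fix hz (c.opn _ z.2)).2

theorem tan_le (z : c.S) : tan (fun z : c.S => Y.ι z) z ≤ tan Y.ι z.1 :=
  tan_le_of_comp (ι := Y.ι) (u := fun z : c.S => z.1) continuous_subtype_val.continuousAt

theorem n_le (z : c.S) : c.n ≤ Y.n := by
  have := Submodule.finrank_mono (c.tan_le z)
  rw [(c.mfd z).finrank_tan, (Y.mfd _).finrank_tan] at this
  omega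

/-- the part as a complex orbifold -/
noncomputable def orb : HO where
  toSp := Sp.of (Y.orb.sub c.S c.isLocallyClosed_S) c.isQuo
  L := Y.L
  A := Y.A
  aA := Y.aA
  cA := Y.cA
  tA := Y.tA
  κ := Y.κ
  ι := fun s : c.S => Y.ι s
  n := c.n
  exp := Y.exp
  an := Y.an
  emb := Y.emb.comp IsEmbedding.subtypeVal
  eqv g t := Y.eqv g t.1
  mfd := c.mfd

instance : Nice c.X := inferInstanceAs (Nice c.orb.X)

/-- the torus action on the part -/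
noncomputable def hS : TH σ c.orb where
  a s t := ⟨h.a s t.1, c.a_mem_S s _ t.2⟩
  one t := Subtype.ext (h.one t.1)
  mul s s' t := Subtype.ext (h.mul s s' t.1)
  cont := (h.continuous_a continuous_fst (continuous_subtype_val.comp continuous_snd)).subtype_mk _
  comm s g t := Subtype.ext (h.comm s g t.1)
  b := h.b
  wtd := h.wtd
  bcomm := h.bcomm
  eqv s t := h.eqv s t.1

/-- the inclusion -/
noncomputable def incl : Mor c.orb.toSp Y.toSp :=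
  ⟨MonoidHom.id _, fun s : c.S => s.1, continuous_id, continuous_subtype_val, fun _ _ => rfl⟩

theorem isEq : h.toTS.IsEq c.hS.toTS c.incl := fun _ _ => rfl

theorem isEmbedding_incl : IsEmbedding c.incl.map :=
  (Sat.of_surj surjective_id).isEmbedding IsEmbedding.subtypeVal

theorem q_a (s : Tor σ) (t : c.S) : c.orb.π (c.hS.a s t) = c.orb.π t :=
  c.isEmbedding_incl.injective ((c.incl.map_π _).trans
    ((h.π_a s (c.fix _ t.2)).trans (c.incl.map_π t).symm))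

/-- the inclusion of the Borel constructions -/
noncomputable abbrev inB (M : ℕ) : Mor (c.hS.toTS.B M) (h.toTS.B M) := c.isEq.bo (pm σ M)

theorem isEmbedding_inB (M : ℕ) : IsEmbedding (c.inB M).map :=
  ((Sat.of_surj surjective_id).bo c.isEq _).isEmbedding
    (IsEmbedding.subtypeVal.prodMap IsEmbedding.id)

theorem mem_range_inB {M : ℕ} {x : (h.toTS.B M).T} :
    (h.toTS.B M).π x ∈ range (c.inB M).map ↔ x.1 ∈ c.S :=
  ((Sat.of_surj surjective_id).bo c.isEq _).mem_range.trans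
    ⟨fun ⟨y, e⟩ => e ▸ y.1.2, fun hx => ⟨(⟨x.1, hx⟩, x.2), rfl⟩⟩

/-- the open subset of the Borel construction -/
def UB (M : ℕ) : Set (h.toTS.B M).X := (h.toTS.B M).π '' {x | x.1 ∈ c.U}

theorem isOpen_UB (M : ℕ) : IsOpen (c.UB M) :=
  (h.toTS.B M).quo.isOpenMap _ (c.isOpen_U.preimage continuous_fst)

theorem isOpenEmbedding_UB (M : ℕ) : IsOpenEmbedding (Subtype.val : c.UB M → _) :=
  (c.isOpen_UB M).isOpenEmbedding_subtypeVal

instance (M : ℕ) : Nice (c.UB M) := Nice.of_isLocallyClosed (c.isOpen_UB M).isLocallyClosed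

theorem mem_UB {M : ℕ} {x : (h.toTS.B M).T} : (h.toTS.B M).π x ∈ c.UB M ↔ x.1 ∈ c.U := by
  refine ⟨fun ⟨y, hy, e⟩ => ?_, fun hx => ⟨x, hx, rfl⟩⟩
  obtain ⟨k, rfl⟩ := ((h.toTS.B M).fib _ _).1 e
  exact c.smul_mem_U _ (c.a_mem_U _ hy)

/-- the inclusion into the open subset -/
noncomputable def iU (M : ℕ) : C((c.hS.toTS.B M).X, c.UB M) :=
  ⟨fun x => ⟨(c.inB M).map x, _, c.opn _ ((c.hS.toTS.B M).out x).1.2, rfl⟩,
    (c.inB M).map.continuous.subtype_mk _⟩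

theorem coe_iU (M : ℕ) (x : (c.hS.toTS.B M).X) : (c.iU M x).1 = (c.inB M).map x := rfl

theorem mem_range_iU {M : ℕ} {u : c.UB M} : u ∈ range (c.iU M) ↔ u.1 ∈ range (c.inB M).map :=
  exists_congr fun _ => Subtype.ext_iff

theorem isClosedEmbedding_iU (M : ℕ) : IsClosedEmbedding (c.iU M) := by
  refine ⟨IsEmbedding.subtypeVal.of_comp_iff.1 (c.isEmbedding_inB M), ?_⟩
  have h1 : IsClosed ((h.toTS.B M).π '' {x | x.1 ∈ h.toTS.Fix}) :=
    (h.toTS.B M).isQuo.isClosed_image (fun k x hx => TS.smul_mem_fix (TS.a_mem_fix hx _) _)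
      (h.toTS.isClosed_fix.preimage continuous_fst)
  convert h1.preimage continuous_subtype_val using 1
  refine Subset.antisymm ?_ ?_
  · rintro _ ⟨x, rfl⟩
    exact ⟨_, c.fix _ ((c.hS.toTS.B M).out x).1.2, rfl⟩
  · rintro ⟨_, hu⟩ ⟨x, hx, rfl⟩
    exact c.mem_range_iU.2 (c.mem_range_inB.2 (c.mem_S_of hx (c.mem_UB.1 hu)))

/-- **the Thom class** -/
theorem exists_thom (M : ℕ) : ∃ θ : Coch (c.UB M), IsCo (range (c.iU M)) (Y.n - c.n) θ ∧
    gys (c.iU M) θ (res Subtype.val (h.fundB M)) = c.hS.fundB M := by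
  rcases isEmpty_or_nonempty c.S with h0 | ⟨⟨u⟩⟩
  · have : IsEmpty (c.hS.toTS.B M).T := ⟨fun x => h0.false x.1⟩
    exact ⟨0, ⟨by rw [map_zero, supp_zero], fun _ _ => rfl, supp_zero.le.trans (empty_subset _)⟩,
      LinearMap.ext fun a => by
        obtain ⟨a, ha, rfl⟩ := cls_surj a
        rw [Subsingleton.elim a 0, cls_zero, map_zero, map_zero]⟩
  obtain ⟨θ, h1, h2, h3, h4⟩ := ((h.oriB M).res (c.isOpenEmbedding_UB M)).exists_gys
    (c.isClosedEmbedding_iU M) (c.hS.oriB M).deg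
  refine ⟨θ, ⟨h1, h3.cast ?_, h2⟩, h4⟩
  change 2 * ((Y.n + Fintype.card σ * M : ℕ) : ℤ) - 2 * ((c.n + Fintype.card σ * M : ℕ) : ℤ) = _
  have := c.n_le u
  omega

/-- **the self-intersection formula** -/
theorem selfInt {M : ℕ} {θ : Coch (c.UB M)} {d : ℕ} (hθ : IsCo (range (c.iU M)) d θ)
    (e : gys (c.iU M) θ (res Subtype.val (h.fundB M)) = c.hS.fundB M) {Y' : Ch.Sp}
    (m : Mor Y' (c.hS.toTS.B M)) {K K' : VB Y'} {A : Y'.T → K.W →ₗ[ℂ] K'.W}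
    {C : Y'.T → K'.W →ₗ[ℂ] (h.bo M).A} (hA : Hom (Mor.id Y') K K' A)
    (inj : ∀ t w, w ∈ K.F t → A t w = 0 → w = 0) (hC : Hom ((c.inB M).comp m) K' (h.bo M).tanB C)
    (ex : ∀ t w, w ∈ K'.F t → (C t w ∈ tan (c.hS.bo M).ι (m.f t) ↔ ∃ w' ∈ K.F t, A t w' = w))
    (surj : ∀ t, ∀ v ∈ tan (h.bo M).ι ((c.inB M).f (m.f t)), ∃ w ∈ K'.F t,
      v - C t w ∈ tan (c.hS.bo M).ι (m.f t)) :
    K'.eu.1 = K.eu.1 * hcls (pull (c.iU M ∘ m.map) θ) :=
  @HO.selfInt (h.bo M) (c.hS.bo M).T _ _ _ (c.hS.bo M).act _ _ (c.hS.bo M).nice _ _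
    (c.inB M).f (IsEmbedding.subtypeVal.prodMap IsEmbedding.id) (fun _ _ => rfl) _
    (c.hS.bo M).mfd _ (c.hS.bo M).isQuo _ (c.isOpenEmbedding_UB M) _ (c.isClosedEmbedding_iU M)
    (c.inB M).map_π θ hθ.cocycle hθ.supp e _ ((c.inB M).comp m) m.f (fun _ => rfl)
    ((c.iU M).comp m.map) (fun x => (congrArg (· x) (Mor.map_comp (c.inB M) m)).symm) _ _ _ _
    hA inj hC ex surj

/-- an open part -/
noncomputable def sub (S : SubMulAction Y.G Y.T) (h1 : ∀ t ∈ S, t ∈ c.S)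
    (h2 : ∀ t ∈ S, ∀ᶠ x in 𝓝 t, x ∈ c.S → x ∈ S) : FP h :=
  have : ContinuousSMul Y.G S := IsInducing.subtypeVal.continuousSMul continuous_id rfl
  { S := S
    n := c.n
    fix := fun t ht => c.fix t (h1 t ht)
    opn := fun t ht => ((c.opn t (h1 t ht)).and (h2 t ht)).mono fun _ hx h' => hx.2 (hx.1 h')
    mfd := fun z => (c.mfd ⟨z, h1 _ z.2⟩).pull (u := fun z : S => (⟨z, h1 _ z.2⟩ : c.S))
      ((isOpenEmbedding_sub h1 h2).lh _)
    X := Q Y.G S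
    q := Q.mk Y.G
    isQuo := ⟨Q.isOpenQuotientMap, fun _ _ => Q.mk_eq⟩ }

end FP

end Vale.Agent.P269.Loc
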