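import Vale.Agent.P269.Loc.Semi
import Vale.Agent.P269.Loc.Sum
import Vale.Agent.P269.Orb.LC

/-!
# Selector classes in Borel constructions
-/

set_option linter.unusedSectionVars false

namespace Vale.Agent.P269.Loc

open Set Function Topology Filter Module Vale.Agent.P291Z Vale.Agent.P269.Ch Vale.Agent.P269.Orb

section nul

variable {X : Type} [TopologicalSpace X] {A B : Set X} {b : Coch X}

/-- `b` is a coboundary near the points of `A` -/
def Nul (A : Set X) (b : Coch X) : Prop := ∃ c, ∀ x ∈ A, b - δ c ∈ Van x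

theorem Nul.map_eq_zero (h : Nul A b) (hb : supp (δ b) = ∅) :
    H.map (⟨Subtype.val, continuous_subtype_val⟩ : C(A, X)) (hcls b) = 0 := by
  obtain ⟨c, hc⟩ := h
  rw [H.map_hcls _ hb, hcls_eq_zero (cocycle_pull (ContinuousMap.continuous _) hb)]
  refine ⟨pull Subtype.val c, supp_eq_empty.2 fun x => ?_⟩
  rw [δ_pull]
  exact (map_sub (pull (Subtype.val : A → X)) b (δ c)) ▸
    Van.pull continuous_subtype_val.continuousAt (hc x x.2)

theorem nul_of_van (h : ∀ x ∈ A, b ∈ Van x) : Nul A b := ⟨0, by rwa [map_zero, sub_zero]⟩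

variable [Nice X]

theorem nul_of_map (hA : IsClosed A) (hb : supp (δ b) = ∅)
    (h : H.map (⟨Subtype.val, continuous_subtype_val⟩ : C(A, X)) (hcls b) = 0) : Nul A b := by
  rw [H.map_hcls _ hb, hcls_eq_zero (cocycle_pull (ContinuousMap.continuous _) hb)] at h
  obtain ⟨c, hc⟩ := h
  obtain ⟨D⟩ := (Taut.of_isClosedEmbedding hA.isClosedEmbedding_subtypeVal).data
  refine ⟨D.P b + D.e c, fun x hx => ?_⟩
  have := (Van _).add_mem ((Van _).add_mem (D.P_δ ⟨x, hx⟩ b)
    (D.P_van ⟨x, hx⟩ _ (supp_eq_empty.1 hb x))) (D.e_van ⟨x, hx⟩ _ (supp_eq_empty.1 hc ⟨x, hx⟩))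
  convert this using 1
  rw [map_add, map_sub, D.e_δ]
  change _ = b - D.e (pull Subtype.val b) - _ - _ + _ + (D.e (pull Subtype.val b) - _)
  abel

theorem Nul.union (hA : IsClosed A) (hB : IsClosed B) (hd : Disjoint A B) (h : Nul A b)
    (h' : Nul B b) : Nul (A ∪ B) b := by
  obtain ⟨c, hc⟩ := h
  obtain ⟨c', hc'⟩ := h'
  obtain ⟨O, h1, h2, h3⟩ := normal_exists_closure_subset hA hB.isOpen_compl
    hd.subset_compl_right
  refine ⟨c' + cut O (c - c'), fun x hx => ?_⟩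
  rcases hx with hx | hx
  · have := (Van x).add_mem (hc x hx) (Van.δ (cut_in (h1.mem_nhds (h2 hx)) (c - c')))
    convert this using 1
    simp only [map_add, map_sub]
    abel
  · have h4 : cut O (c - c') ∈ Van x := fun h => h3 (supp_cut _ _ h).1 hx
    have := (Van x).sub_mem (hc' x hx) (Van.δ h4)
    convert this using 1
    rw [map_add, sub_sub]

theorem Nul.iUnion {C : Type} [Finite C] {A : C → Set X} (hA : ∀ i, IsClosed (A i))
    (hd : Pairwise (Disjoint on A)) (h : ∀ i, Nul (A i) b) : Nul (⋃ i, A i) b := by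
  classical
  have key : ∀ s : Finset C, Nul (⋃ i ∈ s, A i) b := fun s => by
    induction s using Finset.induction_on with
    | empty => exact nul_of_van fun x hx => by simp at hx
    | insert i s hi ih =>
      rw [Finset.set_biUnion_insert]
      exact (h i).union (hA i) (s.finite_toSet.isClosed_biUnion fun j _ => hA j)
        (disjoint_iUnion₂_right.2 fun j hj => hd (ne_of_mem_of_not_mem hj hi).symm) ih
  have := Fintype.ofFinite C
  simpa using key Finset.univ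

end nul

variable {σ : Type} [Fintype σ] {Z Z' : Ch.Sp}

namespace TS

variable (a : TS σ Z)

/-- the part of the Borel construction over a subset -/
def ov (K : Set Z.T) (M : ℕ) : Set (a.B M).X := (a.B M).π '' {x | x.1 ∈ K}

/-- invariant subsets -/
structure Inv (K : Set Z.T) : Prop where
  smul : ∀ (g : Z.G), ∀ t ∈ K, g • t ∈ K
  a : ∀ s, ∀ t ∈ K, a.a s t ∈ K

/-- the class `c` vanishes over `K` -/
def Kills (K : Set Z.T) {M : ℕ} (c : H (a.B M).X) : Prop :=
  H.map (⟨Subtype.val, continuous_subtype_val⟩ : C(a.ov K M, _)) c = 0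

/-- the polynomial `p` kills everything that vanishes over the fixed locus -/
def IsCut (p : R σ) : Prop := ∀ M (c : H (a.B M).X), a.Kills a.Fix c → a.e M p * c = 0

/-- `χ` is `p` over `K` and zero over the rest of the fixed locus -/
structure IsSel (p : R σ) (K : Set Z.T) (χ : ∀ M, H (a.B M).X) : Prop where
  cl : a.IsCl χ
  pos : ∀ M, a.Kills K (χ M - a.e M p)
  neg : ∀ M, a.Kills (a.Fix \ K) (χ M)

variable {a}

theorem inv_fix : a.Inv a.Fix := ⟨fun g _ h => smul_mem_fix h g, fun s _ h => a_mem_fix h s⟩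

theorem Inv.diff {K K' : Set Z.T} (h : a.Inv K) (h' : a.Inv K') : a.Inv (K \ K') :=
  ⟨fun g t ht => ⟨h.smul g t ht.1, fun e => ht.2 (by simpa using h'.smul g⁻¹ _ e)⟩,
    fun s t ht => ⟨h.a s t ht.1, fun e => ht.2 (by simpa using h'.a s⁻¹ _ e)⟩⟩

theorem Inv.mem_ov {K : Set Z.T} (h : a.Inv K) {M : ℕ} {x : (a.B M).T} :
    (a.B M).π x ∈ a.ov K M ↔ x.1 ∈ K := by
  refine ⟨fun ⟨y, hy, e⟩ => ?_, fun hx => ⟨x, hx, rfl⟩⟩
  obtain ⟨g, rfl⟩ := ((a.B M).fib _ _).1 e
  exact h.smul _ _ (h.a _ _ hy)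

theorem Inv.isClosed_ov {K : Set Z.T} (h : a.Inv K) (hK : IsClosed K) (M : ℕ) :
    IsClosed (a.ov K M) := by
  rw [← (a.B M).quo.isQuotientMap.isClosed_preimage,
    show (a.B M).π ⁻¹' a.ov K M = Prod.fst ⁻¹' K from Set.ext fun x => h.mem_ov]
  exact hK.preimage continuous_fst

theorem Inv.disjoint_ov {K K' : Set Z.T} (h : a.Inv K) (hd : Disjoint K K') (M : ℕ) :
    Disjoint (a.ov K M) (a.ov K' M) := by
  rw [Set.disjoint_left] at hd ⊢
  rintro _ h1 ⟨x, hx, rfl⟩
  exact hd (h.mem_ov.1 h1) hx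

theorem Kills.map_eq_zero {K : Set Z.T} {M : ℕ} {c : H (a.B M).X} (h : a.Kills K c) {X : Type}
    [TopologicalSpace X] (φ : C(X, (a.B M).X)) (hφ : ∀ x, φ x ∈ a.ov K M) : H.map φ c = 0 := by
  have := congrArg (H.map (⟨fun x => ⟨φ x, hφ x⟩, φ.continuous.subtype_mk _⟩ : C(X, a.ov K M))) h
  rwa [H.map_map, map_zero] at this

theorem kills_of_map {K : Set Z.T} {M : ℕ} {c : H (a.B M).X} {X : Type} [TopologicalSpace X]
    {φ : C(X, (a.B M).X)} (hφ : IsEmbedding φ) (hK : a.ov K M ⊆ range φ) (h : H.map φ c = 0) :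
    a.Kills K c := by
  choose ψ hψ using fun x : a.ov K M => hK x.2
  have hc : Continuous ψ :=
    hφ.continuous_iff.2 (continuous_subtype_val.congr fun x => (hψ x).symm)
  have := congrArg (H.map (⟨ψ, hc⟩ : C(_, X))) h
  rw [H.map_map, map_zero] at this
  exact (congrArg (fun f => H.map f c) (ContinuousMap.ext fun x => (hψ x).symm)).trans this

theorem Kills.mono {K K' : Set Z.T} {M : ℕ} {c : H (a.B M).X} (h : a.Kills K c) (e : K' ⊆ K) :
    a.Kills K' c := h.map_eq_zero _ fun ⟨_, y, hy, h⟩ => ⟨y, e hy, h⟩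

theorem kills_of_nul {K : Set Z.T} {M : ℕ} {b : Coch (a.B M).X} (hb : supp (δ b) = ∅)
    (h : Nul (a.ov K M) b) : a.Kills K (hcls b) := h.map_eq_zero hb

theorem kills_empty {M : ℕ} (c : H (a.B M).X) : a.Kills ∅ c := by
  obtain ⟨b, hb, rfl⟩ := hcls_surj c
  exact kills_of_nul hb (nul_of_van fun _ ⟨_, h, _⟩ => h.elim)

theorem kills_zero {K : Set Z.T} {M : ℕ} : a.Kills K (0 : H (a.B M).X) := map_zero _

theorem Kills.add {K : Set Z.T} {M : ℕ} {c c' : H (a.B M).X} (h : a.Kills K c)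
    (h' : a.Kills K c') : a.Kills K (c + c') := by
  unfold Kills at *
  rw [map_add, h, h', add_zero]

theorem Kills.sub {K : Set Z.T} {M : ℕ} {c c' : H (a.B M).X} (h : a.Kills K c)
    (h' : a.Kills K c') : a.Kills K (c - c') := by
  unfold Kills at *
  rw [map_sub, h, h', sub_zero]

theorem Kills.sum {K : Set Z.T} {M : ℕ} {C : Type} (s : Finset C) {c : C → H (a.B M).X}
    (h : ∀ i ∈ s, a.Kills K (c i)) : a.Kills K (∑ i ∈ s, c i) := by
  unfold Kills at *
  rw [map_sum]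
  exact Finset.sum_eq_zero h

theorem Kills.mul_left {K : Set Z.T} {M : ℕ} {c : H (a.B M).X} (h : a.Kills K c)
    (c' : H (a.B M).X) : a.Kills K (c' * c) := by
  unfold Kills at *
  rw [map_mul, h, mul_zero]

theorem Kills.mul_right {K : Set Z.T} {M : ℕ} {c : H (a.B M).X} (h : a.Kills K c)
    (c' : H (a.B M).X) : a.Kills K (c * c') := by
  unfold Kills at *
  rw [map_mul, h, zero_mul]

/-- finite disjoint unions of closed invariant sets -/
theorem Kills.iUnion {C : Type} [Finite C] {K : C → Set Z.T} (hi : ∀ i, a.Inv (K i))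
    (hc : ∀ i, IsClosed (K i)) (hd : Pairwise (Disjoint on K)) {M : ℕ} {c : H (a.B M).X}
    (h : ∀ i, a.Kills (K i) c) : a.Kills (⋃ i, K i) c := by
  obtain ⟨b, hb, rfl⟩ := hcls_surj c
  obtain ⟨c, hc'⟩ := Nul.iUnion (fun i => (hi i).isClosed_ov (hc i) M)
    (fun i j hij => (hi i).disjoint_ov (hd hij) M)
    fun i => nul_of_map ((hi i).isClosed_ov (hc i) M) hb (h i)
  refine kills_of_nul hb ⟨c, ?_⟩
  rintro _ ⟨x, hx, rfl⟩
  obtain ⟨i, hx⟩ := mem_iUnion.1 hx
  exact hc' _ (mem_iUnion.2 ⟨i, x, hx, rfl⟩)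

theorem Kills.union {K K' : Set Z.T} (hi : a.Inv K) (hi' : a.Inv K') (hc : IsClosed K)
    (hc' : IsClosed K') (hd : Disjoint K K') {M : ℕ} {c : H (a.B M).X} (h : a.Kills K c)
    (h' : a.Kills K' c) : a.Kills (K ∪ K') c := by
  obtain ⟨b, hb, rfl⟩ := hcls_surj c
  obtain ⟨c, h1⟩ := (nul_of_map (hi.isClosed_ov hc M) hb h).union (hi.isClosed_ov hc M)
    (hi'.isClosed_ov hc' M) (hi.disjoint_ov hd M) (nul_of_map (hi'.isClosed_ov hc' M) hb h')
  refine kills_of_nul hb ⟨c, ?_⟩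
  rintro _ ⟨x, hx | hx, rfl⟩
  · exact h1 _ (Or.inl ⟨x, hx, rfl⟩)
  · exact h1 _ (Or.inr ⟨x, hx, rfl⟩)

theorem Kills.map {a' : TS σ Z'} {m : Mor Z' Z} (he : a.IsEq a' m) {K : Set Z.T} {K' : Set Z'.T}
    (e : ∀ t ∈ K', m.f t ∈ K) {M : ℕ} {c : H (a.B M).X} (h : a.Kills K c) :
    a'.Kills K' (H.map (he.bo (pm σ M)).map c) := by
  unfold Kills
  rw [H.map_map]
  refine h.map_eq_zero _ ?_
  rintro ⟨_, x, hx, rfl⟩
  exact ⟨_, e _ hx, ((he.bo (pm σ M)).map_π x).symm⟩

/-- a class that vanishes over a closed invariant set kills the cocycles supported there -/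
theorem Kills.mul_hcls {K : Set Z.T} (hi : a.Inv K) (hK : IsClosed K) {M : ℕ} {c : H (a.B M).X}
    (h : a.Kills K c) {u : Coch (a.B M).X} (hu : supp (δ u) = ∅) (hs : supp u ⊆ a.ov K M) :
    c * hcls u = 0 := by
  obtain ⟨b, hb, rfl⟩ := hcls_surj c
  obtain ⟨c, hc⟩ := nul_of_map (hi.isClosed_ov hK M) hb h
  rw [← hcls_mul hb hu, hcls_eq_zero (cocycle_mul hb hu)]
  refine ⟨c * u, supp_eq_empty.2 fun x => ?_⟩
  rw [show b * u - δ (c * u) = (b - δ c) * u - par c * δ u by rw [δ_mul]; noncomm_ring]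
  refine (Van x).sub_mem ?_ (Van.mul_left (supp_eq_empty.1 hu x) _)
  by_cases hx : x ∈ a.ov K M
  · exact Van.mul_right (hc x hx) _
  · exact Van.mul_left (fun h => hx (hs h)) _

section
variable {N : ℕ} {w : Fin N → σ → ℤ} {f : Fin N → Z.T → ℂ} (hf : ∀ i, a.IsSemi (w i) (f i))
  (h0 : ∀ t, (∀ i, f i t = 0) → t ∈ a.Fix)
include hf

theorem cutSec (M : ℕ) : (chars fun i => a.ch (pm σ M) (w i)).IsSec fun x i =>
    chr (w i) (PM.nrm x.2) * f i (a.a (PM.nrm x.2)⁻¹ x.1) := by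
  refine ⟨fun _ => trivial, continuous_pi fun i => Continuous.mul
    ((continuous_coe_chr _).comp (PM.continuous_nrm.comp continuous_snd)) ((hf i).cont.comp
      (show Continuous fun x : Z.T × PM σ M => a.a (PM.nrm x.2)⁻¹ x.1 by fun_prop)),
    fun k x => funext fun i => ?_⟩
  change (chr (w i) (PM.nrm (k.2 • x.2)) : ℂ) * f i (a.a (PM.nrm (k.2 • x.2))⁻¹
    (k.1 • a.a k.2 x.1)) = chr (w i) k.2 * (chr (w i) (PM.nrm x.2) * f i (a.a (PM.nrm x.2)⁻¹ x.1))
  rw [PM.nrm_smul, a.comm, (hf i).inv, ← a.mul, mul_inv, mul_right_comm, a.mul,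
    (hf i).semi _ (mul_absT_mem _), ← mul_assoc, ← mul_assoc, ← Units.val_mul, ← Units.val_mul,
    ← map_mul, ← map_mul, mul_comm (absT _), mul_assoc, mul_inv_cancel_left, mul_comm k.2]

theorem hcls_cutSec (M : ℕ) : hcls (cutSec hf M).eul = a.e M (∏ i, lin (w i)) := by
  rw [(cutSec hf M).hcls_eul, eu_chars, e_apply, map_prod]
  simp only [ev_lin]

include h0

theorem zeros_cutSec (M : ℕ) : (a.B M).π '' {x | (fun i => (chr (w i) (PM.nrm x.2) : ℂ) *
    f i (a.a (PM.nrm x.2)⁻¹ x.1)) = 0} ⊆ a.ov a.Fix M := by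
  rintro _ ⟨x, hx, rfl⟩
  have h1 := a_mem_fix (h0 _ fun i =>
    (mul_eq_zero.1 (congrFun hx i)).resolve_left (Units.ne_zero _)) (PM.nrm x.2)
  rw [a.a_inv] at h1
  exact ⟨x, h1, rfl⟩

theorem isCo_cutSec (M : ℕ) : IsCo (a.ov a.Fix M) N (cutSec hf M).eul := by
  have hi := (cutSec hf M).isCo
  rw [show (chars fun i => a.ch (pm σ M) (w i)).r = N from Fintype.card_fin N] at hi
  exact ⟨hi.cocycle, hi.deg, hi.supp.trans (zeros_cutSec hf h0 M)⟩

theorem cohom_cutSec (M : ℕ) : Cohom (a.ov a.Fix M) (cutSec hf M).eul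
    (pull (a.inc M).map (cutSec hf (M + 1)).eul) :=
  (Iso.cohom_eul (m := a.inc M) (E' := chars fun i => a.ch (pm σ M) (w i))
    (E := chars fun i => a.ch (pm σ (M + 1)) (w i)) (A := fun _ => LinearMap.id)
    ⟨Hom.of_continuous (fun _ _ h => h) continuous_snd fun _ _ _ _ => rfl, fun _ _ _ h => h,
      fun _ v h => ⟨v, h, rfl⟩⟩ (cutSec hf M) (cutSec hf (M + 1)) fun t =>
    congrArg (fun s i => (chr (w i) s : ℂ) * f i (a.a s⁻¹ t.1)) (PM.nrm_inc t.2).symm).mono
      (zeros_cutSec hf h0 M)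

theorem isCut : a.IsCut (∏ i, lin (w i)) := fun M c hc => by
  rw [← e_comm, ← hcls_cutSec hf]
  exact hc.mul_hcls inv_fix a.isClosed_fix (isCo_cutSec hf h0 M).cocycle (isCo_cutSec hf h0 M).supp

/-- **existence of selector classes** -/
theorem exists_isSel {K : Set Z.T} (hi : a.Inv K) (hK : IsClosed K) (hK' : IsClosed (a.Fix \ K)) :
    ∃ χ, a.IsSel (∏ i, lin (w i)) K χ ∧ ∀ M, H.IsDeg (2 * N) (χ M) := by
  have hi' := inv_fix.diff hi
  have h1 : ∀ M, Isol (a.ov K M) (a.ov a.Fix M) := fun M =>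
    Isol.of_isOpen (hi'.isClosed_ov hK' M).isOpen_compl
      (hi.disjoint_ov disjoint_sdiff_right M).subset_compl_right (by
        rintro _ ⟨h2, x, hx, rfl⟩
        exact ⟨x, by_contra fun h => h2 ⟨x, ⟨hx, h⟩, rfl⟩, rfl⟩)
  have h2 := fun M => (LCo.of_isCo' (isCo_cutSec hf h0 M) (h1 M)).isCo (hi.isClosed_ov hK M)
    (isCo_cutSec hf h0 M).deg
  refine ⟨fun M => hcls (Orb.loc (a.ov K M) (cutSec hf M).eul), ⟨fun M => ?_, fun M => ?_,
    fun M => ?_⟩, fun M => hcls_isDeg (h2 M).1.deg⟩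
  · have hc := (a.inc M).map.continuous
    have e : (a.inc M).map ⁻¹' a.ov K (M + 1) = a.ov K M := Set.ext fun x => by
      obtain ⟨x, rfl⟩ := (a.B M).surj x
      rw [mem_preimage, Mor.map_π, hi.mem_ov, hi.mem_ov]
      rfl
    have h3 := (LCoh.of_van (h2 (M + 1)).2).symm.pull hc
    rw [e] at h3
    rw [H.map_hcls _ (h2 (M + 1)).1.cocycle]
    exact (((h3.trans (LCoh.of_cohom (h1 M) (cohom_cutSec hf h0 M).symm)).trans
      (LCoh.of_van (h2 M).2)).cohom (hi.isClosed_ov hK M)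
      ((supp_pull hc _).trans (e ▸ preimage_mono (h2 (M + 1)).1.supp)) (h2 M).1.supp).hcls_eq
      (h2 M).1.cocycle
  · rw [← hcls_cutSec hf, ← hcls_sub (h2 M).1.cocycle (isCo_cutSec hf h0 M).cocycle]
    exact kills_of_nul (cocycle_sub (h2 M).1.cocycle (isCo_cutSec hf h0 M).cocycle)
      (nul_of_van fun x hx => van_symm ((h2 M).2 x hx))
  · exact kills_of_nul (h2 M).1.cocycle (nul_of_van fun x hx h =>
      (hi.disjoint_ov disjoint_sdiff_right M).notMem_of_mem_left ((h2 M).1.supp h) hx)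

end

theorem IsCut.mul {p : R σ} (h : a.IsCut p) (q : R σ) : a.IsCut (q * p) := fun M c hc => by
  rw [map_mul, mul_assoc, h M c hc, mul_zero]

theorem IsSel.mul {p : R σ} {K : Set Z.T} {χ : ∀ M, H (a.B M).X} (h : a.IsSel p K χ) (q : R σ) :
    a.IsSel (q * p) K fun M => χ M * a.e M q :=
  ⟨h.cl.mul (isCl_e q), fun M => by
    rw [mul_comm q p, map_mul, ← sub_mul]
    exact (h.pos M).mul_right _, fun M => (h.neg M).mul_right _⟩

theorem isSel_fix (p : R σ) : a.IsSel p a.Fix fun M => a.e M p :=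
  ⟨isCl_e p, fun M => by
    rw [sub_self]
    exact kills_zero, fun M => by
    rw [sdiff_self]
    exact kills_empty _⟩

theorem IsEq.map_fix {a' : TS σ Z'} {m : Mor Z' Z} (he : a.IsEq a' m) {t : Z'.T}
    (h : t ∈ a'.Fix) : m.f t ∈ a.Fix := fun s hs => by
  rw [← he, ← m.map_π, h s hs, m.map_π]

/-- pull-back of selector classes -/
theorem IsSel.map {a' : TS σ Z'} {m : Mor Z' Z} (he : a.IsEq a' m) {p : R σ} {K : Set Z.T}
    {χ : ∀ M, H (a.B M).X} (h : a.IsSel p K χ) :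
    a'.IsSel p (a'.Fix ∩ m.f ⁻¹' K) fun M => H.map (he.bo (pm σ M)).map (χ M) :=
  ⟨h.cl.map he, fun M => by
    rw [← he.map_e M p, ← map_sub]
    exact (h.pos M).map he fun t ht => ht.2,
    fun M => (h.neg M).map he fun t ht =>
      show m.f t ∈ a.Fix \ K from ⟨he.map_fix ht.1, fun e => ht.2 ⟨ht.1, e⟩⟩⟩

/-- selector classes are additive -/
theorem IsSel.sum {C : Type} [Fintype C] {p : R σ} {K : C → Set Z.T} (hi : ∀ i, a.Inv (K i))
    (hc : ∀ i, IsClosed (K i)) (hs : ∀ i, K i ⊆ a.Fix) (hd : Pairwise (Disjoint on K))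
    {χ : C → ∀ M, H (a.B M).X} (h : ∀ i, a.IsSel p (K i) (χ i)) :
    a.IsSel p (⋃ i, K i) fun M => ∑ i, χ i M := by
  classical
  refine ⟨fun M => ?_, fun M => Kills.iUnion hi hc hd fun i => ?_, fun M =>
    Kills.sum _ fun i _ => ((h i).neg M).mono (sdiff_subset_sdiff_right (subset_iUnion K i))⟩
  · rw [map_sum]
    exact Finset.sum_congr rfl fun i _ => (h i).cl M
  · rw [← Finset.add_sum_erase _ _ (Finset.mem_univ i), add_sub_right_comm]
    exact ((h i).pos M).add (Kills.sum _ fun j hj => ((h j).neg M).mono fun t ht =>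
      ⟨hs i ht, (hd (Finset.ne_of_mem_erase hj)).notMem_of_mem_right ht⟩)

/-- selector classes are unique up to torsion -/
theorem IsSel.unique {p p' q : R σ} (hq : a.IsCut q) {K : Set Z.T} (hi : a.Inv K) (hK : IsClosed K)
    (hK' : IsClosed (a.Fix \ K)) {χ χ' : ∀ M, H (a.B M).X} (h : a.IsSel p K χ)
    (h' : a.IsSel p' K χ') (M : ℕ) : χ M * a.e M (q * p') = χ' M * a.e M (q * p) := by
  have h1 : a.Kills K (χ M * a.e M p' - χ' M * a.e M p) := by
    have := ((h.mul p').pos M).sub ((h'.mul p).pos M)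
    rwa [mul_comm p' p, sub_sub_sub_cancel_right] at this
  have h2 := hq M _ ((h1.union hi (inv_fix.diff hi) hK hK' disjoint_sdiff_right
    (((h.neg M).mul_right _).sub ((h'.neg M).mul_right _))).mono fun t ht =>
      (em (t ∈ K)).imp_right fun h => ⟨ht, h⟩)
  rwa [← e_comm, sub_mul, sub_eq_zero, mul_assoc, mul_assoc, ← map_mul, ← map_mul, mul_comm p' q,
    mul_comm p q] at h2

/-- the integrals against selector classes are unique after normalisation -/
theorem IsSel.int_eq {p p' q : R σ} (hq : a.IsCut q) (hq' : q ≠ 0) {K : Set Z.T} (hi : a.Inv K)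
    (hK : IsClosed K) (hK' : IsClosed (a.Fix \ K)) {χ χ' : ∀ M, H (a.B M).X} (h : a.IsSel p K χ)
    (h' : a.IsSel p' K χ') {β : ∀ M, BM (a.B M).X} {α : ∀ M, H (a.B M).X} {P P' : R σ}
    (e : a.IsInt β (fun M => α M * χ M) P) (e' : a.IsInt β (fun M => α M * χ' M) P') :
    p' * P = p * P' := by
  have h1 := e.mul (q * p')
  simp only [mul_assoc, h.unique hq hi hK hK' h'] at h1
  have h2 := e'.mul (q * p)
  simp only [mul_assoc] at h2
  exact mul_left_cancel₀ hq' (h1.unique h2)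

/-- the integral of a class that vanishes over the fixed locus -/
theorem IsInt.eq_zero_of_kills {q : R σ} (hq : a.IsCut q) (hq' : q ≠ 0) {β : ∀ M, BM (a.B M).X}
    {α : ∀ M, H (a.B M).X} (h : ∀ M, a.Kills a.Fix (α M)) {P : R σ} (e : a.IsInt β α P) :
    P = 0 :=
  (mul_eq_zero.1 (Rep.unique (e.mul q) (rep_zero.congr fun M f => by
    beta_reduce
    rw [a.e_comm M q, hq M _ (h M), zero_mul, map_zero]))).resolve_left hq'

end TS

end Vale.Agent.P269.Loc
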