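import Vale.Agent.P269.Loc.FD
import Vale.Agent.P269.Orb.Vir2

/-!
# Torus actions on Kuranishi presentations
-/

set_option linter.unusedSectionVars false

namespace Vale.Agent.P269.Loc

open Set Function Topology Filter Module TensorProduct Vale.Agent.P291Z Vale.Agent.P269.Ch
  Vale.Agent.P269.Orb

variable {σ : Type} [Fintype σ] {Y Y' : Ch.Sp}

/-- the pull-back along an equivariant morphism -/
@[reducible] noncomputable def TV.pb {a : TS σ Y} {E : VB Y} (b : TV a E) {a' : TS σ Y'}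
    {m : Mor Y' Y} (he : a.IsEq a' m) : TV a' (E.pb m) :=
  ⟨b.b, b.cont, fun s g => b.comm s (m.ρ g), fun s t w hw => by
    have := b.inv s (m.f t) w hw
    rwa [← he] at this⟩

/-- an action of the torus on a Kuranishi presentation -/
structure TKP (a : TS σ Y) (k : KP Y) extends TV a k.P where
  s_eqv : ∀ u t, k.s (a.a u t) = b u (k.s t)
  van_inv : ∀ u t w, w ∈ k.van t → b u w ∈ k.van (a.a u t)
  obs_inv : ∀ u t w, t ∈ k.Zs → w ∈ k.obs t → b u w ∈ k.obs (a.a u t)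

namespace TKP

variable {a : TS σ Y} {k : KP Y} (κ : TKP a k)

include κ in
theorem a_mem_Zs (u : Tor σ) {t : Y.T} (ht : t ∈ k.Zs) : a.a u t ∈ k.Zs :=
  show k.s _ ∈ _ from κ.s_eqv u t ▸ κ.van_inv u t _ ht

/-- the action on the subbundle that is divided out -/
@[reducible] noncomputable def vanV : TV a k.vanB := κ.toTV.sub κ.van_inv

/-- the Kuranishi presentation on the Borel construction -/
noncomputable def bo (P : PS σ) : KP (a.bo P) where
  P := κ.toTV.bo P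
  van x := k.van x.1
  obs x := k.obs x.1
  s x := k.s x.1
  v := k.v
  r := k.r
  sec := κ.toTV.isSec P k.sec κ.s_eqv
  van_closed := k.van_closed.preimage (continuous_fst.prodMap continuous_id)
  van_rank _ := k.van_rank _
  van_inv g x w h := k.van_inv g.1 _ _ (κ.van_inv g.2 x.1 w h)
  van_le _ := k.van_le _
  obs_closed := k.obs_closed.preimage (continuous_fst.prodMap continuous_id)
  obs_rank _ := k.obs_rank _
  obs_inv g x w h h' := k.obs_inv g.1 _ _ (κ.a_mem_Zs g.2 h) (κ.obs_inv g.2 x.1 w h h')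
  le_obs _ := k.le_obs _
  obs_le _ := k.obs_le _
  cone x w h h' := k.cone _ w h (map_mem_closure (f := Prod.map Prod.fst id)
    (continuous_fst.prodMap continuous_id) h' fun _ hx => hx)

theorem bo_r (P : PS σ) : (κ.bo P).r = k.r := rfl

theorem mem_Zs_bo {P : PS σ} {x : (a.bo P).T} : x ∈ (κ.bo P).Zs ↔ x.1 ∈ k.Zs := Iff.rfl

theorem mem_Z_bo {P : PS σ} {x : (a.bo P).T} : (a.bo P).π x ∈ (κ.bo P).Z ↔ x.1 ∈ k.Zs := KP.mem_Z

theorem range_eq {P : PS σ} {X : Type} {j : X → (a.bo P).X}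
    (h : ∀ x, (a.bo P).π x ∈ range j ↔ x.1 ∈ k.Zs) : range j = (κ.bo P).Z := Set.ext fun x => by
  obtain ⟨x, rfl⟩ := (a.bo P).surj x
  exact (h x).trans κ.mem_Z_bo.symm

/-- the pull-back along an equivariant morphism -/
noncomputable def pb {a' : TS σ Y'} {m : Mor Y' Y} (he : a.IsEq a' m) : TKP a' (k.pb m) where
  toTV := κ.toTV.pb he
  s_eqv u t := (congrArg k.s (he u t)).trans (κ.s_eqv u _)
  van_inv u t w hw := by
    have := κ.van_inv u (m.f t) w hw
    rwa [← he] at this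
  obs_inv u t w ht hw := by
    have := κ.obs_inv u (m.f t) w ht hw
    rwa [← he] at this

theorem cmp_bo' {a' : TS σ Y'} {m : Mor Y' Y} (he : a.IsEq a' m) {P' P : PS σ} (u : P'.P → P.P)
    (hu : Continuous u) (hs : ∀ (s : Tor σ) p, u (s • p) = s • u p) :
    ((κ.pb he).bo P').Cmp (κ.bo P) (he.bo' u hu hs).map :=
  KP.Hom.cmp (A := fun _ => LinearMap.id) ⟨Hom.of_continuous (fun _ _ h => h) continuous_snd
    fun _ _ _ _ => rfl, fun _ _ h => h, fun _ => (sub_self (k.s _)).symm ▸ (k.van _).zero_mem, fun _ _ _ h => h⟩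
    (fun _ _ _ _ h => h) rfl

theorem cmp_bo {a' : TS σ Y'} {m : Mor Y' Y} (he : a.IsEq a' m) (P : PS σ) :
    ((κ.pb he).bo P).Cmp (κ.bo P) (he.bo P).map := κ.cmp_bo' he _ _ _

theorem cmp_inc (M : ℕ) : (κ.bo (pm σ M)).Cmp (κ.bo (pm σ (M + 1))) (a.inc M).map :=
  KP.Hom.cmp (A := fun _ => LinearMap.id) ⟨Hom.of_continuous (fun _ _ h => h) continuous_snd
    fun _ _ _ _ => rfl, fun _ _ h => h, fun _ => (sub_self (k.s _)).symm ▸ (k.van _).zero_mem, fun _ _ _ h => h⟩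
    (fun _ _ _ _ h => h) rfl

theorem cmp_base : k.Cmp (κ.bo (pm σ 0)) a.base.map :=
  KP.Hom.cmp (A := fun _ => LinearMap.id) ⟨Hom.of_continuous (fun _ _ h => h) continuous_snd
    fun g _ w _ => show g • w = g • κ.b 1 w by rw [map_one, End.one_apply], fun _ _ h => h,
    fun _ => (sub_self (k.s _)).symm ▸ (k.van _).zero_mem, fun _ _ _ h => h⟩ (fun _ _ _ _ h => h) rfl

end TKP

/-- the restriction of a presentation of a part of the fixed locus -/
@[reducible] noncomputable def FD.pre {a : TS σ Y} (c : FD a) {D : Ch.Sp} (n : Mor D c.F) : FD a where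
  toDat := c.toDat
  F := D
  i := c.i.comp n
  fix _ := c.fix _
  comm s _ := c.comm s _

/-- the morphism of Borel constructions -/
noncomputable def FD.preB {a : TS σ Y} (c : FD a) {D : Ch.Sp} (n : Mor D c.F) (M : ℕ) :
    Mor ((c.pre n).B M) (c.B M) :=
  TS.IsEq.bo (a := TS.triv σ c.F) (a' := TS.triv σ D) (m := n) (fun _ _ => rfl) (c.P M)

theorem FD.mor_pre {a : TS σ Y} (c : FD a) {D : Ch.Sp} (n : Mor D c.F) (M : ℕ) :
    ((c.pre n).mor M).map = (c.mor M).map.comp (c.preB n M).map :=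
  (Mor.map_ext fun _ => rfl).trans (Mor.map_comp (c.mor M) (c.preB n M))

theorem FD.pr_pre {a : TS σ Y} (c : FD a) {D : Ch.Sp} (n : Mor D c.F) (M : ℕ)
    (x : ((c.pre n).B M).X) : (c.pr M).map ((c.preB n M).map x) = n.map (((c.pre n).pr M).map x) := by
  obtain ⟨x, rfl⟩ := ((c.pre n).B M).surj x
  simp only [Mor.map_π]
  rfl

/-- the weights of the restriction -/
@[reducible] def TV.Rk.pre {a : TS σ Y} {c : FD a} {E : VB Y} {b : TV a E} (r : (c.tv b).Rk) {D : Ch.Sp}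
    (n : Mor D c.F) : ((c.pre n).tv b).Rk :=
  ⟨r.r, r.W, r.wtd, fun w _ => r.rank w _, r.zero, r.out⟩

theorem FD.map_evB {a : TS σ Y} (c : FD a) {D : Ch.Sp} (n : Mor D c.F) {E : VB Y} {b : TV a E}
    (r : (c.tv b).Rk) (M : ℕ) : H.map (c.preB n M).map (c.evT M (inH _ (r.eqc c.m))) =
      (c.pre n).evT M (inH _ ((r.pre n).eqc c.m)) := by
  rw [c.evT_inH, (c.pre n).evT_inH, ← r.eu_mv (c.ev_lin M), ← (r.pre n).eu_mv ((c.pre n).ev_lin M)]
  exact congrArg Subtype.val (Iso.eu (A := fun _ => LinearMap.id) (m := c.preB n M)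
    ⟨Hom.of_continuous (fun _ _ h => h) continuous_snd fun _ _ _ _ => rfl, fun _ _ _ h => h,
      fun _ w h => ⟨w, h, rfl⟩⟩).symm

namespace TKP

variable {a : TS σ Y} {k : KP Y} (κ : TKP a k) (c : FD a)

/-- the twisted action -/
noncomputable abbrev τ : Tor σ →* End ℂ k.P.W := κ.toTV.τ c.toDat

theorem s_mem (t : c.F.T) : k.s (c.i.f t) ∈ wsp (κ.τ c) 0 :=
  (κ.toTV.mem_wsp _).2 fun s _ => by
    rw [← κ.s_eqv, c.fix, k.sec.eqv, chr_zero, Units.val_one, one_smul]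

theorem tw_mem_obs {t : c.F.T} (ht : c.i.f t ∈ k.Zs) (s : Tor σ) (v : k.P.W)
    (hv : v ∈ k.obs (c.i.f t)) : κ.toTV.tw c.toDat s v ∈ k.obs (c.i.f t) := by
  have := k.obs_inv (c.ρ s)⁻¹ _ _ (κ.a_mem_Zs _ ht) (κ.obs_inv (s ^ c.m) _ v ht hv)
  rwa [c.fix, inv_smul_smul] at this

/-- the twisted action on the subbundle that is divided out -/
noncomputable abbrev vanT : TV (TS.triv σ c.F) (k.vanB.pb c.i) := c.tv κ.vanV

/-- the twisted action on the obstruction spaces -/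
@[reducible] noncomputable def obsT (hz : ∀ t, c.i.f t ∈ k.Zs) :
    TV (TS.triv σ c.F) (k.obsB c.i hz) :=
  (c.tv κ.toTV).sub fun s t _ =>
    cx_mem (κ.toTV.tw_cont _) (fun s _ => κ.tw_mem_obs c (hz t) s) s

variable {v r : ℕ}
  (hv : ∀ t, finrank ℂ (k.van (c.i.f t) ⊓ wsp (κ.τ c) 0 : Submodule ℂ k.P.W) = v)
  (hr : ∀ t, c.i.f t ∈ k.Zs →
    finrank ℂ (k.obs (c.i.f t) ⊓ wsp (κ.τ c) 0 : Submodule ℂ k.P.W) = v + r)

/-- the fixed part -/
noncomputable def fix : KP c.F where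
  P := k.P.pb c.i
  van t := k.van (c.i.f t) ⊓ wsp (κ.τ c) 0
  obs t := k.obs (c.i.f t) ⊓ wsp (κ.τ c) 0
  s t := k.s (c.i.f t)
  v := v
  r := r
  sec := k.sec.pb c.i
  van_closed := TV.isClosed_inf (k.vanB.pb c.i) _
  van_rank := hv
  van_inv g t w h := ⟨(k.pb c.i).van_inv g t w h.1, (c.tv κ.toTV).smul_mem_wsp h.2 g⟩
  van_le t _ h := k.van_le _ h.1
  obs_closed := by
    have := (k.pb c.i).obs_closed.inter
      ((wsp (κ.τ c) 0).closed_of_finiteDimensional.preimage continuous_snd)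
    refine Eq.mp (congrArg IsClosed (Subset.antisymm (fun x h => ?_) fun x h => ?_)) this
    · exact ⟨⟨h.1.1, κ.s_mem c _⟩, h.1.2, h.2⟩
    · exact ⟨⟨h.1.1, h.2.1⟩, h.2.2⟩
  obs_rank t h := hr t h.1
  obs_inv g t w h h' := ⟨(k.pb c.i).obs_inv g t w h.1 h'.1, (c.tv κ.toTV).smul_mem_wsp h'.2 g⟩
  le_obs t h _ h' := ⟨k.le_obs _ h.1 h'.1, h'.2⟩
  obs_le t h _ h' := k.obs_le _ h.1 h'.1
  cone t w h h' := ⟨(k.pb c.i).cone t w h.1 (closure_mono (fun _ hz => Exists.imp (fun _ e => e.1) hz) h'),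
    closure_minimal (t := {x : c.F.T × k.P.W | x.2 ∈ wsp (κ.τ c) 0}) (fun x hx => by
      obtain ⟨z, hz⟩ := hx
      exact ((wsp (κ.τ c) 0).sub_mem_iff_left ((wsp _ 0).smul_mem z (κ.s_mem c x.1))).1 hz.2)
      ((wsp (κ.τ c) 0).closed_of_finiteDimensional.preimage continuous_snd) h'⟩

theorem mem_Zs_fix {t : c.F.T} : t ∈ (κ.fix c hv hr).Zs ↔ c.i.f t ∈ k.Zs :=
  and_iff_left (κ.s_mem c t)

theorem mem_Z_fix {t : c.F.T} : c.F.π t ∈ (κ.fix c hv hr).Z ↔ c.i.f t ∈ k.Zs :=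
  KP.mem_Z.trans (κ.mem_Zs_fix c hv hr)

end TKP

end Vale.Agent.P269.Loc
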