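import Vale.Agent.P269.LG.Tw
import Vale.Agent.P269.Loc.TKP
import Vale.Agent.P269.Loc.Dat
import Vale.Agent.P269.Loc.Sel
import Vale.Agent.P269.Loc.Core
import Vale.Agent.P269.Loc.FC
import Vale.Agent.P269.Loc.FP

/-! Existence of the local contributions. -/

set_option linter.unusedSectionVars false

namespace Vale.Agent.P269.LG

open Set Function Topology Filter MvPolynomial TensorProduct Vale.Agent.P291Z Vale.Agent.P269.Ch
  Vale.Agent.P269.Orb Vale.Agent.P269.Loc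

variable {σ : Type} [Fintype σ] {K : Type} [Field K] [Algebra ℂ K] {χ : R σ →ₐ[ℂ] K} {A : Type}
  [TopologicalSpace A] [Nice A] [CompactSpace A] {X : ℕ → Type} [∀ M, TopologicalSpace (X M)]
  [∀ M, Nice (X M)]

/-- an equivariant Borel-Moore class of complex dimension `d` on a part of the Borel construction -/
structure IsTw {Y : Ch.Sp} (a : TS σ Y) (j : ∀ M, C(X M, (a.B M).X)) (d : ℤ) (β : ∀ M, BM (X M)) :
    Prop where
  step : ∀ M (k : X M → X (M + 1)), (∀ x, j (M + 1) (k x) = (a.inc M).map (j M x)) →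
    gys k (pull (j (M + 1)) (a.isSec_col M).eul) (β (M + 1)) = β M
  deg : ∀ M : ℕ, BM.IsDeg (2 * (d + Fintype.card σ * M)) (β M)

variable (A) in
/-- the inclusion of the approximations -/
noncomputable def incA (M : ℕ) : C(A × Bs σ M, A × Bs σ (M + 1)) :=
  (ContinuousMap.id A).prodMap ((TS.triv σ pt).inc M).map

theorem map_incA (M : ℕ) (x : R σ ⊗[ℂ] H A) : H.map (incA A M) (evA A (M + 1) x) = evA A M x := by
  induction x with
  | zero => simp only [map_zero]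
  | add a b ha hb => simp only [map_add, ha, hb]
  | tmul f c =>
    rw [evA_tmul, evA_tmul, map_mul, lam, lam, ← (TS.triv σ pt).map_inc_e M f, H.map_map, H.map_map,
      H.map_map]
    rfl

theorem incA_bp (M : ℕ) (z : A) (p : PM σ M) : incA A M (z, bp p) = (z, bp p.inc) :=
  Prod.ext rfl (Mor.map_π _ _)

theorem isClosedEmbedding_incA (M : ℕ) : IsClosedEmbedding (incA (σ := σ) A M) :=
  IsClosedEmbedding.id.prodMap ((TS.triv σ pt).isClosedEmbedding_inc M)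

/-- existence of equivariant integrals -/
theorem exists_fn {γ : ∀ M, BM (A × Bs σ M)} {d : ℤ}
    (h1 : ∀ M, push (incA A M) (γ M) = cap (evA A (M + 1) ((∏ i, MvPolynomial.X i) ⊗ₜ 1)) (γ (M + 1)))
    (h2 : ∀ M : ℕ, BM.IsDeg (2 * (d + Fintype.card σ * M)) (γ M)) : ∃ J, Fn χ γ J := by
  have key : ∀ c : H A, ∃ P, Rep (fun M f => intg (γ M) (evA A M (f ⊗ₜ c))) P := fun c => by
    refine H.induction_deg (P := fun c => ∃ P, Rep (fun M f => intg (γ M) (evA A M (f ⊗ₜ c))) P) c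
      ⟨0, rep_zero.congr fun M f => by rw [tmul_zero, map_zero, map_zero]⟩
      (fun b c ⟨P, a⟩ ⟨P', a'⟩ => ⟨_, (a.add a').congr fun M f => by rw [tmul_add, map_add, map_add]⟩)
      fun n => exists_rep (φ := fun M => intg (γ M) ∘ₗ (evA A M).toLinearMap ∘ₗ
        (TensorProduct.mk ℂ (R σ) (H A)).flip (H.comp n c)) (fun M f => ?_) (fun M i f => ?_)
        (D := (n - 2 * d).toNat) fun M k hk => ?_
    · change intg (γ M) (evA A M (f ⊗ₜ _)) = intg (γ (M + 1)) (evA A (M + 1) ((_ * f) ⊗ₜ _))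
      rw [← map_incA M, ← intg_push, h1, intg_cap, ← map_mul, Algebra.TensorProduct.tmul_mul_tmul,
        mul_one, mul_comm f]
    · change intg (γ M) (evA A M ((_ * f) ⊗ₜ _)) = 0
      rw [evA_tmul, map_mul (lam M), lam, TS.e_X_pow, zero_mul, map_zero, zero_mul, map_zero]
    · refine intg_deg (h2 M) ((((TS.triv σ pt).e_deg M (isHomogeneous_monomial (d := k) 1 rfl)).map
        _).mul ((H.isDeg_comp n c).map _)) ?_
      have : ((k.degree + (n - 2 * d).toNat : ℕ) : ℤ) < (Fintype.card σ * M : ℕ) := by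
        exact_mod_cast hk
      push_cast at this
      omega
  choose P hP using key
  let L : H A →ₗ[ℂ] R σ :=
    { toFun := P
      map_add' := fun b c => (hP _).unique (((hP b).add (hP c)).congr fun M f => by
        rw [tmul_add, map_add, map_add])
      map_smul' := fun z c => (hP _).unique (((hP c).smul z).congr fun M f => by
        rw [tmul_smul, map_smul, map_smul, smul_eq_mul]) }
  refine ⟨AlgebraTensorModule.lift (LinearMap.toSpanSingleton K _ (χ.toLinearMap ∘ₗ L)), fun x => ?_⟩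
  induction x with
  | zero => rw [map_zero, map_zero]; exact Frc.zero.congr fun M f => by simp only [zero_mul, map_zero]
  | add a b ha hb =>
    rw [map_add, map_add]
    exact (ha.add hb).congr fun M f => by rw [add_mul, map_add, map_add]
  | tmul p c =>
    exact ((Frc.of_rep (hP c)).mul p).congr fun M f => by
      rw [Algebra.TensorProduct.tmul_mul_tmul, mul_one]

section

variable {Y : Ch.Sp} {a : TS σ Y} {Zs : Set Y.T} {j : ∀ M, C(X M, (a.B M).X)}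
  (hj : ∀ M, IsClosedEmbedding (j M)) (hr : ∀ M x, (a.B M).π x ∈ range (j M) ↔ x.1 ∈ Zs)
include hj hr

theorem exists_lift (M : ℕ) :
    ∃ k : X M → X (M + 1), ∀ x, j (M + 1) (k x) = (a.inc M).map (j M x) :=
  Classical.axiom_of_choice (r := fun x y => j (M + 1) y = (a.inc M).map (j M x)) fun x => by
    obtain ⟨y, e⟩ := (a.B M).surj (j M x)
    rw [← e, Mor.map_π]
    exact (hr _ _).2 ((hr M y).1 ⟨x, e.symm⟩)

theorem preimage_inc {M : ℕ} {k : X M → X (M + 1)}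
    (hk : ∀ x, j (M + 1) (k x) = (a.inc M).map (j M x)) :
    j (M + 1) ⁻¹' range (a.inc M).map ⊆ range k := by
  rintro z ⟨y, e⟩
  obtain ⟨y, rfl⟩ := (a.B M).surj y
  obtain ⟨w, e'⟩ := (hr M y).2 ((hr _ ((a.inc M).f y)).1 ⟨z, e.symm.trans (Mor.map_π _ _)⟩)
  exact ⟨w, (hj _).injective (by rw [hk, e', e])⟩

end

variable {Y : HO} {h : TH σ Y} {Zs : Set Y.T} {j : ∀ M, C(X M, (h.toTS.B M).X)} {g : C(A, Y.X)}
  {i : ∀ M, C(A × Bs σ M, X M)}

/-- the equivariant virtual class -/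
theorem isTw_vir {k : KP Y.toSp} (κ : TKP h.toTS k) (hj : ∀ M, IsClosedEmbedding (j M))
    (hr : ∀ M x, (h.toTS.B M).π x ∈ range (j M) ↔ x.1 ∈ k.Zs) :
    IsTw h.toTS j (Y.n - k.r) fun M => (κ.bo (pm σ M)).vir (j M) (h.fundB M) := by
  have hz := fun M => KP.IsZ.of_range (hj M).isEmbedding (κ.range_eq (hr M))
  refine ⟨fun M l hl => ?_, fun M => ?_⟩
  · exact ((κ.cmp_inc M).vir_gys' (h.toTS.isClosedEmbedding_inc M) (hz _) (hz _)
      (fun z => (hl z).symm) (preimage_inc hj hr hl) (h.toTS.isCo_col M).cocycle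
      (h.toTS.isCo_col M).supp _).trans (congrArg _ (h.isBM_fund.step M))
  · exact (congrArg (BM.IsDeg · _) (by rw [TKP.bo_r]; push_cast; ring)).mp
      (KP.vir_deg (h.oriB M).deg (κ.bo (pm σ M)) (j M))

/-- cocycles that cut out the fixed locus over a compact set -/
theorem exists_cutB (h : TH σ Y) (hχ : ∀ w ≠ 0, χ (lin w) ≠ 0) {C : Set Y.X} (hC : IsCompact C) :
    ∃ (N : ℕ) (p : R σ) (Z : ∀ M, Set (h.toTS.B M).X) (u : ∀ M, Coch (h.toTS.B M).X), χ p ≠ 0 ∧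
      ∀ M, IsCo (Z M) N (u M) ∧ hcls (u M) = h.toTS.e M p ∧
        Cohom (Z M) (u M) (pull (h.toTS.inc M).map (u (M + 1))) ∧
        ∀ x, (h.toTS.B M).π x ∈ Z M → Y.π x.1 ∈ C → x.1 ∈ h.toTS.Fix := by
  obtain ⟨N, w, f, h1, h0⟩ := h.exists_cut hC
  have hf := fun i => (h1 i).2
  refine ⟨N, ∏ i, lin (w i), _, fun M => (TS.cutSec hf M).eul, ?_, fun M => ⟨?_, TS.hcls_cutSec hf M,
    Iso.cohom_eul (m := h.toTS.inc M) (E' := chars fun i => h.toTS.ch (pm σ M) (w i))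
      (E := chars fun i => h.toTS.ch (pm σ (M + 1)) (w i)) (A := fun _ => LinearMap.id)
      ⟨Hom.of_continuous (fun _ _ h => h) continuous_snd fun _ _ _ _ => rfl, fun _ _ _ h => h,
        fun _ v h => ⟨v, h, rfl⟩⟩ (TS.cutSec hf M) (TS.cutSec hf (M + 1)) fun t =>
      congrArg (fun s i => (chr (w i) s : ℂ) * f i (h.a s⁻¹ t.1)) (PM.nrm_inc t.2).symm,
    fun x hx hc => h0 _ hc fun i => ?_⟩⟩
  · rw [map_prod]
    exact Finset.prod_ne_zero_iff.2 fun i _ => hχ _ (h1 i).1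
  · have := (TS.cutSec hf M).isCo
    rwa [show (chars fun i => h.toTS.ch (pm σ M) (w i)).r = N from Fintype.card_fin N] at this
  · have := (mul_eq_zero.1 (congrFun ((TS.cutSec hf M).mem_zeros.1 hx) i)).resolve_left
      (Units.ne_zero _)
    rwa [← h.a_ph, map_inv, ph_nrm, inv_one, h.one] at this

namespace Pc

variable (hP : Pc h.toTS Zs j g i)
include hP

theorem isClosed : IsClosed Zs := by
  rw [show Zs = (fun t => (h.toTS.B 0).π (h.toTS.base.f t)) ⁻¹' range (j 0) from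
    Set.ext fun t => (hP.rng 0 (h.toTS.base.f t)).symm]
  exact (hP.emb 0).isClosed_range.preimage ((h.toTS.B 0).cont.comp h.toTS.base.cf)

theorem inv : h.toTS.Inv Zs := by
  have : ∀ (g : Y.G) s, ∀ t ∈ Zs, g • h.a s t ∈ Zs := fun g s t ht =>
    (hP.rng 0 _).1 ((h.toTS.B 0).π_smul (g, s) (t, PM.one) ▸ (hP.rng 0 (t, PM.one)).2 ht)
  exact ⟨fun g t ht => h.one t ▸ this g 1 t ht, fun s t ht => one_smul Y.G (h.a s t) ▸ this 1 s t ht⟩

theorem exists_rep (M : ℕ) (z : A × Bs σ M) : ∃ x : (h.toTS.B M).T, x.1 ∈ h.toTS.Fix ∧ x.1 ∈ Zs ∧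
    g z.1 = Y.π x.1 ∧ z.2 = bp x.2 ∧ j M (i M z) = (h.toTS.B M).π x := by
  obtain ⟨z, b⟩ := z
  obtain ⟨y, rfl⟩ := ((TS.triv σ pt).B M).surj b
  obtain ⟨t, ht, e⟩ := hP.sub ⟨z, rfl⟩
  exact ⟨(t, y.2), ht.1, ht.2, e.symm, rfl, hP.eq M z t y.2 e.symm⟩

theorem mem_range {M : ℕ} {x : (h.toTS.B M).T} :
    (h.toTS.B M).π x ∈ range (j M ∘ i M) ↔ Y.π x.1 ∈ range g := by
  refine ⟨fun ⟨z, e⟩ => ?_, fun ⟨z, e⟩ => ⟨(z, bp x.2), hP.eq M z x.1 x.2 e⟩⟩
  obtain ⟨y, h1, -, h2, -, h3⟩ := hP.exists_rep M z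
  obtain ⟨k, rfl⟩ := ((h.toTS.B M).fib _ _).1 (h3.symm.trans e)
  exact ⟨z.1, h2.trans ((Y.π_smul k.1 _).trans (h.π_a k.2 h1)).symm⟩

theorem emb_i (M : ℕ) : IsClosedEmbedding (i M) :=
  (i M).continuous.isClosedEmbedding fun z z' e => by
    obtain ⟨x, h1, -, h2, h3, h4⟩ := hP.exists_rep M z
    obtain ⟨x', -, -, h2', h3', h4'⟩ := hP.exists_rep M z'
    obtain ⟨k, rfl⟩ := ((h.toTS.B M).fib _ _).1 (h4.symm.trans ((congrArg (j M) e).trans h4'))
    exact Prod.ext (hP.inj (h2.trans (h2'.trans ((Y.π_smul k.1 _).trans (h.π_a k.2 h1))).symm))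
      (h3.trans (h3'.trans (((TS.triv σ pt).B M).π_smul (1, k.2) ((), x.2))).symm)

theorem map_e (M : ℕ) (f : R σ) :
    H.map ((j M).comp (i M)) (h.toTS.e M f) = evA A M (f ⊗ₜ 1) := by
  have he : (TS.triv σ pt).IsEq h.toTS
    ⟨1, fun _ => (), continuous_const, continuous_const, fun _ _ => rfl⟩ := fun _ _ => rfl
  rw [← he.map_e M f, H.map_map, evA_one]
  refine congrArg (H.map · _) (ContinuousMap.ext fun z => ?_)
  obtain ⟨x, -, -, -, h1, h2⟩ := hP.exists_rep M z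
  exact (congrArg (he.bo (pm σ M)).map h2).trans ((Mor.map_π _ _).trans h1.symm)

theorem isol_ov (M : ℕ) : Isol (range (j M ∘ i M)) (h.toTS.ov (h.toTS.Fix ∩ Zs) M) :=
  Sp.isol fun _ hx => ((Y.cont.comp continuous_fst).continuousAt.eventually
    (hP.isol _ (hP.mem_range.1 hx))).mono fun _ a ⟨y', b, e⟩ => hP.mem_range.2 (a ⟨_,
      ⟨TS.inv_fix.mem_ov.1 ⟨y', b.1, e⟩, hP.inv.mem_ov.1 ⟨y', b.2, e⟩⟩, rfl⟩)

theorem lz {N : ℕ} {p : R σ} {Z : ∀ M, Set (h.toTS.B M).X} {u : ∀ M, Coch (h.toTS.B M).X}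
    (h1 : ∀ M, IsCo (Z M) N (u M)) (h2 : ∀ M, hcls (u M) = h.toTS.e M p)
    (h3 : ∀ M, Isol (range (i M)) (j M ⁻¹' Z M)) : Lz i p fun M => pull (j M) (u M) where
  emb := hP.emb_i
  lco M := LCo.of_isCo' (IsCo.pull' (h1 M) (j M).continuous) (h3 M)
  deg M := ⟨N, (h1 M).deg.pull _⟩
  cls M := by
    rw [← hP.map_e, ← h2, H.map_hcls _ (h1 M).cocycle, pull_pull]
    rfl

theorem exists_cut' (hχ : ∀ w ≠ 0, χ (lin w) ≠ 0) : ∃ (N : ℕ) (p : R σ)
    (Z : ∀ M, Set (h.toTS.B M).X) (u : ∀ M, Coch (h.toTS.B M).X), χ p ≠ 0 ∧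
      ∀ M, IsCo (Z M) N (u M) ∧ hcls (u M) = h.toTS.e M p ∧
        Cohom (Z M) (u M) (pull (h.toTS.inc M).map (u (M + 1))) ∧
        (∀ z, ∀ᶠ y in 𝓝 (j M (i M z)), y ∈ Z M → y ∈ h.toTS.ov h.toTS.Fix M) ∧
        Isol (range (i M)) (j M ⁻¹' Z M) := by
  obtain ⟨C, hC, e⟩ := exists_compact_superset (isCompact_range g.continuous)
  obtain ⟨N, p, Z, u, h0, h1⟩ := exists_cutB h hχ hC
  have h2 : ∀ M z, ∀ᶠ y in 𝓝 (j M (i M z)), y ∈ Z M → y ∈ h.toTS.ov h.toTS.Fix M := fun M z => by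
    obtain ⟨x, -, -, a, -, b⟩ := hP.exists_rep M z
    rw [b, ← (h.toTS.B M).quo.isOpenMap.map_nhds_eq (h.toTS.B M).cont.continuousAt]
    exact ((Y.cont.comp continuous_fst).continuousAt.eventually (mem_interior_iff_mem_nhds.1
      (e ⟨_, a⟩))).mono fun y c d => ⟨y, (h1 M).2.2.2 y d c, rfl⟩
  refine ⟨N, p, Z, u, h0, fun M => ⟨(h1 M).1, (h1 M).2.1, (h1 M).2.2.1, h2 M, ?_⟩⟩
  rintro _ ⟨z, rfl⟩
  filter_upwards [(j M).continuous.continuousAt.eventually ((h2 M z).and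
    (hP.isol_ov M _ ⟨z, rfl⟩))] with x a b
  obtain ⟨y, c, d⟩ := a.1 b
  obtain ⟨w, e⟩ := a.2 ⟨y, ⟨c, (hP.rng M y).1 ⟨x, d.symm⟩⟩, d⟩
  exact ⟨w, (hP.emb M).injective e⟩

/-- localising cocycles that come from the ambient space -/
theorem exists_cut (hχ : ∀ w ≠ 0, χ (lin w) ≠ 0) : ∃ (N : ℕ) (p : R σ)
    (u : ∀ M, Coch (h.toTS.B M).X), χ p ≠ 0 ∧ (Lz i p fun M => pull (j M) (u M)) ∧
      ∀ M, supp (δ (u M)) = ∅ ∧ IsDeg (2 * N) (u M) ∧ hcls (u M) = h.toTS.e M p ∧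
        ∀ z, ∀ᶠ y in 𝓝 (j M (i M z)), y ∈ supp (u M) → y ∈ h.toTS.ov h.toTS.Fix M :=
  let ⟨N, p, _, u, h0, h1⟩ := hP.exists_cut' hχ
  ⟨N, p, u, h0, hP.lz (fun M => (h1 M).1) (fun M => (h1 M).2.1) fun M => (h1 M).2.2.2.2, fun M =>
    ⟨(h1 M).1.cocycle, (h1 M).1.deg, (h1 M).2.1, fun z =>
      ((h1 M).2.2.2.1 z).mono fun _ a b => a ((h1 M).1.supp b)⟩⟩

theorem lift_i {M : ℕ} {k : X M → X (M + 1)}
    (hk : ∀ x, j (M + 1) (k x) = (h.toTS.inc M).map (j M x)) (z : A × Bs σ M) :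
    k (i M z) = i (M + 1) (incA A M z) := by
  obtain ⟨x, -, -, a, b, c⟩ := hP.exists_rep M z
  refine (hP.emb _).injective ?_
  rw [hk, c, Mor.map_π, ← z.eta, b, incA_bp]
  exact (hP.eq _ _ _ _ a).symm

theorem preimage_i {M : ℕ} {k : X M → X (M + 1)}
    (hk : ∀ x, j (M + 1) (k x) = (h.toTS.inc M).map (j M x)) :
    k ⁻¹' range (i (M + 1)) ⊆ range (i M) := by
  rintro x ⟨z, e⟩
  obtain ⟨y, a⟩ := (h.toTS.B M).surj (j M x)
  obtain ⟨w, b⟩ := (hP.mem_range (x := y)).2 ((hP.mem_range (x := (h.toTS.inc M).f y)).1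
    ⟨z, by rw [comp_apply, e, hk, ← a, Mor.map_π]⟩)
  exact ⟨w, (hP.emb M).injective (b.trans a)⟩

/-- **(E1) existence of the local contribution** -/
theorem exists_isLoc (hχ : ∀ w ≠ 0, χ (lin w) ≠ 0) {d : ℤ} {β : ∀ M, BM (X M)}
    (hβ : IsTw h.toTS j d β) : ∃ I, IsLoc χ β i I := by
  obtain ⟨N, p, Z, u, h0, h1⟩ := hP.exists_cut' hχ
  have hu := hP.lz (fun M => (h1 M).1) (fun M => (h1 M).2.1) fun M => (h1 M).2.2.2.2
  refine (exists_fn (χ := χ) (γ := fun M => lgys (i M) (pull (j M) (u M)) (β M))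
    (d := d - N) (fun M => ?_) fun M => (congrArg (BM.IsDeg · _) (by ring)).mp
      (lgys_deg (hβ.deg M) (i M) ((h1 M).1.deg.pull (j M)))).elim fun J hJ =>
    ⟨(χ p)⁻¹ • J, p, _, h0, hu, by rwa [smul_inv_smul₀ h0]⟩
  obtain ⟨k, hk⟩ := exists_lift hP.emb hP.rng M
  have a1 : IsClosedEmbedding k := isClosedEmbedding_of_comp (hP.emb _).isEmbedding hk
    ((h.toTS.isClosedEmbedding_inc M).comp (hP.emb M))
  have a2 := IsCo.mono' (IsCo.pull' (h.toTS.isCo_col M) (j (M + 1)).continuous)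
    (preimage_inc hP.emb hP.rng hk)
  have a3 := IsCo.mono' (IsCo.pull' a2 (i (M + 1)).continuous) (B := range (incA A M)) (by
    rintro z ⟨x, e⟩
    obtain ⟨w, rfl⟩ := hP.preimage_i hk ⟨z, e.symm⟩
    exact ⟨w, (hP.emb_i _).injective ((hP.lift_i hk w).symm.trans e)⟩)
  have a4 := (LCoh.of_cohom (h1 M).2.2.2.2 ((h1 M).2.2.1.pull (j M).continuous)).symm.lgys
    (hP.emb_i M) (hu.lco M)
  rw [pull_pull, show (h.toTS.inc M).map ∘ j M = j (M + 1) ∘ k from (funext hk).symm,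
    ← pull_pull] at a4
  rw [← a4, ← hβ.step M k hk, ← lgys_eq_gys a1 a2.cocycle a2.supp, lgys_comm a1 (hP.emb_i _)
    (isClosedEmbedding_incA M) (hP.emb_i M) (hP.lift_i hk) (Isol.of_subset (hP.preimage_i hk))
    (LCo.of_isCo a2) (hu.lco _) a2.deg, lgys_eq_gys (isClosedEmbedding_incA M) a3.cocycle a3.supp,
    push_gys_eq_cap (isClosedEmbedding_incA M) a3.cocycle a3.supp, ← hP.map_e, ← TS.hcls_col,
    H.map_hcls _ (h.toTS.isCo_col M).cocycle, pull_pull]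
  rfl

/-- **(E0) global localising cocycles** -/
theorem exists_glob (hχ : ∀ w ≠ 0, χ (lin w) ≠ 0) [CompactSpace (X 0)]
    (e : Y.π '' (h.toTS.Fix ∩ Zs) ⊆ range g) : ∃ p u, χ p ≠ 0 ∧ Lz i p u ∧
      ∀ M, supp (δ (u M)) = ∅ ∧ supp (u M) ⊆ range (i M) ∧
        hcls (u M) = H.map (j M) (h.toTS.e M p) := by
  obtain ⟨N, p, Z, u, h0, h1⟩ := exists_cutB h hχ
    (h.toTS.isHomeomorph_base.isClosedEmbedding.isCompact_preimage (isCompact_range (j 0).continuous))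
  have h2 : ∀ M, j M ⁻¹' Z M ⊆ range (i M) := fun M x hx => by
    obtain ⟨y, a⟩ := (h.toTS.B M).surj (j M x)
    have b := (hP.rng M y).1 ⟨x, a.symm⟩
    obtain ⟨w, c⟩ := hP.mem_range.2 (e ⟨_, ⟨(h1 M).2.2.2 y (a ▸ hx) (by
      rw [mem_preimage, Mor.map_π]; exact (hP.rng 0 _).2 b), b⟩, rfl⟩)
    exact ⟨w, (hP.emb M).injective (c.trans a)⟩
  exact ⟨p, _, h0, hP.lz (fun M => (h1 M).1) (fun M => (h1 M).2.1) fun M => Isol.of_subset (h2 M),
    fun M => ⟨cocycle_pull (j M).continuous (h1 M).1.cocycle,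
      (IsCo.pull' (h1 M).1 (j M).continuous).supp.trans (h2 M), by
        rw [← (h1 M).2.1, H.map_hcls _ (h1 M).1.cocycle]⟩⟩

end Pc

end Vale.Agent.P269.LG
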