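import Vale.Agent.P269.Loc.Cx
import Vale.Agent.P269.Orb.TZ

/-!
# Torus actions on complex orbifolds, fixed point data
-/

set_option linter.unusedSectionVars false

namespace Vale.Agent.P269.Loc

open Set Function Topology Filter Module Vale.Agent.P291Z Vale.Agent.P269.Ch Vale.Agent.P269.Holo
  Vale.Agent.P269.Orb

variable {σ : Type} [Fintype σ]

namespace HO

variable (Y : HO)

theorem holOrb : HolOrb Y.G Y.ι Y.n := Y.holOrb'

/-- the fundamental class -/
noncomputable def fund : BM Y.X := fundQ Y.G Y.ι Y.π Y.n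

theorem ori : Ori (2 * Y.n) Y.fund := Y.holOrb.ori Y.isQuo

/-- an invariant submanifold -/
noncomputable def sub (S : SubMulAction Y.G Y.T) (hS : IsLocallyClosed (S : Set Y.T)) (n : ℕ)
    (hm : ∀ t : S, IsMfd (fun s : S => Y.ι s) (finrank ℂ Y.L + n) t) : HO where
  toSp :=
    haveI : Nice S := Nice.of_isLocallyClosed hS
    haveI := (Y.orb.sub S hS).contSMul
    Y.toSp.abv S Subtype.val continuous_subtype_val fun _ _ => rfl
  L := Y.L
  A := Y.A
  aA := Y.aA
  cA := Y.cA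
  tA := Y.tA
  κ := Y.κ
  ι := fun s : S => Y.ι s
  n := n
  exp := Y.exp
  an := Y.an
  emb := Y.emb.comp IsEmbedding.subtypeVal
  eqv g t := Y.eqv g t.1
  mfd := hm

/-- the inclusion of an invariant submanifold -/
noncomputable def subI (S : SubMulAction Y.G Y.T) (hS : IsLocallyClosed (S : Set Y.T)) (n : ℕ)
    (hm : ∀ t : S, IsMfd (fun s : S => Y.ι s) (finrank ℂ Y.L + n) t) :
    Mor (Y.sub S hS n hm).toSp Y.toSp :=
  ⟨MonoidHom.id _, fun s : S => s.1, continuous_id, continuous_subtype_val, fun _ _ => rfl⟩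

/-- an invariant open subset -/
noncomputable def opn (U : SubMulAction Y.G Y.T) (hU : IsOpen (U : Set Y.T)) : HO :=
  Y.sub U hU.isLocallyClosed Y.n fun t => (Y.mfd t.1).pull (hU.isOpenEmbedding_subtypeVal.lh t)

/-- the inclusion of an invariant open subset -/
noncomputable def opnI (U : SubMulAction Y.G Y.T) (hU : IsOpen (U : Set Y.T)) :
    Mor (Y.opn U hU).toSp Y.toSp := Y.subI U _ _ _

end HO

/-- a linear action of the compact torus on a complex orbifold -/
structure TH (σ : Type) [Fintype σ] (Y : HO) extends TS σ Y.toSp where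
  /-- the representation -/
  b : Tor σ →* End ℂ Y.A
  wtd : Wtd b
  bcomm : ∀ s (g : Y.G) v, b s (g • v) = g • b s v
  eqv : ∀ s t, Y.ι (a s t) = b (ph s) (Y.ι t)

namespace TH

variable {Y : HO} (h : TH σ Y)

theorem mem_tan (s : Tor σ) (t : Y.T) (v : Y.A) (hv : v ∈ tan Y.ι t) :
    h.b (ph s) v ∈ tan Y.ι (h.a s t) := by
  have := (Y.mfd t).fderiv_mem_tan (ι' := Y.ι) (u := h.a s)
    (h.continuous_a continuous_const continuous_id).continuousAt
    ((LinearMap.toContinuousLinearMap (h.b (ph s))).analyticAt _)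
    (Eventually.of_forall (h.eqv s)) hv
  rwa [ContinuousLinearMap.fderiv] at this

theorem b_inf (s : Tor σ) (t : Y.T) (x : Y.L) : h.b (ph s) (Y.inf t x) = Y.inf (h.a s t) x := by
  have := ((LinearMap.toContinuousLinearMap (h.b (ph s))).hasFDerivAt.comp (0 : Y.L)
    (Y.an_orbit t).differentiableAt.hasFDerivAt).fderiv
  rw [show _ ∘ _ = fun x => Y.ι (Y.κ x • h.a s t) from funext fun x => by
    rw [← h.comm, h.eqv]; rfl] at this
  exact (DFunLike.congr_fun this x).symm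

@[fun_prop] theorem continuous_b {Z : Type*} [TopologicalSpace Z] {s : Z → Tor σ} {v : Z → Y.A}
    (hs : Continuous s) (hv : Continuous v) : Continuous fun z => h.b (s z) (v z) :=
  h.wtd.cont₂.comp (hs.prodMk hv)

theorem b_inv (s : Tor σ) (v : Y.A) : h.b s⁻¹ (h.b s v) = v := by
  rw [← End.mul_apply, ← map_mul, inv_mul_cancel, map_one, End.one_apply]

theorem b_inv' (s : Tor σ) (v : Y.A) : h.b s (h.b s⁻¹ v) = v := by
  rw [← End.mul_apply, ← map_mul, mul_inv_cancel, map_one, End.one_apply]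

theorem a_ph (s : Tor σ) (t : Y.T) : h.a (ph s) t = h.a s t :=
  Y.emb.injective (by rw [h.eqv, h.eqv, ph_ph])

/-- the action on the tangent bundle -/
@[reducible] noncomputable def tanV : TV h.toTS Y.tanB :=
  ⟨h.b.comp ph, h.continuous_b (continuous_ph.comp continuous_fst) continuous_snd,
    fun _ => h.bcomm _, h.mem_tan⟩

/-- the action on the tangent spaces of the orbits -/
@[reducible] noncomputable def orbV : TV h.toTS Y.orbB :=
  ⟨h.b.comp ph, h.tanV.cont, fun _ => h.bcomm _,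
    by rintro s t _ ⟨x, rfl⟩; exact ⟨x, (h.b_inf s t x).symm⟩⟩

/-- the manifold is locally invariant under the complex torus -/
theorem loc (t : Y.T) : ∀ᶠ q : Tor σ × Y.T in 𝓝 (1, t), h.b q.1 (Y.ι q.2) ∈ range Y.ι := by
  obtain ⟨ψ, hψ, rfl⟩ := Y.mfd t
  obtain ⟨w, h1, h2, -, h4, -⟩ := hψ.exists_inv
  have e0 : h.b (expT 0) (Y.ι (ψ 0)) = Y.ι (ψ 0) := by rw [expT_zero, map_one, End.one_apply]
  have a1 : AnalyticAt ℂ (fun p : (σ → ℂ) × (Fin _ → ℂ) => h.b (expT p.1) (Y.ι (ψ p.2))) (0, 0) :=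
    (h.wtd.an₂ _).comp (f := fun p : (σ → ℂ) × (Fin _ → ℂ) => (p.1, Y.ι (ψ p.2)))
      (analyticAt_fst.prod (hψ.an.comp_of_eq analyticAt_snd rfl))
  have c1 : Tendsto (fun p : (σ → ℂ) × (Fin _ → ℂ) => h.a (expT p.1) (ψ p.2)) (𝓝 (0, 0))
      (𝓝 (ψ 0)) := by
    have := h.cont.continuousAt.comp (f := fun p : (σ → ℂ) × (Fin _ → ℂ) => (expT p.1, ψ p.2))
      ((continuous_expT.comp continuous_fst).continuousAt.prodMk
        (hψ.lh.cont.comp_of_eq (continuousAt_snd (p := (0, 0))) rfl))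
    simpa [ContinuousAt, expT_zero, h.one, comp_def] using this
  have key := eventually_zero_of_im (a1.sub ((hψ.an.comp_of_eq h1 h2).comp_of_eq a1 e0))
    ((c1.eventually h4).mono fun p hp hr => by
      have : h.b (expT p.1) (Y.ι (ψ p.2)) = Y.ι (h.a (expT p.1) (ψ p.2)) := by
        rw [h.eqv, ph_of_mem fun i => by rw [coe_expT, Complex.norm_exp, hr i, Real.exp_zero]]
      change h.b (expT p.1) (Y.ι (ψ p.2)) - Y.ι (ψ (w (h.b (expT p.1) (Y.ι (ψ p.2))))) = 0
      rw [this, hp, sub_self])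
  rw [nhds_prod_eq, ← isExp_expT.map_nhds, ← hψ.lh.map_nhds, prod_map_map_eq, eventually_map,
    ← nhds_prod_eq]
  exact key.mono fun p hp => ⟨_, (sub_eq_zero.1 hp).symm⟩

/-- the local action of the complex torus -/
theorem exists_loc (t : Y.T) : ∃ l : Tor σ × Y.T → Y.T, l (1, t) = t ∧
    ∀ᶠ q in 𝓝 (1, t), ContinuousAt l q ∧ Y.ι (l q) = h.b q.1 (Y.ι q.2) := by
  have : Nonempty Y.T := ⟨t⟩
  have e := (h.loc t).mono fun q hq => invFun_eq hq
  refine ⟨fun q => invFun Y.ι (h.b q.1 (Y.ι q.2)), Y.emb.injective (e.self_of_nhds.trans (by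
    rw [map_one, End.one_apply])), (e.eventually_nhds.mono fun q hq => ?_).and e⟩
  exact Y.emb.isInducing.continuousAt_iff.2 ((h.continuous_b continuous_fst
    (Y.cι.comp continuous_snd)).continuousAt.congr (EventuallyEq.symm hq))

/-- the action on an invariant submanifold -/
noncomputable def sub (S : SubMulAction Y.G Y.T) (hS : IsLocallyClosed (S : Set Y.T)) (n : ℕ)
    (hm : ∀ t : S, IsMfd (fun s : S => Y.ι s) (finrank ℂ Y.L + n) t)
    (ha : ∀ s, ∀ t ∈ S, h.a s t ∈ S) : TH σ (Y.sub S hS n hm) where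
  a s t := ⟨h.a s t.1, ha s _ t.2⟩
  one t := Subtype.ext (h.one t.1)
  mul s s' t := Subtype.ext (h.mul s s' t.1)
  cont := (h.continuous_a continuous_fst (continuous_subtype_val.comp continuous_snd)).subtype_mk _
  comm s g t := Subtype.ext (h.comm s g t.1)
  b := h.b
  wtd := h.wtd
  bcomm := h.bcomm
  eqv s t := h.eqv s t.1

/-- the linear action on the ambient space of the Borel construction -/
noncomputable def lin (M : ℕ) (k : Y.G × Tor σ) :
    Y.A × (σ → Fin (M + 1) → ℂ) →ₗ[ℂ] Y.A × (σ → Fin (M + 1) → ℂ) :=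
  (DistribSMul.toLinearMap ℂ Y.A k.1 ∘ₗ h.b k.2).prodMap
    (LinearMap.pi fun i => (k.2 i : ℂ) • LinearMap.proj i)

theorem lin_apply (M : ℕ) (k : Y.G × Tor σ) (v : Y.A × (σ → Fin (M + 1) → ℂ)) :
    h.lin M k v = (k.1 • h.b k.2 v.1, fun i => (k.2 i : ℂ) • v.2 i) := rfl

/-- the linear action on the ambient space of the Borel construction -/
@[reducible] noncomputable def act (M : ℕ) :
    DistribMulAction (h.toTS.B M).G (Y.A × (σ → Fin (M + 1) → ℂ)) :=
  VB.linAct (h.lin M) (fun v => Prod.ext (show (1 : Y.G) • h.b 1 v.1 = v.1 by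
      rw [map_one, one_smul, End.one_apply]) (funext fun i => one_smul ℂ (v.2 i)))
    fun k k' v => Prod.ext (show (k.1 * k'.1) • h.b (k.2 * k'.2) v.1 =
      k.1 • h.b k.2 (k'.1 • h.b k'.2 v.1) by rw [map_mul, End.mul_apply, h.bcomm, mul_smul])
      (funext fun i => mul_smul (k.2 i : ℂ) (k'.2 i : ℂ) (v.2 i))

theorem isMfd_pm {M : ℕ} (p : PM σ M) :
    IsMfd PM.val (Fintype.card σ * (M + 1)) p ∧ tan PM.val p = ⊤ := by
  have := IsMfd.of_lh (PM.isOpenEmbedding_val.lh p)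
  rwa [show finrank ℂ (σ → Fin (M + 1) → ℂ) = Fintype.card σ * (M + 1) by
    simp [finrank_pi_fintype]] at this

/-- the embedding of the Borel construction -/
noncomputable def ιB (M : ℕ) (x : Y.T × PM σ M) : Y.A × (σ → Fin (M + 1) → ℂ) :=
  (h.b x.2.nrm (Y.ι x.1), x.2.val)

theorem isEmbedding_ιB (M : ℕ) : IsEmbedding (h.ιB M) := by
  let e : Y.A × PM σ M ≃ₜ Y.A × PM σ M :=
    { toFun := fun x => (h.b x.2.nrm x.1, x.2)
      invFun := fun x => (h.b x.2.nrm⁻¹ x.1, x.2)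
      left_inv := fun x => Prod.ext (h.b_inv _ _) rfl
      right_inv := fun x => Prod.ext (h.b_inv' _ _) rfl
      continuous_toFun := by fun_prop
      continuous_invFun := by fun_prop }
  exact (IsEmbedding.id.prodMap PM.isOpenEmbedding_val.isEmbedding).comp
    (e.isEmbedding.comp (Y.emb.prodMap IsEmbedding.id))

theorem isMfd_ιB {M : ℕ} (x : Y.T × PM σ M) :
    IsMfd (h.ιB M) (finrank ℂ Y.L + Y.n + Fintype.card σ * (M + 1)) x ∧
      ∀ v, v ∈ tan (h.ιB M) x ↔ h.b x.2.nrm⁻¹ v.1 ∈ tan Y.ι x.1 := by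
  obtain ⟨t, p⟩ := x
  obtain ⟨l, l0, hl⟩ := h.exists_loc t
  let u : Y.T × PM σ M → Y.T × PM σ M := fun y => (l (p.nrm⁻¹ * y.2.nrm, y.1), y.2)
  let u' : Y.T × PM σ M → Y.T × PM σ M := fun y => (l (y.2.nrm⁻¹ * p.nrm, y.1), y.2)
  have u0 : u (t, p) = (t, p) := by simp only [u, inv_mul_cancel, l0]
  have u0' : u' (t, p) = (t, p) := by simp only [u', inv_mul_cancel, l0]
  have c1 : Continuous fun y : Y.T × PM σ M => (p.nrm⁻¹ * y.2.nrm, y.1) := by fun_prop
  have c2 : Continuous fun y : Y.T × PM σ M => (y.2.nrm⁻¹ * p.nrm, y.1) := by fun_prop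
  have e1 := (c1.tendsto' (t, p) (1, t) (by simp)).eventually hl
  have e2 := (c2.tendsto' (t, p) (1, t) (by simp)).eventually hl
  have d1 : ∀ᶠ y in 𝓝 (t, p), ContinuousAt u y := e1.mono fun y hy =>
    (hy.1.comp_of_eq c1.continuousAt rfl).prodMk continuousAt_snd
  have d2 : ∀ᶠ y in 𝓝 (t, p), ContinuousAt u' y := e2.mono fun y hy =>
    (hy.1.comp_of_eq c2.continuousAt rfl).prodMk continuousAt_snd
  have t1 : Tendsto u (𝓝 (t, p)) (𝓝 (t, p)) := by simpa [ContinuousAt, u0] using d1.self_of_nhds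
  have t2 : Tendsto u' (𝓝 (t, p)) (𝓝 (t, p)) := by simpa [ContinuousAt, u0'] using d2.self_of_nhds
  have hu : LH u (t, p) := LH.of_inv u' d1 (u0.symm ▸ d2)
    ((e1.and (t1.eventually e2)).mono fun y hy => Prod.ext (Y.emb.injective (by
      rw [hy.2.2, hy.1.2, ← End.mul_apply, ← map_mul]; simp [u])) rfl)
    (u0.symm ▸ (e2.and (t2.eventually e1)).mono fun y hy => Prod.ext (Y.emb.injective (by
      rw [hy.2.2, hy.1.2, ← End.mul_apply, ← map_mul]; simp [u'])) rfl)
  have m1 := ((u0.symm ▸ (Y.mfd t).prod (isMfd_pm p).1 :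
    IsMfd (Prod.map Y.ι PM.val) _ (u (t, p))).pull hu)
  have m2 := tan_comp_lh (ι := Prod.map Y.ι PM.val) hu
  rw [u0, (Y.mfd t).tan_prod (isMfd_pm p).1, (isMfd_pm p).2] at m2
  let L (s : Tor σ) := (LinearMap.toContinuousLinearMap (h.b s)).prodMap
    (ContinuousLinearMap.id ℂ (σ → Fin (M + 1) → ℂ))
  have f1 : ∀ᶠ y in 𝓝 (t, p), h.ιB M y = L p.nrm (Prod.map Y.ι PM.val (u y)) := e1.mono fun y hy =>
    Prod.ext (show h.b _ _ = h.b _ (Y.ι (l _)) by
      rw [hy.2, ← End.mul_apply, ← map_mul, mul_inv_cancel_left]) rfl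
  have f2 : ∀ᶠ y in 𝓝 (t, p), Prod.map Y.ι PM.val (u y) = L p.nrm⁻¹ (h.ιB M y) := e1.mono fun y hy =>
    Prod.ext (show Y.ι (l _) = h.b _ (h.b _ _) by rw [hy.2, map_mul, End.mul_apply]) rfl
  have m3 := m1.change ⟨_, (L _).analyticAt _, f1⟩ ⟨_, (L _).analyticAt _, f2⟩
  refine ⟨m3, fun v => ⟨fun hv => ?_, fun hv => ?_⟩⟩
  · have := m3.fderiv_mem_tan (ι' := fun y => Prod.map Y.ι PM.val (u y)) (u := id) continuousAt_id
      ((L _).analyticAt _) f2 hv
    rw [ContinuousLinearMap.fderiv, id, m2] at this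
    exact this.1
  · have := m1.fderiv_mem_tan (u := id) continuousAt_id ((L _).analyticAt _) f1
      (v := (h.b p.nrm⁻¹ v.1, v.2)) (m2 ▸ ⟨hv, trivial⟩)
    rw [ContinuousLinearMap.fderiv] at this
    exact (Prod.ext (h.b_inv' _ _) rfl : L p.nrm (h.b p.nrm⁻¹ v.1, v.2) = v) ▸ this

/-- the Borel construction of a complex orbifold -/
noncomputable def bo (M : ℕ) : HO where
  toSp := h.toTS.B M
  L := Y.L × (σ → ℂ)
  A := Y.A × (σ → Fin (M + 1) → ℂ)
  aA := h.act M
  cA := @SMulCommClass.mk _ _ _ (h.act M).toSMul _ fun k c v => map_smul (h.lin M k) c v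
  tA := @ContinuousSMul.mk _ _ (h.act M).toSMul _ _ (show Continuous fun p : (Y.G × Tor σ) ×
      Y.A × (σ → Fin (M + 1) → ℂ) =>
        (p.1.1 • h.b p.1.2 p.2.1, fun i => (p.1.2 i : ℂ) • p.2.2 i) from
    ((continuous_fst.comp continuous_fst).smul (h.wtd.cont₂.comp (f := fun p : (Y.G × Tor σ) ×
      Y.A × (σ → Fin (M + 1) → ℂ) => (p.1.2, p.2.1)) (by fun_prop))).prodMk (by fun_prop))
  κ := Prod.map Y.κ expT
  ι := h.ιB M
  n := Y.n + Fintype.card σ * M
  exp := Y.exp.prod isExp_expT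
  an v := by
    have h1 : AnalyticAt ℂ (fun p : (Y.L × (σ → ℂ)) × Y.A × (σ → Fin (M + 1) → ℂ) =>
        h.b (expT p.1.2) p.2.1) (0, v) :=
      (h.wtd.an₂ _).comp (f := fun p : (Y.L × (σ → ℂ)) × Y.A × (σ → Fin (M + 1) → ℂ) =>
        (p.1.2, p.2.1)) ((analyticAt_snd.comp analyticAt_fst).prod
          (analyticAt_fst.comp analyticAt_snd))
    have h2 : AnalyticAt ℂ (fun (p : (Y.L × (σ → ℂ)) × Y.A × (σ → Fin (M + 1) → ℂ)) i =>
        Complex.exp (p.1.2 i) • p.2.2 i) (0, v) := AnalyticAt.pi fun i =>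
      (((ContinuousLinearMap.proj (R := ℂ) (φ := fun _ : σ => ℂ) i).analyticAt _).comp
        (analyticAt_snd.comp analyticAt_fst)).cexp'.smul
      (((ContinuousLinearMap.proj (R := ℂ) (φ := fun _ : σ => Fin (M + 1) → ℂ) i).analyticAt _).comp
        (analyticAt_snd.comp analyticAt_snd))
    exact ((Y.an (h.b (expT 0) v.1)).comp_of_eq ((analyticAt_fst.comp analyticAt_fst).prod h1)
      rfl).prod h2
  emb := h.isEmbedding_ιB M
  eqv k x := Prod.ext (show h.b (k.2 • x.2).nrm (Y.ι (k.1 • h.a k.2 x.1)) =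
      k.1 • h.b k.2 (h.b x.2.nrm (Y.ι x.1)) by
    rw [PM.nrm_smul, Y.eqv, h.eqv, h.bcomm, ← End.mul_apply, ← End.mul_apply, ← map_mul, ← map_mul,
      mul_right_comm, absT_mul_ph]) rfl
  mfd x := by
    have := (h.isMfd_ιB x).1
    rwa [show finrank ℂ Y.L + Y.n + Fintype.card σ * (M + 1) =
      finrank ℂ (Y.L × (σ → ℂ)) + (Y.n + Fintype.card σ * M) by
        rw [finrank_prod, finrank_fintype_fun_eq_card]; ring] at this

theorem mem_tan_bo (M : ℕ) {x : (h.bo M).T} {v : (h.bo M).A} :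
    v ∈ tan (h.bo M).ι x ↔ h.b x.2.nrm⁻¹ v.1 ∈ tan Y.ι x.1 := (h.isMfd_ιB x).2 v

end TH

/-- a lift of a multiple of the torus action to the group -/
structure Dat (σ G : Type) [Group G] [TopologicalSpace G] where
  /-- the multiple -/
  m : ℕ
  hm : m ≠ 0
  /-- the homomorphism -/
  ρ : Tor σ →* G
  cρ : Continuous ρ
  abs : ∀ s, ρ (absT s) = 1

theorem Dat.ph {G : Type} [Group G] [TopologicalSpace G] (d : Dat σ G) (s : Tor σ) :
    d.ρ (ph s) = d.ρ s := by
  conv_rhs => rw [← absT_mul_ph s, map_mul, d.abs, one_mul]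

/-- the datum given by a homomorphism, of which only the restriction to the compact torus matters -/
noncomputable def Dat.of {G : Type} [Group G] [TopologicalSpace G] (m : ℕ) (hm : m ≠ 0)
    (ρ : Tor σ →* G) (h : Continuous ρ) : Dat σ G :=
  ⟨m, hm, ρ.comp Loc.ph, h.comp continuous_ph, fun s => by
    rw [MonoidHom.comp_apply, ph_absT, map_one]⟩

section fix

variable {Y Y' : Ch.Sp} (a : TS σ Y) (d : Dat σ Y.G)

/-- the points whose orbits are fixed by the compact torus -/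
def TS.Fix : Set Y.T := {t | ∀ s ∈ cpt σ, Y.π (a.a s t) = Y.π t}

/-- the fixed points of the twisted action -/
def TS.Fx : Set Y.T := {t | ∀ s, a.a (s ^ d.m) t = d.ρ s • t}

/-- every point is, locally continuously, conjugate to a fixed point of the twisted action -/
def TS.IsFix : Prop :=
  ∀ t, ∃ γ : Y.T → Y.G, ∀ᶠ x in 𝓝 t, ContinuousAt γ x ∧ γ x • x ∈ a.Fx d

variable {a}

/-- the twisted action on the representation -/
noncomputable def TV.tw {E : VB Y} (b : TV a E) : Tor σ →* End ℂ E.W where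
  toFun s := DistribSMul.toLinearMap ℂ E.W (d.ρ s)⁻¹ ∘ₗ b.b (s ^ d.m)
  map_one' := LinearMap.ext fun v => show (d.ρ 1)⁻¹ • b.b (1 ^ d.m) v = v by
    rw [one_pow, map_one, map_one, inv_one, one_smul, End.one_apply]
  map_mul' s s' := LinearMap.ext fun v => show (d.ρ (s * s'))⁻¹ • b.b ((s * s') ^ d.m) v =
      (d.ρ s)⁻¹ • b.b (s ^ d.m) ((d.ρ s')⁻¹ • b.b (s' ^ d.m) v) by
    rw [mul_pow, map_mul b.b, End.mul_apply, b.comm, smul_smul, ← mul_inv_rev, ← map_mul, mul_comm s]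

theorem TV.tw_cont {E : VB Y} (b : TV a E) : Continuous fun p : Tor σ × E.W => b.tw d p.1 p.2 :=
  (d.cρ.comp continuous_fst).inv.smul (b.cont.comp ((continuous_fst.pow _).prodMk continuous_snd))

/-- the complexification of the twisted action -/
noncomputable def TV.τ {E : VB Y} (b : TV a E) : Tor σ →* End ℂ E.W := cx (b.tw d)

theorem TV.wtd_τ {E : VB Y} (b : TV a E) : Wtd (b.τ d) := wtd_cx (b.tw_cont d)

theorem TV.τ_eq {E : VB Y} (b : TV a E) {s : Tor σ} (hs : s ∈ cpt σ) : b.τ d s = b.tw d s :=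
  cx_eq (b.tw_cont d) hs

theorem TV.mem_wsp {E : VB Y} (b : TV a E) {w : σ → ℤ} {v : E.W} : v ∈ wsp (b.τ d) w ↔
    ∀ s ∈ cpt σ, b.b (s ^ d.m) v = (chr w s : ℂ) • d.ρ s • v :=
  (mem_wsp_cx (b.tw_cont d)).trans (forall₂_congr fun s _ =>
    inv_smul_eq_iff.trans (by rw [smul_comm]))

theorem TV.tw_apply {E : VB Y} (b : TV a E) (s : Tor σ) (v : E.W) :
    b.tw d s v = (d.ρ s)⁻¹ • b.b (s ^ d.m) v := rfl

end fix

end Vale.Agent.P269.Loc
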