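import Vale.Agent.P269.Z.Ops

/-!
# The formal part of the localisation theorem

`Y` carries a Borel-Moore class `β`, cocycles `a` (support `Z`), `θ` (support `F`) and `u`, whose
support meets `Z` only inside `F`.
-/

set_option linter.unusedSectionVars false

namespace Vale.Agent.P269.Loc

open Set Function Topology Vale.Agent.P291Z

variable {X Y Z F D : Type} [TopologicalSpace X] [TopologicalSpace Y] [TopologicalSpace Z]
  [TopologicalSpace F] [TopologicalSpace D] [Nice X] [Nice Y] [Nice Z] [Nice F] [Nice D]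

theorem IsCo.pull' {A : Set Y} {d : ℕ} {t : Coch Y} (h : IsCo A d t) {f : X → Y}
    (hf : Continuous f) : IsCo (f ⁻¹' A) d (pull f t) :=
  ⟨cocycle_pull hf h.cocycle, h.deg.pull f, (supp_pull hf t).trans (preimage_mono h.supp)⟩

theorem IsCo.mono' {A B : Set Y} {d : ℕ} {t : Coch Y} (h : IsCo A d t) (hAB : A ⊆ B) :
    IsCo B d t := ⟨h.cocycle, h.deg, h.supp.trans hAB⟩

theorem IsCo.mul' {A B : Set Y} {d e : ℕ} {s t : Coch Y} (hs : IsCo A d s) (ht : IsCo B e t) :
    IsCo (A ∩ B) (d + e) (s * t) :=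
  ⟨cocycle_mul hs.cocycle ht.cocycle, (hs.deg.mul ht.deg).cast (by push_cast; ring),
    (supp_mul s t).trans (inter_subset_inter hs.supp ht.supp)⟩

theorem isCo_one : IsCo (univ : Set Y) 0 (1 : Coch Y) :=
  ⟨cocycle_one, isDeg_one.cast (by simp), subset_univ _⟩

/-- a Gysin map along a cocycle with a factor that is not needed for the support condition -/
theorem gys_mul_left {i : X → Y} (hi : IsClosedEmbedding i) {s t : Coch Y}
    (hs : supp (δ s) = ∅) (ht : supp (δ t) = ∅) (ht' : supp t ⊆ range i) (β : BM Y) :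
    gys i (s * t) β = cap (hcls (pull i s)) (gys i t β) := by
  have h := gys_gys (i := (id : X → X)) IsClosedEmbedding.id hi hs
    (by rw [range_id]; exact subset_univ _) ht ht' β
  rw [gys_id_eq_cap (cocycle_pull hi.continuous hs)] at h
  exact h.symm

/-- pushing a localised class forward -/
theorem push_gys_eq_cap {k : D → Z} (hk : IsClosedEmbedding k) {u : Coch Z}
    (hu : supp (δ u) = ∅) (hu' : supp u ⊆ range k) (v : BM Z) :
    push k (gys k u v) = cap (hcls u) v := by
  have h := push_gys (j := (id : Z → Z)) hk IsClosedEmbedding.id hu hu' v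
  rw [gys_id_eq_cap hu] at h
  exact h

/-- **Formal localisation.** `D` is the intersection of `Z` and `F`. -/
theorem formal_loc {iZ : Z → Y} (hZ : IsClosedEmbedding iZ) {iF : F → Y}
    (hF : IsClosedEmbedding iF) {k : D → Z} (hk : IsClosedEmbedding k) {k' : D → F}
    (hk' : IsClosedEmbedding k') (hsq : ∀ x, iZ (k x) = iF (k' x))
    (hr : iF ⁻¹' range iZ ⊆ range k') {da dθ du : ℕ} {a θ u : Coch Y}
    (ha : IsCo (range iZ) da a) (hθ : IsCo (range iF) dθ θ) {A : Set Y} (hu : IsCo A du u)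
    (hA : iZ ⁻¹' A ⊆ range k) (β : BM Y) :
    cap (hcls (pull (iZ ∘ k) θ)) (gys k (pull iZ u) (gys iZ a β)) =
      cap (hcls (pull (iZ ∘ k) u)) (gys k' (pull iF a) (gys iF θ β)) := by
  have e : iZ ∘ k = iF ∘ k' := funext hsq
  have hj : IsClosedEmbedding (iZ ∘ k) := hZ.comp hk
  have hua : IsCo (range (iZ ∘ k)) (du + da) (u * a) := IsCo.mono' (IsCo.mul' hu ha) fun y hy => by
    obtain ⟨z, rfl⟩ := hy.2
    obtain ⟨x, rfl⟩ := hA hy.1
    exact ⟨x, rfl⟩
  have haθ : IsCo (range (iF ∘ k')) (da + dθ) (a * θ) :=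
    IsCo.mono' (IsCo.mul' ha hθ) fun y hy => by
      obtain ⟨z, rfl⟩ := hy.2
      obtain ⟨x, rfl⟩ := hr hy.1
      exact ⟨x, rfl⟩
  rw [gys_gys hk hZ hu.cocycle ((preimage_mono hu.supp).trans hA) ha.cocycle ha.supp,
    gys_gys hk' hF ha.cocycle ((preimage_mono ha.supp).trans hr) hθ.cocycle hθ.supp,
    ← gys_mul_left hj hθ.cocycle hua.cocycle hua.supp, ← e,
    ← gys_mul_left hj hu.cocycle haθ.cocycle (e ▸ haθ.supp), ← mul_assoc u]
  have hc := cohom_comm_even hua.cocycle hθ.cocycle hθ.deg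
  have h1 : supp (u * a * θ) ⊆ range (iZ ∘ k) :=
    (supp_mul _ _).trans (inter_subset_left.trans hua.supp)
  have h2 : supp (θ * (u * a)) ⊆ range (iZ ∘ k) :=
    (supp_mul _ _).trans (inter_subset_right.trans hua.supp)
  rw [gys_congr hj (cocycle_mul hua.cocycle hθ.cocycle) h1 (cocycle_mul hθ.cocycle hua.cocycle) h2
    (hc.mono (inter_subset_left.trans hua.supp))]

end Vale.Agent.P269.Loc
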