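import Vale.Agent.P269.Loc.FM
import Vale.Agent.P269.Loc.Core

/-!
# Fixed loci under an immersion, proper neighbourhoods
-/

namespace Vale.Agent.P269.Loc

open Set Function Topology Filter Module Vale.Agent.P291Z Vale.Agent.P269.Ch Vale.Agent.P269.Holo
  Vale.Agent.P269.Orb

variable {σ : Type} [Fintype σ] {Y' Y : HO} {h' : TH σ Y'} {h : TH σ Y} {m : Mor Y'.toSp Y.toSp}
  (e : Imm m) (he : h.toTS.IsEq h'.toTS m) (hb : ∀ s v, e.L (h'.b s v) = h.b s (e.L v))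

namespace FP

variable (c : FP h) {W : Set c.orb.X} (hW : IsOpen W)

/-- the part over an open subset of the orbit space -/
noncomputable def ovr : FP h :=
  c.sub ⟨{t | ∃ ht : t ∈ c.S, c.orb.π ⟨t, ht⟩ ∈ W}, fun g t ⟨ht, h1⟩ =>
    ⟨c.S.smul_mem g ht, (c.orb.π_smul g ⟨t, ht⟩).symm ▸ h1⟩⟩ (fun _ ht => ht.1) fun _ ⟨_, h1⟩ =>
    (eventually_of_emb IsEmbedding.subtypeVal
      ((hW.preimage c.orb.cont).mem_nhds h1)).mono fun x hx h2 => ⟨h2, hx ⟨x, h2⟩ rfl⟩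

/-- the inclusion of the part over an open subset -/
noncomputable def ovrI : Mor (c.ovr hW).orb.toSp c.orb.toSp :=
  (c.ovr hW).mor (m := Mor.id _) c fun _ ht => ht.1

theorem isEmbedding_ovrI : IsEmbedding (c.ovrI hW).map :=
  (Sat.of_surj surjective_id).isEmbedding
    (IsEmbedding.subtypeVal.of_comp_iff.1 IsEmbedding.subtypeVal)

theorem range_ovrI : range (c.ovrI hW).map = W := by
  ext x
  obtain ⟨t, rfl⟩ := c.orb.surj x
  exact (Sat.of_surj surjective_id).mem_range.trans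
    ⟨fun ⟨z, hz⟩ => hz ▸ z.2.2, fun ht => ⟨⟨t.1, t.2, ht⟩, rfl⟩⟩

theorem incl_π {t : Y.T} (ht : t ∈ c.S) : c.incl.map (c.orb.π ⟨t, ht⟩) = Y.π t := c.incl.map_π _

theorem mem_range_incl {t : Y.T} : Y.π t ∈ range c.incl.map ↔ t ∈ c.S :=
  (Sat.of_surj surjective_id).mem_range.trans ⟨fun ⟨z, hz⟩ => hz ▸ z.2, fun ht => ⟨⟨t, ht⟩, rfl⟩⟩

end FP

/-- the fixed tangent vectors at the image of `t` come from the source -/
def Imm.Fl (e : Imm m) (h' : TH σ Y') (h : TH σ Y) (t : Y'.T) : Prop :=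
  ∃ d, t ∈ h'.toTS.Fx d ∧ ∀ v ∈ tan Y.ι (m.f t),
    (∀ s ∈ cpt σ, h.b (s ^ d.m) v = m.ρ (d.ρ s) • v) → ∃ w ∈ tan Y'.ι t, e.L w = v

include he hb

/-- the fixed loci have the same dimension -/
theorem Imm.Fl.mem_fp {t : Y'.T} (ht : e.Fl h' h t) {n : ℕ} (hn : m.f t ∈ (h.fp n).S) :
    t ∈ (h'.fp n).S := by
  obtain ⟨d, hd, hv⟩ := ht
  obtain ⟨n', hn'⟩ := h'.exists_fp (TS.fx_subset hd)
  have h1 := he.map_fx hd
  have hτ : ∀ s v, (e.L : Y'.A →ₗ[ℂ] Y.A) (h'.τ d s v) =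
      h.τ (d.map m.ρ m.cρ) s ((e.L : Y'.A →ₗ[ℂ] Y.A) v) :=
    map_cx (h'.tanV.tw_cont d) (h.tanV.tw_cont _) fun s _ v =>
      (e.smul _ _).trans (congrArg₂ (· • ·) (map_inv _ _) (hb _ v))
  have h2 : (tan (fun z : (h'.fp n').S => Y'.ι z) ⟨t, hn'⟩).map (e.L : Y'.A →ₗ[ℂ] Y.A) =
      tan (fun z : (h.fp n).S => Y.ι z) ⟨_, hn⟩ := by
    rw [(h'.fp n').tan_eq (z := ⟨t, hn'⟩) hd, (h.fp n).tan_eq (z := ⟨_, hn⟩) h1, Submodule.map_sup,
      e.map_orb]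
    refine congrArg (· ⊔ _) (le_antisymm ?_ fun v h3 => ?_)
    · rintro _ ⟨w, hw, rfl⟩
      exact ⟨e.mem_tan hw.1, map_mem_wsp hτ hw.2⟩
    · obtain ⟨w, hw, rfl⟩ := hv v h3.1 fun s hs => by
        have := (h.tanV.mem_wsp _).1 h3.2 s hs
        rw [chr_zero, Units.val_one, one_smul, MonoidHom.comp_apply, ph_of_mem (pow_mem hs _)] at this
        exact this
      exact ⟨wpr (h'.τ d) 0 w, ⟨(h'.wtd_τ d).wpr_mem_of_gen (h'.τ_mem_tan hd _) 0 hw,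
        (h'.wtd_τ d).wpr_mem 0 w⟩, ((h'.wtd_τ d).map_wpr (h.wtd_τ _)
          (fun _ _ => map_mem_wsp hτ) 0 w).trans ((h.wtd_τ _).wpr_of_mem h3.2)⟩
  have h4 := ((h.fp n).mfd ⟨_, hn⟩).finrank_tan
  rw [← h2] at h4
  obtain rfl : n' = n :=
    Nat.add_left_cancel ((((h'.fp n').imm' e).finrank_map ⟨t, hn'⟩).symm.trans h4)
  exact hn'

/-- near a compact isolated part the map of the fixed loci is proper -/
theorem Imm.exists_fp {n : ℕ} {B : Set Y.X} {B' : Set Y'.X} (hB' : IsCompact B')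
    (h1 : ∀ t, Y.π t ∈ B → t ∈ (h.fp n).S) (h2 : MapsTo m.map B' B)
    (h3 : ∀ x ∈ B', ∃ t, Y'.π t = x ∧ e.Fl h' h t)
    (h4 : Isol B' (Y'.π '' h'.toTS.Fix ∩ m.map ⁻¹' B)) :
    ∃ (c' : FP h') (c : FP h) (hm : ∀ t ∈ c'.S, m.f t ∈ c.S), c'.n = c.n ∧
      IsPr (c'.mor c hm).map ∧ (∀ t, Y.π t ∈ B → t ∈ c.S) ∧ (∀ t, Y'.π t ∈ B' → t ∈ c'.S) ∧
      ∀ t ∈ c'.S, Y.π (m.f t) ∈ B → Y'.π t ∈ B' := by
  let c := h.fp n
  let c' := (h'.fp n).sub ⟨{t | t ∈ (h'.fp n).S ∧ m.f t ∈ c.S}, fun g t ht =>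
    ⟨(h'.fp n).S.smul_mem g ht.1, (m.eqv g t).symm ▸ c.S.smul_mem _ ht.2⟩⟩ (fun _ ht => ht.1)
    fun t ht => ((m.cf.tendsto t).eventually (c.opn _ ht.2)).mono fun x hx h5 => ⟨h5, hx
      fun s hs => by rw [← he, ← m.map_π, (h'.fp n).fix x h5 s hs, m.map_π]⟩
  have hm : ∀ t ∈ c'.S, m.f t ∈ c.S := fun _ ht => ht.2
  have h5 : ∀ t, Y'.π t ∈ B' → t ∈ c'.S := fun t ht => by
    obtain ⟨u, e1, hu⟩ := h3 _ ht
    have h6 := h1 (m.f u) (by rw [← m.map_π, e1]; exact h2 ht)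
    exact c'.mem_range_incl.1 (e1 ▸ c'.mem_range_incl.2 ⟨hu.mem_fp e he hb h6, h6⟩)
  obtain ⟨W', W, o', o, k', k, hW, hK, hp⟩ := exists_proper_nhds (c'.mor c hm).map.continuous
    (K' := c'.incl.map ⁻¹' B') (c'.isEmbedding_incl.isInducing.isCompact_preimage' hB'
      fun x hx => by
        obtain ⟨t, rfl⟩ := Y'.surj x
        exact c'.mem_range_incl.2 (h5 t hx)) (K := c.incl.map ⁻¹' B)
    (fun x hx => by rw [mem_preimage, FP.incl_mor]; exact h2 hx) fun x hx =>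
      ((c'.incl.map.continuous.tendsto x).eventually (h4 _ hx)).mono fun y hy h6 => hy
        ⟨⟨_, c'.fix _ (c'.orb.out y).2, rfl⟩, by rwa [mem_preimage, ← c'.incl_mor c hm]⟩
  have hm' : ∀ t ∈ (c'.ovr o').S, m.f t ∈ (c.ovr o).S := fun t ⟨ht, h6⟩ =>
    ⟨hm t ht, (c'.mor c hm).map_π ⟨t, ht⟩ ▸ hW h6⟩
  have sq : ∀ x, (c.ovrI o).map (((c'.ovr o').mor (c.ovr o) hm').map x) =
      (c'.mor c hm).map ((c'.ovrI o').map x) := fun x => by
    obtain ⟨x, rfl⟩ := (c'.ovr o').orb.surj x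
    simp only [Mor.map_π]
    rfl
  refine ⟨c'.ovr o', c.ovr o, hm', rfl, ⟨ContinuousMap.continuous _, fun C hC => ?_⟩,
    fun t ht => ⟨h1 t ht, k (by rwa [mem_preimage, FP.incl_π])⟩,
    fun t ht => ⟨h5 t ht, k' (by rwa [mem_preimage, FP.incl_π])⟩, fun t ⟨ht, h6⟩ h7 => ?_⟩
  · have h6 := (c'.isEmbedding_ovrI o').isInducing.isCompact_preimage' (hp _
      ((image_subset_range _ _).trans (c.range_ovrI o).le) (hC.image (c.ovrI o).map.continuous))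
      (inter_subset_left.trans (c'.range_ovrI o').ge)
    refine (congrArg IsCompact (Set.ext fun x => ?_)).mp h6
    rw [mem_preimage, mem_inter_iff, mem_preimage, ← sq,
      (c.isEmbedding_ovrI o).injective.mem_set_image]
    exact and_iff_right ((c'.range_ovrI o').le ⟨x, rfl⟩)
  · have h8 := hK ⟨h6, by rwa [mem_preimage, mem_preimage, FP.incl_mor, FP.incl_π, m.map_π]⟩
    rwa [mem_preimage, FP.incl_π] at h8

end Vale.Agent.P269.Loc
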