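import Vale.Agent.P269.Loc.FM
import Vale.Agent.P269.Ch.Tot

/-!
# The normal bundles of the fixed loci under an immersion
-/

namespace Vale.Agent.P269.Loc

open Set Function Topology Filter Module Vale.Agent.P291Z Vale.Agent.P269.Ch Vale.Agent.P269.Holo
  Vale.Agent.P269.Orb

/-- complements of `F' ⊆ T'` and of its image in `T` -/
theorem exists_normal {Z : Ch.Sp} {F' T' T ν : VB Z} {I : Z.T → F'.W →ₗ[ℂ] T'.W}
    {L : Z.T → T'.W →ₗ[ℂ] T.W} {q : Z.T → T.W →ₗ[ℂ] ν.W} {F : Z.T → Submodule ℂ T.W}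
    (hI : Hom (Mor.id Z) F' T' I) (inj : ∀ t w, w ∈ F'.F t → I t w = 0 → w = 0)
    (hL : Hom (Mor.id Z) T' T L) (hq : Hom (Mor.id Z) T ν q)
    (hs : ∀ t w, w ∈ ν.F t → ∃ v ∈ T.F t, q t v = w)
    (h1 : ∀ t v, v ∈ F t ↔ ∃ a ∈ F'.F t, L t (I t a) = v)
    (h2 : ∀ t, ∀ v ∈ T.F t, q t v = 0 ↔ ∃ a ∈ T'.F t, L t a = v)
    (h3 : ∀ t, ∀ v ∈ T'.F t, L t v = 0 → ∃ a ∈ F'.F t, I t a = v) :
    ∃ (N : VB Z) (S : Z.T → N.W →ₗ[ℂ] T'.W) (C : Z.T → (N.sum ν).W →ₗ[ℂ] T.W),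
      Hom (Mor.id Z) N T' S ∧ (∀ t, ∀ w ∈ N.F t, ∀ a ∈ F'.F t, I t a = S t w → w = 0) ∧
      (∀ t, ∀ v ∈ T'.F t, ∃ w ∈ N.F t, ∃ a ∈ F'.F t, I t a = v - S t w) ∧
      Hom (Mor.id Z) (N.sum ν) T C ∧ (∀ t, ∀ w ∈ (N.sum ν).F t, C t w ∈ F t → w = 0) ∧
      ∀ t, ∀ v ∈ T.F t, ∃ w ∈ (N.sum ν).F t, v - C t w ∈ F t := by
  obtain ⟨N, B, -, hx⟩ := hI.exists_coker inj
  obtain ⟨R, S, hR, hS, -, b1, -, b2, -⟩ := hx.exists_split
  obtain ⟨s, k1, k2⟩ := hq.exists_sect hs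
  have a1 : ∀ t, ∀ w ∈ N.F t, ∀ a ∈ F'.F t, I t a = S t w → w = 0 := fun t w hw a ha e =>
    (b1 t w hw).symm.trans ((hx.ex t _ (hS.mem t w hw)).2 ⟨a, ha, e⟩)
  have k3 := (hL.comp hS).comp (hom_fst N ν)
  have k4 := k1.comp (hom_snd N ν)
  refine ⟨N, S, fun t => (L t ∘ₗ S t).coprod (s t), hS, a1, fun t v hv => ⟨B t v, hx.hB.mem t v hv,
    R t v, hR.mem t v hv, eq_sub_of_add_eq (b2 t v hv)⟩, ⟨fun t w hw => add_mem (k3.mem t w hw)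
      (k4.mem t w hw), k3.cont.add k4.cont, fun g t w hw => (congrArg₂ (· + ·) (k3.eqv g t w hw)
        (k4.eqv g t w hw)).trans (smul_add _ _ _).symm⟩, fun t w hw e => ?_, fun t v hv => ?_⟩
  · obtain ⟨a, ha, e⟩ := (h1 t _).1 e
    replace e : L t (I t a) = L t (S t w.1) + s t w.2 := e
    have m1 : I t a ∈ T'.F t := hI.mem t a ha
    have m2 : S t w.1 ∈ T'.F t := hS.mem t _ hw.1
    have e2 : w.2 = 0 := by
      have := congrArg (q t) e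
      rwa [map_add, k2 t _ hw.2, (h2 t _ (hL.mem t _ m1)).2 ⟨_, m1, rfl⟩,
        (h2 t _ (hL.mem t _ m2)).2 ⟨_, m2, rfl⟩, zero_add, eq_comm] at this
    rw [e2, map_zero, add_zero, eq_comm, ← sub_eq_zero, ← map_sub] at e
    obtain ⟨b, hb, e'⟩ := h3 t _ (sub_mem m2 m1) e
    exact Prod.ext (a1 t _ hw.1 (b + a) (add_mem hb ha) (by rw [map_add, e', sub_add_cancel])) e2
  · have m1 : q t v ∈ ν.F t := hq.mem t v hv
    obtain ⟨a, ha, e⟩ := (h2 t _ (sub_mem hv (k1.mem t _ m1))).1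
      (by rw [map_sub, k2 t _ m1, sub_self])
    refine ⟨(B t a, q t v), ⟨hx.hB.mem t a ha, m1⟩, (h1 t _).2 ⟨R t a, hR.mem t a ha, ?_⟩⟩
    rw [eq_sub_of_add_eq (b2 t a ha), map_sub, e, sub_right_comm, sub_sub]
    rfl

theorem map_eq_ker {A' A W : Type} [AddCommGroup A'] [Module ℂ A'] [AddCommGroup A] [Module ℂ A]
    [FiniteDimensional ℂ A] [AddCommGroup W] [Module ℂ W] {L : A' →ₗ[ℂ] A} {q : A →ₗ[ℂ] W}
    {T' : Submodule ℂ A'} {T : Submodule ℂ A} {V : Submodule ℂ W} (h1 : ∀ v ∈ T', L v ∈ T)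
    (h2 : ∀ v ∈ T', q (L v) = 0) (h3 : ∀ v ∈ T, q v ∈ V) (h4 : ∀ w ∈ V, ∃ v ∈ T, q v = w)
    (h5 : finrank ℂ (T'.map L) + finrank ℂ V = finrank ℂ T) {v : A} (hv : v ∈ T) :
    q v = 0 ↔ ∃ a ∈ T', L a = v := by
  refine ⟨fun h0 => ?_, by rintro ⟨a, ha, rfl⟩; exact h2 a ha⟩
  have h := LinearMap.finrank_range_add_finrank_ker (q.domRestrict T)
  rw [LinearMap.range_domRestrict, show T.map q = V from le_antisymm
    (by rintro _ ⟨w, hw, rfl⟩; exact h3 w hw) h4, LinearMap.ker_domRestrict,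
    ← Submodule.finrank_map_subtype_eq, Submodule.map_comap_subtype] at h
  exact (Submodule.eq_of_le_of_finrank_eq (S₁ := T'.map L) (S₂ := T ⊓ LinearMap.ker q)
    (by rintro _ ⟨w, hw, rfl⟩; exact ⟨h1 w hw, h2 w hw⟩) (by omega)).ge ⟨hv, h0⟩

variable {σ : Type} [Fintype σ] {Y' Y : HO} {h' : TH σ Y'} {h : TH σ Y} {m : Mor Y'.toSp Y.toSp}
  (e : Imm m) (he : h.toTS.IsEq h'.toTS m) (hb : ∀ s v, e.L (h'.b s v) = h.b s (e.L v))

/-- the self-intersection formula for a model of the normal bundle -/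
theorem FP.selfInt0 (c : FP h) {M : ℕ} {θ : Coch (c.UB M)} {d : ℕ}
    (hθ : IsCo (range (c.iU M)) d θ)
    (e : gys (c.iU M) θ (res Subtype.val (h.fundB M)) = c.hS.fundB M) {Z : Ch.Sp}
    (m : Mor Z (c.hS.toTS.B M)) {K : VB Z} {C : Z.T → K.W →ₗ[ℂ] (h.bo M).A}
    (hC : Hom ((c.inB M).comp m) K (h.bo M).tanB C)
    (ex : ∀ t, ∀ w ∈ K.F t, C t w ∈ tan (c.hS.bo M).ι (m.f t) → w = 0)
    (surj : ∀ t, ∀ v ∈ tan (h.bo M).ι ((c.inB M).f (m.f t)), ∃ w ∈ K.F t,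
      v - C t w ∈ tan (c.hS.bo M).ι (m.f t)) :
    K.eu.1 = hcls (pull (c.iU M ∘ m.map) θ) := by
  have := c.selfInt hθ e m (K := trivB Z (Fin 0 → ℂ)) (A := fun _ => 0)
    (Hom.of_continuous (fun _ _ _ => zero_mem _) continuous_const fun _ _ _ _ => (smul_zero _).symm)
    (fun _ w _ _ => Subsingleton.elim (α := Fin 0 → ℂ) w 0) hC (fun t w hw =>
      ⟨fun a => ⟨0, zero_mem _, (ex t w hw a).symm⟩, by
        rintro ⟨_, -, rfl⟩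
        exact (map_zero (C t)).symm ▸ zero_mem _⟩) surj
  rw [this, VB.eu_eq_one _ (finrank_fin_fun ℂ)]
  exact one_mul _

theorem Imm.mem_tan_iff {Y' Y : HO} {m : Mor Y'.toSp Y.toSp} (e : Imm m) (hn : Y'.n = Y.n)
    (t : Y'.T) (v : Y.A) : v ∈ tan Y.ι (m.f t) ↔ ∃ a ∈ tan Y'.ι t, e.L a = v :=
  (SetLike.ext_iff.1 (Submodule.eq_of_le_of_finrank_eq
    (S₁ := (tan Y'.ι t).map (e.L : Y'.A →ₗ[ℂ] Y.A)) (S₂ := tan Y.ι (m.f t))
    (by rintro _ ⟨w, hw, rfl⟩; exact e.mem_tan hw)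
    (by rw [e.finrank_map, (Y.mfd _).finrank_tan, hn])) v).symm

/-- **the normal bundles of the fixed loci** -/
theorem Imm.thom (c' : FP h') (c : FP h) (hm : ∀ t ∈ c'.S, m.f t ∈ c.S) (hn : c'.n = c.n) {M : ℕ}
    {ν : VB (h'.toTS.B M)} (hr : Y'.n + ν.r = Y.n) {q : (h'.toTS.B M).T → (h.bo M).A →ₗ[ℂ] ν.W}
    (hq : Hom (Mor.id _) ((h.bo M).tanB.pb (he.bo (pm σ M))) ν q)
    (hs : ∀ x, ∀ w ∈ ν.F x, ∃ v ∈ tan (h.bo M).ι ((he.bo (pm σ M)).f x), q x v = w)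
    (hk : ∀ x, ∀ v ∈ tan (h'.bo M).ι x, q x ((e.bo he hb M).L v) = 0)
    {θ : Coch (c.UB M)} {d : ℕ} (hθ : IsCo (range (c.iU M)) d θ)
    (e1 : gys (c.iU M) θ (res Subtype.val (h.fundB M)) = c.hS.fundB M)
    {θ' : Coch (c'.UB M)} {d' : ℕ} (hθ' : IsCo (range (c'.iU M)) d' θ')
    (e2 : gys (c'.iU M) θ' (res Subtype.val (h'.fundB M)) = c'.hS.fundB M) :
    hcls (pull (c.iU M ∘ (c'.morB c hm he M).map) θ) =
      hcls (pull (c'.iU M) θ') * H.map (c'.inB M).map ν.eu.1 := by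
  have le : ∀ x, tan (c'.hS.bo M).ι x ≤ tan (h'.bo M).ι ((c'.inB M).f x) := fun x =>
    tan_le_of_comp (ι := (h'.bo M).ι) (u := (c'.inB M).f) (c'.inB M).cf.continuousAt
  obtain ⟨N, S, C, a1, a2, a3, a4, a5, a6⟩ := exists_normal (Z := c'.hS.toTS.B M)
    (F' := (c'.hS.bo M).tanB) (T' := (h'.bo M).tanB.pb (c'.inB M))
    (T := ((h.bo M).tanB.pb (he.bo (pm σ M))).pb (c'.inB M)) (ν := ν.pb (c'.inB M))
    (I := fun _ => LinearMap.id) (L := fun _ => ((e.bo he hb M).L : (h'.bo M).A →ₗ[ℂ] (h.bo M).A))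
    (q := fun x => q ((c'.inB M).f x))
    (F := fun x => tan (c.hS.bo M).ι ((c'.morB c hm he M).f x))
    (Hom.of_continuous le continuous_snd fun _ _ _ _ => rfl) (fun _ _ _ a => a)
    ((e.bo he hb M).hom.pb.pb' _) (hq.pb' _) (fun x => hs _)
    (fun x => ((c'.imm c hm e).bo (c'.isEq_mor c hm he) hb M).mem_tan_iff (congrArg (· + _) hn) x)
    (fun x v hv => map_eq_ker (fun _ => (e.bo he hb M).mem_tan) (hk _) (hq.mem _) (hs _)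
      ((congrArg₂ (· + ·) ((e.bo he hb M).finrank_map _) (ν.rank _)).trans (Eq.trans (by
        change _ + (Y'.n + _) + _ = _ + (Y.n + _)
        omega) ((h.bo M).mfd _).finrank_tan.symm)) hv)
    fun x v hv h0 => by
      obtain ⟨y, hy⟩ := (e.bo he hb M).imm _ v hv (mem_of_eq_of_mem h0 (zero_mem _))
      exact ⟨v, mem_of_eq_of_mem hy.symm ((c'.hS.bo M).inf_mem_tan x y), rfl⟩
  have b1 := c'.selfInt0 hθ' e2 (Mor.id _) (K := N) (C := S) ⟨a1.mem, a1.cont, a1.eqv⟩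
    (fun t w hw a => a2 t w hw _ a rfl) fun t v hv =>
      let ⟨w, hw, _, ha, e⟩ := a3 t v hv
      ⟨w, hw, mem_of_eq_of_mem e.symm ha⟩
  have b2 := c.selfInt0 hθ e1 (c'.morB c hm he M) (K := N.sum (ν.pb (c'.inB M))) (C := C)
    ⟨a4.mem, a4.cont, a4.eqv⟩ a5 a6
  rw [← b2, VB.eu_sum, VB.eu_pb, ← show c'.iU M ∘ (Mor.id _).map = c'.iU M from
    funext fun x => congrArg _ (Mor.map_id _ x), ← b1]
  rfl

end Vale.Agent.P269.Loc
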