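import Vale.Agent.P269.Loc.EV
import Vale.Agent.P269.Loc.ImmG
import Vale.Agent.P269.Loc.ImmN

/-!
# Local contributions under immersions
-/

set_option linter.unusedSectionVars false

namespace Vale.Agent.P269.LG

open Set Function Topology Filter Module MvPolynomial TensorProduct Vale.Agent.P291Z
  Vale.Agent.P269.Ch Vale.Agent.P269.Orb Vale.Agent.P269.Loc Vale.Agent.P269.Holo

theorem imm_alg {D D' : Type} [TopologicalSpace D] [TopologicalSpace D'] [Nice D] [Nice D']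
    [CompactSpace D] [CompactSpace D'] (φ : C(D', D)) {γ η : BM D} {γ' η' : BM D'}
    {Θ P Q b n : Hev D} {Θ' b' ε : Hev D'} (h1 : cap Θ.1 γ = cap P.1 η) (h2 : b * Θ = P)
    (h1' : cap Θ'.1 γ' = cap (Hev.map φ Q).1 η') (h2' : b' * Θ' = Hev.map φ Q)
    (h3 : push φ η' = cap n.1 η) (h4 : Hev.map φ Θ = Θ' * ε) {y : H D} {y' : H D'}
    (hy : y' * ε.1 = H.map φ y) :
    intg γ' (y' * (Hev.map φ (P * Q * P)).1) = intg γ (y * (n * (Q * Q * P)).1) := by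
  have e1 : Hev.map φ (P * Q * P) = Hev.map φ (P * P) * b' * Θ' := by
    rw [mul_assoc _ b', h2', ← map_mul, mul_right_comm]
  have e2 : Hev.map φ (P * P) * b' * Hev.map φ Q = ε * Hev.map φ (P * b * Q * Q) := by
    simp only [map_mul]
    rw [show Hev.map φ P * Hev.map φ P = Hev.map φ P * (Hev.map φ b * (Θ' * ε)) by
      rw [← h4, ← map_mul _ b, h2]]
    linear_combination Hev.map φ P * Hev.map φ b * ε * Hev.map φ Q * h2'
  have e3 : n * (Q * Q * P) = n * (Q * Q * b) * Θ := by rw [← h2]; ring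
  have e4 : n * (Q * Q * b) * P = P * b * Q * Q * n := by ring
  have c : ∀ a b : Hev D, (a * b).1 = a.1 * b.1 := fun _ _ => rfl
  have c' : ∀ a b : Hev D', (a * b).1 = a.1 * b.1 := fun _ _ => rfl
  rw [e1, e3, c' _ Θ', c _ Θ, ← mul_assoc, ← mul_assoc, ← intg_cap γ, ← intg_cap γ', h1, h1', intg_cap,
    intg_cap, mul_assoc, mul_assoc y, ← c, ← c', e2, e4, c' ε, c _ n, ← mul_assoc, ← mul_assoc, hy,
    ← intg_cap η, ← h3, intg_push, map_mul (H.map φ)]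
  rfl

theorem _root_.Vale.Agent.P269.Loc.Cnt.congr {Y' Y : Ch.Sp} {m : Mor Y' Y} {B B' : Set Y'.T}
    {t : Y.T} {n : ℕ} (h : Cnt m B t n) (e : ∀ t', m.f t' = t → (t' ∈ B ↔ t' ∈ B')) :
    Cnt m B' t n :=
  let ⟨f, h1, h2⟩ := h
  ⟨f, fun k => ⟨(e _ (h1 k).2).1 (h1 k).1, (h1 k).2⟩, fun t' ht e' => h2 t' ((e _ e').2 ht) e'⟩

variable {σ : Type} [Fintype σ] {K : Type} [Field K] [Algebra ℂ K] {χ : R σ →ₐ[ℂ] K}
  {X X' : ℕ → Type} [∀ M, TopologicalSpace (X M)] [∀ M, Nice (X M)] [∀ M, TopologicalSpace (X' M)]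
  [∀ M, Nice (X' M)] {A A' : Type} [TopologicalSpace A] [Nice A] [CompactSpace A]
  [TopologicalSpace A'] [Nice A'] [CompactSpace A'] {Y' Y : HO} {h' : TH σ Y'} {h : TH σ Y}
  {Zs : Set Y.T} {j : ∀ M, C(X M, (h.toTS.B M).X)} {g : C(A, Y.X)} {i : ∀ M, C(A × Bs σ M, X M)}

/-- open parts -/
theorem Pc.part (hP : Pc h.toTS Zs j g i) {e : C(A', A)} (he : IsOpenEmbedding e) :
    Pc h.toTS Zs j (g.comp e) fun M => (i M).comp (pr e M) :=
  ⟨hP.emb, hP.rng, hP.inj.comp he.injective, (range_comp_subset_range e g).trans hP.sub,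
    isol_comp (g.continuous.isClosedEmbedding hP.inj).isInducing hP.isol
      (Isol.of_isOpen he.isOpen_range Subset.rfl inter_subset_left),
    fun M z t p e' => hP.eq M (e z) t p e'⟩

/-- a cocycle that is supported on the fixed locus near `A` -/
structure Cut (h : TH σ Y) {M : ℕ} (k : A × Bs σ M → (h.toTS.B M).X) (u : Coch (h.toTS.B M).X) :
    Prop where
  cyc : supp (δ u) = ∅
  deg : ∃ N : ℕ, IsDeg (2 * N) u
  sup : ∀ z, ∀ᶠ y in 𝓝 (k z), y ∈ supp u → y ∈ h.toTS.ov h.toTS.Fix M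

theorem Pc.fp_loc (hP : Pc h.toTS Zs j g i) (c : FP h) {M : ℕ}
    {κ : C(A × Bs σ M, (c.hS.toTS.B M).X)} (hκ : ∀ z, (c.inB M).map (κ z) = j M (i M z))
    {t u : Coch (h.toTS.B M).X} {d : ℕ} (ht : LCo (range (j M)) t) (hd : IsDeg (2 * d) t)
    (hu : Cut h (j M ∘ i M) u) {θ : Coch (c.UB M)} {d' : ℕ} (hθ : IsCo (range (c.iU M)) d' θ)
    (e : gys (c.iU M) θ (res Subtype.val (h.fundB M)) = c.hS.fundB M) :
    IsClosedEmbedding κ ∧ LCo (range κ) (pull (c.inB M).map t) ∧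
      cap (hcls (pull (c.iU M ∘ κ) θ)) (lgys (i M) (pull (j M) u) (lgys (j M) t (h.fundB M))) =
        cap (hcls (pull (j M ∘ i M) u)) (lgys κ (pull (c.inB M).map t) (c.hS.fundB M)) ∧
      ∃ b ∈ Hev _, b * hcls (pull (c.iU M ∘ κ) θ) = hcls (pull (j M ∘ i M) u) := by
  have k1 := isClosedEmbedding_of_comp (c.isEmbedding_inB M) hκ ((hP.emb M).comp (hP.emb_i M))
  obtain ⟨N, hN⟩ := hu.deg
  have hs : ∀ z, ∀ᶠ y in 𝓝 (j M (i M z)), y ∈ supp u → y ∈ range (c.inB M).map := fun z => by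
    filter_upwards [hu.sup z, (c.isOpen_UB M).mem_nhds
      (hκ z ▸ (c.iU M (κ z)).2 : j M (i M z) ∈ c.UB M)] with y y1 y2 y3
    obtain ⟨x, hx, rfl⟩ := y1 y3
    exact c.mem_range_inB.2 (c.mem_S_of hx (c.mem_UB.1 y2))
  obtain ⟨-, l1, l2⟩ := core_loc (c.isOpenEmbedding_UB M) (c.isClosedEmbedding_iU M) (hP.emb M)
    (hP.emb_i M) k1 (fun z => (hκ z).symm) (by
      have := (hP.isol_ov M).preimage (c.inB M).map.continuous
      rw [show j M ∘ i M = (c.inB M).map ∘ κ from funext fun z => (hκ z).symm, range_comp,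
        preimage_image_eq _ (c.isEmbedding_inB M).injective] at this
      refine this.mono fun y hy => ?_
      obtain ⟨y, rfl⟩ := (c.hS.toTS.B M).surj y
      have e := (c.inB M).map_π y
      exact ⟨_, ⟨c.fix _ y.1.2, (hP.rng M _).1 (e ▸ hy)⟩, e.symm⟩) ht hd hθ hu.cyc hN hs (h.fundB M)
  obtain ⟨b, b1, b2⟩ := core_inv (c.isClosedEmbedding_iU M) κ.continuous
    (N := (Y.n + Fintype.card σ * M : ℕ)) ((h.oriB M).deg.res Subtype.val) hθ (e ▸ c.hS.oriB M)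
    (cocycle_pull continuous_subtype_val hu.cyc) (hN.pull _) fun z =>
      (continuous_subtype_val.continuousAt.eventually (hκ z ▸ hs z :)).mono fun y hy h' =>
        c.mem_range_iU.2 (hy (supp_pull continuous_subtype_val u h'))
  rw [pull_pull, show Subtype.val ∘ c.iU M ∘ κ = j M ∘ i M from funext hκ] at b2
  exact ⟨k1, l1, e ▸ l2, b, b1, b2⟩

theorem Pc.exists_kap (hP : Pc h.toTS Zs j g i) (c : FP h) (hc : ∀ t, Y.π t ∈ range g → t ∈ c.S)
    (M : ℕ) : ∃ κ : C(A × Bs σ M, (c.hS.toTS.B M).X), ∀ z, (c.inB M).map (κ z) = j M (i M z) := by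
  have h1 : ∀ z, j M (i M z) ∈ range (c.inB M).map := fun z => by
    obtain ⟨x, -, -, e, -, e'⟩ := hP.exists_rep M z
    exact e' ▸ c.mem_range_inB.2 (hc _ ⟨_, e⟩)
  exact ⟨⟨fun z => (c.isEmbedding_inB M).toHomeomorph.symm ⟨_, h1 z⟩, by fun_prop⟩, fun z =>
    congrArg Subtype.val ((c.isEmbedding_inB M).toHomeomorph.apply_symm_apply ⟨_, h1 z⟩)⟩

variable {m : Mor Y'.toSp Y.toSp} (e : Imm m) (he : h.toTS.IsEq h'.toTS m)
  (hb : ∀ s v, e.L (h'.b s v) = h.b s (e.L v))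

/-- a model of the normal bundle of the immersion of the Borel constructions -/
structure IsNb {M : ℕ} (ν : VB (h'.toTS.B M)) : Prop where
  rank : Y'.n + ν.r = Y.n
  ex : ∃ q : (h'.toTS.B M).T → (h.bo M).A →ₗ[ℂ] ν.W,
    Hom (Mor.id _) ((h.bo M).tanB.pb (he.bo (pm σ M))) ν q ∧
    (∀ x, ∀ w ∈ ν.F x, ∃ v ∈ tan (h.bo M).ι ((he.bo (pm σ M)).f x), q x v = w) ∧
    ∀ x, ∀ v ∈ tan (h'.bo M).ι x, q x ((e.bo he hb M).L v) = 0

theorem isNb_zero (hn : Y'.n = Y.n) (M : ℕ) : IsNb e he hb (trivB (h'.toTS.B M) PUnit) :=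
  ⟨by rw [← hn]; exact congrArg _ finrank_zero_of_subsingleton, fun _ => 0,
    Hom.of_continuous (fun _ _ _ => trivial) continuous_const fun _ _ _ _ => rfl,
    fun _ _ _ => ⟨0, zero_mem _, rfl⟩, fun _ _ _ => rfl⟩

theorem hom_of_cont {Z' Z : Ch.Sp} {m : Mor Z' Z} {E' : VB Z'} {E : VB Z}
    {A : Z'.T → E'.W →ₗ[ℂ] E.W} (mem : ∀ t w, w ∈ E'.F t → A t w ∈ E.F (m.f t))
    (cont : ∀ (f : E'.V → Z'.T) (g : E'.V → E'.W), Continuous f → Continuous g →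
      (∀ z, g z ∈ E'.F (f z)) → Continuous fun z => A (f z) (g z))
    (eqv : ∀ (g : Z'.G) t w, w ∈ E'.F t → A (g • t) (g • w) = m.ρ g • A t w) : Hom m E' E A :=
  ⟨mem, cont _ _ (by fun_prop) (by fun_prop) fun x => x.2, eqv⟩

/-- an equivariant model of the normal bundle -/
theorem isNb_bo {ν : VB Y'.toSp} (b : TV h'.toTS ν) (hr : Y'.n + ν.r = Y.n)
    {q : Y'.T → Y.A →ₗ[ℂ] ν.W} (hq : Hom (Mor.id _) (Y.tanB.pb m) ν q)
    (ht : ∀ s t, ∀ v ∈ tan Y.ι (m.f t), q (h'.a s t) (h.b (ph s) v) = b.b s (q t v))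
    (hs : ∀ t, ∀ w ∈ ν.F t, ∃ v ∈ tan Y.ι (m.f t), q t v = w)
    (hk : ∀ t, ∀ v ∈ tan Y'.ι t, q t (e.L v) = 0) (M : ℕ) : IsNb e he hb (b.bo (pm σ M)) := by
  refine ⟨hr, fun x => q x.1 ∘ₗ h.b x.2.nrm⁻¹ ∘ₗ LinearMap.fst ℂ _ _,
    hom_of_cont (fun x v hv => hq.mem _ _ ((h.mem_tan_bo M).1 hv)) (fun f g h1 h2 h3 =>
      hq.continuous (continuous_fst.comp h1) (h.continuous_b
        (PM.continuous_nrm.comp (continuous_snd.comp h1)).inv (continuous_fst.comp h2))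
      fun x => (h.mem_tan_bo M).1 (h3 x)) fun k x v hv => ?_, fun x w hw => ?_, fun x v hv => ?_⟩
  · have h1 : h.b x.2.nrm⁻¹ v.1 ∈ tan Y.ι (m.f x.1) := (h.mem_tan_bo M).1 hv
    have h2 := h.mem_tan k.2 _ _ h1
    change q (k.1 • h'.a k.2 x.1) (h.b (PM.nrm (k.2 • x.2))⁻¹ (m.ρ k.1 • h.b k.2 v.1)) =
      k.1 • b.b k.2 (q x.1 (h.b x.2.nrm⁻¹ v.1))
    rw [← ht _ _ _ h1, PM.nrm_smul, h.bcomm, ← End.mul_apply, ← End.mul_apply (h.b _), ← map_mul,
      mul_inv, mul_right_comm, map_mul, End.mul_apply, End.mul_apply]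
    exact hq.eqv k.1 _ _ ((he k.2 x.1).symm ▸ h2 :)
  · obtain ⟨v, h1, h2⟩ := hs x.1 w hw
    refine ⟨(h.b x.2.nrm v, 0), (h.mem_tan_bo M).2 ((h.b_inv x.2.nrm v).symm ▸ h1), ?_⟩
    exact (congrArg (q x.1) (h.b_inv x.2.nrm v)).trans h2
  · exact (congrArg (q x.1) (hb _ _).symm).trans (hk _ _ ((h'.mem_tan_bo M).1 hv))

variable {j' : ∀ M, C(X' M, (h'.toTS.B M).X)} {g' : C(A', Y'.X)} {i' : ∀ M, C(A' × Bs σ M, X' M)}
  (hP : Pc h.toTS Zs j g i) (hP' : Pc h'.toTS (m.f ⁻¹' Zs) j' g' i') {φ : C(A', A)}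
  (hφ : ∀ z, g (φ z) = m.map (g' z)) (hf : ∀ z, ∃ t, Y'.π t = g' z ∧ e.Fl h' h t)

include hP hP' hφ in
theorem Pc.sq (M : ℕ) (z : A' × Bs σ M) :
    j M (i M (pr φ M z)) = (he.bo (pm σ M)).map (j' M (i' M z)) := by
  obtain ⟨x, -, -, e1, e2, e3⟩ := hP'.exists_rep M z
  rw [e3, Mor.map_π, show pr φ M z = (φ z.1, bp x.2) from Prod.ext rfl e2]
  exact hP.eq M _ _ _ (by rw [hφ, e1, Mor.map_π])

/-- the comparison at a finite level -/
def Lev (n : A → ℕ) (M : ℕ) : Prop :=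
  ∀ {ν : VB (h'.toTS.B M)}, IsNb e he hb ν → ∀ {t u : Coch (h.toTS.B M).X} {d : ℕ},
    LCo (range (j M)) t → IsDeg (2 * d) t → Cut h (j M ∘ i M) u → ∀ {u' : Coch (h'.toTS.B M).X},
    Cut h' (j' M ∘ i' M) u' → ∀ {P Q : Hev (A × Bs σ M)}, hcls (pull (j M ∘ i M) u) = P →
    hcls (pull (j' M ∘ i' M) u') = Hev.map (pr φ M) Q → ∀ y y',
    y' * H.map ((j' M).comp (i' M)) ν.eu.1 = H.map (pr φ M) y →
    intg (lgys (i' M) (pull (j' M) u') (lgys (j' M) (pull (he.bo (pm σ M)).map t) (h'.fundB M)))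
      (y' * H.map (pr φ M) (P * Q * P).1) =
    intg (lgys (i M) (pull (j M) u) (lgys (j M) t (h.fundB M)))
      (y * (hcls (fn fun z => (n z.1 : ℂ)) * (Q * Q * P).1))

include hP hP' hφ hf in
theorem imm_pure {k : ℕ} (hk : ∀ t, Y.π t ∈ range g → t ∈ (h.fp k).S) : ∃ n : A → ℕ,
    IsLocallyConstant n ∧ (∀ z t, g z = Y.π t → Cnt m {t' | Y'.π t' ∈ range g'} t (n z)) ∧
      ∀ M, Lev (j := j) (i := i) (j' := j') (i' := i') (φ := φ) e he hb n M := by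
  obtain ⟨c', c, hm, hn, hp, c1, c2, c3⟩ := e.exists_fp he hb (isCompact_range g'.continuous) hk
    (by rintro _ ⟨z, rfl⟩; exact ⟨_, hφ z⟩) (by rintro _ ⟨z, rfl⟩; exact hf z)
    (hP'.isol.mono (by
      rintro _ ⟨⟨t, ht, rfl⟩, h2⟩
      obtain ⟨s, hs, e'⟩ := hP.sub h2
      obtain ⟨γ, e''⟩ := (Y.fib _ _).1 (e'.trans (m.map_π t))
      exact ⟨t, ⟨ht, show m.f t ∈ Zs from e'' ▸ hP.inv.smul γ s hs.2⟩, rfl⟩))
  choose κ hκ using hP.exists_kap c c1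
  choose κ' hκ' using hP'.exists_kap c' c2
  choose n n1 n2 n3 using c'.push_fundB c hm he e hb hn hp
  have n4 : ∀ M z t p, g z = Y.π t → Cnt m {t' | Y'.π t' ∈ range g'} t (n M (κ M (z, bp p))) :=
    fun M z t p e' => by
      rw [show κ M (z, bp p) = (c.hS.toTS.B M).π (⟨t, c1 t ⟨z, e'⟩⟩, p) from
        (c.isEmbedding_inB M).injective ((hκ M _).trans ((hP.eq M z t p e').trans
          ((c.inB M).map_π (⟨t, c1 t ⟨z, e'⟩⟩, p)).symm))]
      exact (n2 M _).congr fun t' e'' => ⟨fun h => c3 t' h ⟨z, e'' ▸ e'⟩, c2 t'⟩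
  refine ⟨fun z => n 0 (κ 0 (z, bp PM.one)), (n1 0).comp_continuous (by fun_prop),
    fun z t => n4 0 z t _, fun M ν hν t u d ht hd hu u' hu' P Q e1 e2 y y' hy => ?_⟩
  obtain ⟨q, q1, q2, q3⟩ := hν.ex
  obtain ⟨θ, t1, t2⟩ := c.exists_thom M
  obtain ⟨θ', t1', t2'⟩ := c'.exists_thom M
  obtain ⟨k1, k2, k3, b, k4, k5⟩ := hP.fp_loc c (hκ M) ht hd hu t1 t2
  have r : range (j' M) = (he.bo (pm σ M)).map ⁻¹' range (j M) := Set.ext fun x => by
    obtain ⟨x, rfl⟩ := (h'.toTS.B M).surj x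
    rw [mem_preimage, Mor.map_π, hP.rng, hP'.rng]
    rfl
  obtain ⟨k1', -, k3', b', k4', k5'⟩ := hP'.fp_loc c' (hκ' M)
    (r ▸ ht.pull (he.bo (pm σ M)).map.continuous) (hd.pull _) hu' t1' t2'
  have s : ∀ z, (c'.morB c hm he M).map (κ' M z) = κ M (pr φ M z) := fun z =>
    (c.isEmbedding_inB M).injective (by rw [c'.inB_morB, hκ', hκ, hP.sq he hP' hφ])
  have th := congrArg (H.map (κ' M)) (e.thom he hb c' c hm hn hν.rank q1 q2 q3 t1 t2 t1' t2')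
  rw [map_mul, H.map_hcls _ (cocycle_pull ((c.iU M).continuous.comp
    (c'.morB c hm he M).map.continuous) t1.cocycle),
    H.map_hcls _ (cocycle_pull (c'.iU M).continuous t1'.cocycle), pull_pull, pull_pull, H.map_map,
    show (c'.inB M).map.comp (κ' M) = (j' M).comp (i' M) from ContinuousMap.ext (hκ' M),
    show (c.iU M ∘ (c'.morB c hm he M).map) ∘ κ' M = (c.iU M ∘ κ M) ∘ pr φ M from
      funext fun z => congrArg (c.iU M) (s z), ← pull_pull, ← H.map_hcls _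
      (cocycle_pull ((c.iU M).continuous.comp (κ M).continuous) t1.cocycle)] at th
  have ps := lgys_push k1 k2 k1' (c'.isPr_morB c hm he hp M) (IsPr.of_compact (pr φ M).continuous) s
    (fun x ⟨z, hz⟩ => by
      obtain ⟨x, rfl⟩ := (c'.hS.toTS.B M).surj x
      have := congrArg (c.inB M).map hz
      rw [hκ, c'.inB_morB, Mor.map_π, Mor.map_π] at this
      obtain ⟨z', hz'⟩ := (hP'.mem_range (x := (c'.inB M).f x)).2
        (c3 _ x.1.2 (hP.mem_range.1 ⟨z, this⟩))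
      exact ⟨z', (c'.isEmbedding_inB M).injective ((hκ' M z').trans
        (hz'.trans ((c'.inB M).map_π x).symm))⟩) (c'.hS.fundB M)
  rw [n3, lgys_cap k1 k2 (hd.pull _) (c := fn fun x => (n M x : ℂ))
    (cocycle_fn.2 ((n1 M).comp _)), pull_fn, pull_pull,
    show (c.inB M).map ∘ (c'.morB c hm he M).map = (he.bo (pm σ M)).map ∘ (c'.inB M).map from
      funext (c'.inB_morB c hm he M), ← pull_pull,
    show (fun x => (n M x : ℂ)) ∘ κ M = fun z => (n 0 (κ 0 (z.1, bp PM.one)) : ℂ) from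
      funext fun z => by
        obtain ⟨x, -, -, e3, e4, -⟩ := hP.exists_rep M z
        have := (n4 M z.1 x.1 x.2 e3).unique (n4 0 z.1 x.1 PM.one e3)
        rw [← e4] at this
        exact congrArg Nat.cast this] at ps
  rw [e1] at k3 k5
  rw [e2] at k3' k5'
  exact imm_alg (pr φ M) (Θ := ⟨_, mem_Hev (hcls_isDeg (t1.deg.pull _))⟩) (b := ⟨b, k4⟩)
    (n := ⟨_, fn_mem_Hev _⟩) (Θ' := ⟨_, mem_Hev (hcls_isDeg (t1'.deg.pull _))⟩) (b' := ⟨b', k4'⟩)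
    (ε := Hev.map ((j' M).comp (i' M)) ν.eu) k3 (Subtype.ext k5) k3' (Subtype.ext k5') ps.symm
    (Subtype.ext th) hy

include hP in
theorem Pc.exists_dim : ∃ d : A → ℕ, IsLocallyConstant d ∧
    ∀ z t, g z = Y.π t → t ∈ (h.fp (d z)).S := by
  have h1 : ∀ z, ∃ n, ∀ t, g z = Y.π t → t ∈ (h.fp n).S := fun z => by
    obtain ⟨s, hs, e⟩ := hP.sub ⟨z, rfl⟩
    obtain ⟨n, hn⟩ := h.exists_fp hs.1
    refine ⟨n, fun t e' => ?_⟩
    obtain ⟨γ, rfl⟩ := (Y.fib _ _).1 (e.trans e')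
    exact (h.fp n).S.smul_mem γ hn
  choose d hd using h1
  refine ⟨d, (IsLocallyConstant.iff_eventually_eq _).2 fun z => ?_, hd⟩
  obtain ⟨t, e⟩ := Y.surj (g z)
  filter_upwards [g.continuous.continuousAt
    (e ▸ Y.quo.isOpenMap.image_mem_nhds ((h.fp (d z)).opn t (hd z t e.symm)))] with w ⟨s, hs, e'⟩
  have := hd w s e'.symm
  exact h.fp_unique this (hs ((h.fp _).fix s this))

include hP hP' hφ hf in
theorem imm_lev : ∃ n : A → ℕ, IsLocallyConstant n ∧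
    (∀ z t, g z = Y.π t → Cnt m {t' | Y'.π t' ∈ range g'} t (n z)) ∧
      ∀ M, Lev (j := j) (i := i) (j' := j') (i' := i') (φ := φ) e he hb n M := by
  obtain ⟨d, d1, d2⟩ := hP.exists_dim
  have := d1.range_finite.fintype
  have o := fun k : range d => d1.isClopen_fiber k.1
  have o' := fun k => (o k).preimage φ.continuous
  have := fun k => Nice.of_isLocallyClosed (o k).isClosed.isLocallyClosed
  have := fun k => Nice.of_isLocallyClosed (o' k).isClosed.isLocallyClosed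
  have := fun k => isCompact_iff_compactSpace.1 (o k).isClosed.isCompact
  have := fun k => isCompact_iff_compactSpace.1 (o' k).isClosed.isCompact
  let v := fun k : range d => (⟨_, continuous_subtype_val⟩ : C({x | d x = k}, A))
  let v' := fun k : range d => (⟨_, continuous_subtype_val⟩ : C(φ ⁻¹' {x | d x = k}, A'))
  let ψ := fun k : range d => (⟨fun z => ⟨φ z.1, z.2⟩, by fun_prop⟩ :
    C(φ ⁻¹' {x | d x = k}, {x | d x = k}))
  have w := fun k => (o k).isOpen.isOpenEmbedding_subtypeVal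
  have w' := fun k => (o' k).isOpen.isOpenEmbedding_subtypeVal
  choose n n1 n2 n3 using fun k : range d => imm_pure e he hb (hP.part (e := v k) (w k))
    (hP'.part (e := v' k) (w' k)) (φ := ψ k) (fun z => hφ z.1) (fun z => hf z.1) (k := k.1)
    (by rintro t ⟨z, e'⟩; exact z.2 ▸ d2 z.1 t e')
  obtain ⟨N, n4⟩ : ∃ N : A → ℕ, ∀ k z, n k z = N z.1 := ⟨fun z => n ⟨_, z, rfl⟩ ⟨z, rfl⟩, by
    rintro ⟨k, _⟩ ⟨z, hz⟩
    obtain rfl : d z = k := hz
    rfl⟩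
  have l : IsLocallyConstant N := (IsLocallyConstant.iff_eventually_eq _).2 fun z => by
    have := ((n1 ⟨_, z, rfl⟩).eventually_eq ⟨z, rfl⟩).mono fun x hx =>
      (n4 _ x).symm.trans (hx.trans (n4 _ _))
    exact (w ⟨_, z, rfl⟩).map_nhds_eq ⟨z, rfl⟩ ▸ eventually_map.2 this
  refine ⟨N, l, fun z t e' => (n4 ⟨_, z, rfl⟩ ⟨z, rfl⟩ ▸ n2 ⟨_, z, rfl⟩ ⟨z, rfl⟩ t e').congr
    fun t' e'' => ⟨fun ⟨x, hx⟩ => ⟨x.1, hx⟩, fun ⟨x, hx⟩ => ⟨⟨x, congrArg d (hP.inj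
      (by rw [hφ, hx, Mor.map_π, e'', e']))⟩, hx⟩⟩,
    fun M ν hν t u _ ht hd hu u' hu' P Q e1 e2 y y' hy => ?_⟩
  have r : range (j' M) = (he.bo (pm σ M)).map ⁻¹' range (j M) := Set.ext fun x => by
    obtain ⟨x, rfl⟩ := (h'.toTS.B M).surj x
    rw [mem_preimage, Mor.map_π, hP.rng, hP'.rng]
    rfl
  have key : ∀ {A : Type} [TopologicalSpace A] {S : range d → Set A} (hS : ∀ k, IsClopen (S k)) k,
      IsOpenEmbedding (pr (σ := σ) (⟨_, continuous_subtype_val⟩ : C(S k, A)) M) ∧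
      IsClosed (range (pr (σ := σ) (⟨_, continuous_subtype_val⟩ : C(S k, A)) M)) ∧
      ∀ x, x ∈ range (pr (σ := σ) (⟨_, continuous_subtype_val⟩ : C(S k, A)) M) ↔ x.1 ∈ S k :=
    fun hS k => ⟨(hS k).isOpen.isOpenEmbedding_subtypeVal.prodMap IsOpenEmbedding.id,
      ((hS k).isClosed.isClosedEmbedding_subtypeVal.prodMap IsClosedEmbedding.id).isClosed_range,
      fun x => ⟨fun ⟨y, e⟩ => e ▸ y.1.2, fun hx => ⟨(⟨x.1, hx⟩, x.2), rfl⟩⟩⟩
  have lc : ∀ {Y : HO} {h : TH σ Y} {A : Type} [TopologicalSpace A] [Nice A] [CompactSpace A]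
      {X : ℕ → Type} [∀ M, TopologicalSpace (X M)] [∀ M, Nice (X M)] {Zs j g}
      {i : ∀ M, C(A × Bs σ M, X M)}, Pc h.toTS Zs j g i → ∀ {u}, Cut h (j M ∘ i M) u →
      LCo (range (i M)) (pull (j M) u) := fun {Y h A _ _ _ X _ _ Zs j g i} hP u hu =>
    LCo.of_cocycle (cocycle_pull (j M).continuous hu.cyc) (by
      rintro _ ⟨z, rfl⟩
      filter_upwards [(j M).continuous.continuousAt.eventually
        ((hu.sup z).and (hP.isol_ov M _ ⟨z, rfl⟩))] with y hy h'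
      obtain ⟨x, hx, e⟩ := hy.1 (supp_pull (j M).continuous u h')
      obtain ⟨z', e'⟩ := hy.2 ⟨x, ⟨hx, (hP.rng M x).1 ⟨y, e.symm⟩⟩, e⟩
      exact ⟨z', (hP.emb M).injective e'⟩)
  rw [intg_eq_sum (fun k => pr (v k) M) (fun k => (key o k).1) (fun k => (key o k).2.1) fun x =>
      ⟨⟨_, x.1, rfl⟩, ((key o _).2.2 x).2 rfl, fun k hk => Subtype.ext (((key o k).2.2 x).1 hk).symm⟩,
    intg_eq_sum (fun k => pr (v' k) M) (fun k => (key o' k).1) (fun k => (key o' k).2.1) fun x =>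
      ⟨⟨_, φ x.1, rfl⟩, ((key o' _).2.2 x).2 rfl,
        fun k hk => Subtype.ext (((key o' k).2.2 x).1 hk).symm⟩]
  refine Finset.sum_congr rfl fun k _ => ?_
  have s : (pr φ M).comp (pr (σ := σ) (v' k) M) = (pr (v k) M).comp (pr (ψ k) M) := rfl
  have := n3 k M hν ht hd ⟨hu.cyc, hu.deg, fun z => hu.sup _⟩ ⟨hu'.cyc, hu'.deg, fun z => hu'.sup _⟩
    (P := Hev.map (pr (v k) M) P) (Q := Hev.map (pr (v k) M) Q) (by
      rw [Hev.coe_map, ← e1, H.map_hcls _ (cocycle_pull ((j M).continuous.comp (i M).continuous)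
        hu.cyc), pull_pull]
      rfl) (by
      rw [Hev.map_map, ← s, ← Hev.map_map, Hev.coe_map, ← e2, H.map_hcls _
        (cocycle_pull ((j' M).continuous.comp (i' M).continuous) hu'.cyc), pull_pull]
      rfl) (H.map (pr (v k) M) y) (H.map (pr (v' k) M) y') (by
      rw [H.map_map, ← s, ← H.map_map (pr (v' k) M), ← hy, map_mul, H.map_map]
      rfl)
  rw [res_lgys_part (hP.emb_i M) (lc hP hu) (key o k).1 (key o k).2.1,
    res_lgys_part (hP'.emb_i M) (lc hP' hu') (key o' k).1 (key o' k).2.1, map_mul (H.map _),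
    map_mul (H.map _), map_mul (H.map _), H.map_map, s, ← H.map_map,
    map_fn (g := fun z : A × Bs σ M => (N z.1 : ℂ)) _ ((l.comp _).comp_continuous continuous_fst)]
  simp only [← map_mul, Hev.coe_map, n4 k] at this
  exact this

variable {ν : ∀ M, VB (h'.toTS.B M)} (hν : ∀ M, IsNb e he hb (ν M)) {ε : R σ ⊗[ℂ] H A'}
  (hε : ∀ M, H.map ((j' M).comp (i' M)) (ν M).eu.1 = evA A' M ε) (hχ : ∀ w ≠ 0, χ (lin w) ≠ 0)
  {I : K ⊗[ℂ] H A →ₗ[K] K} {I' : K ⊗[ℂ] H A' →ₗ[K] K}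

include hP hP' hφ hf hν hε hχ

theorem imm_lgys {t : ∀ M, Coch (h.toTS.B M).X} {d : ℕ} (ht : ∀ M, LCo (range (j M)) (t M))
    (hd : ∀ M, IsDeg (2 * d) (t M)) (hI : IsLoc χ (fun M => lgys (j M) (t M) (h.fundB M)) i I)
    (hI' : IsLoc χ (fun M => lgys (j' M) (pull (he.bo (pm σ M)).map (t M)) (h'.fundB M)) i' I') :
    ∃ n : A → ℕ, IsLocallyConstant n ∧
      (∀ z t, g z = Y.π t → Cnt m {t' | Y'.π t' ∈ range g'} t (n z)) ∧ ∀ x x', x' * ε = pb _ φ x →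
        I' (bc _ χ x') = I (bc _ χ (x * 1 ⊗ₜ hcls (fn fun z => (n z : ℂ)))) := by
  obtain ⟨n, n1, n2, n3⟩ := imm_lev e he hb hP hP' hφ hf
  refine ⟨n, n1, n2, fun x x' hx => ?_⟩
  obtain ⟨N, p, u, hp, hu, h1⟩ := hP.exists_cut hχ
  obtain ⟨N', q, u', hq, hu', h1'⟩ := hP'.exists_cut hχ
  have := ((hI'.any hu' x').mul (p * q * p)).unique
    (((hI.any hu (x * 1 ⊗ₜ hcls (fn fun z => (n z : ℂ)))).mul (q * q * p)).congr fun M f => ?_)
  · simp only [map_mul χ, LinearMap.smul_apply, smul_eq_mul] at this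
    refine mul_left_cancel₀ (mul_ne_zero (mul_ne_zero hp hp) (mul_ne_zero hq hq)) ?_
    linear_combination this
  let E : R σ →ₐ[ℂ] Hev (A × Bs σ M) := (Hev.map ContinuousMap.snd).comp ((TS.triv σ pt).ev (pm σ M))
  have hE : ∀ f, (E f).1 = evA A M (f ⊗ₜ 1) := fun f => (evA_one M f).symm
  have := n3 M (hν M) (ht M) (hd M) ⟨(h1 M).1, ⟨_, (h1 M).2.1⟩, (h1 M).2.2.2⟩
    ⟨(h1' M).1, ⟨_, (h1' M).2.1⟩, (h1' M).2.2.2⟩ (P := E p) (Q := E q)
    (by rw [hE, ← hu.cls, pull_pull])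
    (by rw [Hev.coe_map, hE, map_evA, pb_tmul, map_one, ← hu'.cls, pull_pull])
    (evA A M (x * f ⊗ₜ 1)) (evA A' M (x' * f ⊗ₜ 1)) (by
      rw [hε, ← map_mul, map_evA, map_mul (pb _ φ), ← hx, pb_tmul, map_one, mul_tmul_one,
        mul_tmul_one, smul_mul_assoc])
  rw [← map_mul E, ← map_mul E, ← map_mul E, ← map_mul E, hE, hE, map_evA, pb_tmul, map_one,
    show hcls (fn fun z : A × Bs σ M => (n z.1 : ℂ)) = evA A M (1 ⊗ₜ hcls (fn fun z => (n z : ℂ))) by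
      rw [evA_tmul, map_one, map_one, one_mul, map_fn (g := fun z => (n z : ℂ)) _ (n1.comp _)]
      rfl,
    ← map_mul, ← map_mul, ← map_mul] at this
  simp only [mul_tmul_one, smul_mul_assoc, mul_smul_comm, smul_smul] at this ⊢
  rwa [mul_comm f] at this

/-- **(IMM) local contributions under an immersion** -/
theorem imm {k : KP Y.toSp} (κ : TKP h.toTS k) (hZ : Zs = k.Zs)
    (hI : IsLoc χ (fun M => (κ.bo (pm σ M)).vir (j M) (h.fundB M)) i I)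
    (hI' : IsLoc χ (fun M => ((κ.pb he).bo (pm σ M)).vir (j' M) (h'.fundB M)) i' I') :
    ∃ n : A → ℕ, IsLocallyConstant n ∧
      (∀ z t, g z = Y.π t → Cnt m {t' | Y'.π t' ∈ range g'} t (n z)) ∧ (∀ x x', x' * ε = pb _ φ x →
        I' (bc _ χ x') = I (bc _ χ (x * 1 ⊗ₜ hcls (fn fun z => (n z : ℂ))))) ∧
      ∀ ε' q, ε' * ε = q ⊗ₜ 1 → ∀ y, I' (pb K φ y * bc _ χ ε') =
        χ q * I (y * 1 ⊗ₜ hcls (fn fun z => (n z : ℂ))) := by
  subst hZ
  obtain ⟨n, n1, n2, n3⟩ := imm_lgys e he hb hP hP' hφ hf hν hε hχ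
    (fun M => κ.range_eq (hP.rng M) ▸ (κ.bo _).lco) (fun M => (κ.bo _).eul_deg) hI (by
      rwa [← funext fun M => LinearMap.congr_fun ((κ.cmp_bo he _).vir_eq (KP.IsZ.of_range
        (hP'.emb M).isEmbedding ((κ.pb he).range_eq (hP'.rng M)))) _])
  refine ⟨n, n1, n2, n3, fun ε' q e' y => LinearMap.congr_fun (ext_bc (χ := χ)
    (J := I' ∘ₗ LinearMap.mulRight K (bc _ χ ε') ∘ₗ (pb K φ).toLinearMap)
    (J' := χ q • I ∘ₗ LinearMap.mulRight K (1 ⊗ₜ hcls (fn fun z => (n z : ℂ)))) fun x => ?_) y⟩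
  have := n3 (q • x) (pb _ φ x * ε') (by rw [mul_assoc, e', mul_tmul_one, map_smul])
  rw [map_mul, bc_pb, smul_mul_assoc, ← tmul_one_mul, map_mul (bc _ χ), map_mul (bc _ χ), bc_tmul,
    bc_tmul, tmul_one_mul, map_smul, map_one] at this
  exact this

omit hν hε in
include hb in
/-- **(IMM)** for etale maps -/
theorem imm_etale (hn : Y'.n = Y.n) {k : KP Y.toSp} (κ : TKP h.toTS k) (hZ : Zs = k.Zs)
    (hI : IsLoc χ (fun M => (κ.bo (pm σ M)).vir (j M) (h.fundB M)) i I)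
    (hI' : IsLoc χ (fun M => ((κ.pb he).bo (pm σ M)).vir (j' M) (h'.fundB M)) i' I') :
    ∃ n : A → ℕ, IsLocallyConstant n ∧
      (∀ z t, g z = Y.π t → Cnt m {t' | Y'.π t' ∈ range g'} t (n z)) ∧
      ∀ y, I' (pb K φ y) = I (y * 1 ⊗ₜ hcls (fn fun z => (n z : ℂ))) := by
  obtain ⟨n, n1, n2, -, n3⟩ := imm e he hb hP hP' hφ hf (isNb_zero e he hb hn) (ε := 1)
    (fun M => by
      rw [VB.eu_eq_one _ finrank_zero_of_subsingleton, map_one]
      exact map_one _) hχ κ hZ hI hI'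
  refine ⟨n, n1, n2, fun y => ?_⟩
  have := n3 1 1 (one_mul _) y
  rwa [map_one, map_one, mul_one, one_mul] at this

end Vale.Agent.P269.LG
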