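import Vale.Agent.P269.Loc.TKP

/-!
# The moving part of the obstruction theory as an excess bundle
-/

set_option linter.unusedSectionVars false

namespace Vale.Agent.P269.Loc

open Set Function Topology Filter Module TensorProduct Vale.Agent.P291Z Vale.Agent.P269.Ch
  Vale.Agent.P269.Orb

variable {σ : Type} [Fintype σ] {Y : Ch.Sp} {a : TS σ Y} (c : FD a)

theorem FD.range_preB {D : Ch.Sp} (n : Mor D c.F) (M : ℕ) :
    range (c.preB n M).map = (c.pr M).map ⁻¹' range n.map := by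
  refine Subset.antisymm (by rintro _ ⟨x, rfl⟩; exact ⟨_, (c.pr_pre n M x).symm⟩) fun x ⟨y, e⟩ => ?_
  obtain ⟨⟨t, p⟩, rfl⟩ := (c.B M).surj x
  obtain ⟨y, rfl⟩ := D.surj y
  exact ⟨((c.pre n).B M).π (y, p), (Mor.map_π _ _).trans ((c.exists_smul
    ((n.map_π y).symm.trans (e.trans (c.pr_π M (t, p)))) 1 p).trans (by rw [one_smul]))⟩

namespace TKP

variable {k : KP Y} (κ : TKP a k) {v r : ℕ}
  (hv : ∀ t, finrank ℂ (k.van (c.i.f t) ⊓ wsp (κ.τ c) 0 : Submodule ℂ k.P.W) = v)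
  (hr : ∀ t, c.i.f t ∈ k.Zs →
    finrank ℂ (k.obs (c.i.f t) ⊓ wsp (κ.τ c) 0 : Submodule ℂ k.P.W) = v + r)

/-- the twisted action on the fixed part -/
noncomputable def fixT : TKP (TS.triv σ c.F) (κ.fix c hv hr) where
  toTV := c.tv κ.toTV
  s_eqv u t := (mem_wsp_zero.1 (κ.s_mem c t) u).symm
  van_inv u _ _ h := (mem_wsp_zero.1 h.2 u).symm ▸ h
  obs_inv u _ _ _ h := (mem_wsp_zero.1 h.2 u).symm ▸ h

theorem cmp_pr (M : ℕ) : ((κ.fixT c hv hr).bo (c.P M)).Cmp (κ.fix c hv hr) (c.pr M).map := by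
  have hw := κ.toTV.wtd_τ c.toDat
  refine KP.Hom.cmp (A := fun _ => wpr (κ.τ c) 0) ⟨Hom.of_continuous
    (fun x w h => (c.tv κ.toTV).wpr_mem hw 0 h)
    ((wpr (κ.τ c) 0).continuous_of_finiteDimensional.comp continuous_snd) fun g x w _ => ?_,
    fun _ _ h => (hw.wpr_of_mem h.2).symm ▸ h, fun x => ?_, fun _ _ _ h => (hw.wpr_of_mem h.2).symm ▸ h⟩
    (fun _ _ _ h e => hw.wpr_of_mem h.2 ▸ e) rfl
  · exact ((c.tv κ.toTV).wpr_smul hw 0 g.1 _).trans (congrArg (fun u : k.P.W => c.i.ρ g.1 • u)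
      ((hw.wpr_apply g.2 0 w).trans (by rw [chr_zero, Units.val_one, one_smul]; rfl)))
  · exact (sub_eq_zero.2 (hw.wpr_of_mem (κ.s_mem c x.1))).symm ▸ Submodule.zero_mem _

theorem Z_fixT (M : ℕ) :
    ((κ.fixT c hv hr).bo (c.P M)).Z = (c.pr M).map ⁻¹' (κ.fix c hv hr).Z := Set.ext fun x => by
  obtain ⟨x, rfl⟩ := (c.B M).surj x
  rw [mem_preimage, c.pr_π, KP.mem_Z, KP.mem_Z]
  rfl

theorem Z_fixT' (M : ℕ) :
    ((κ.fixT c hv hr).bo (c.P M)).Z = (c.mor M).map ⁻¹' (κ.bo (pm σ M)).Z := Set.ext fun x => by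
  obtain ⟨x, rfl⟩ := (c.B M).surj x
  rw [mem_preimage, Mor.map_π, KP.mem_Z, KP.mem_Z]
  exact κ.mem_Zs_fix c hv hr

theorem cor_van {M : ℕ} (x : (c.B M).T) {w : k.P.W} :
    c.cor κ.toTV x.2 w ∈ k.van (c.i.f x.1) ↔ w ∈ k.van (c.i.f x.1) :=
  c.cor_mem_iff κ.toTV x.2 fun s _ => κ.vanV.tw_mem (c.fix x.1) s

theorem cor_obs {M : ℕ} (x : (c.B M).T) (hx : c.i.f x.1 ∈ k.Zs) {w : k.P.W} :
    c.cor κ.toTV x.2 w ∈ k.obs (c.i.f x.1) ↔ w ∈ k.obs (c.i.f x.1) :=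
  c.cor_mem_iff κ.toTV x.2 (κ.tw_mem_obs c hx)

theorem hom_mor (M : ℕ) : ((κ.fixT c hv hr).bo (c.P M)).Hom (κ.bo (pm σ M)) (c.mor M)
    fun x => c.cor κ.toTV x.2 :=
  ⟨(c.iso_tv κ.toTV M).toHom, fun x _ h => (κ.cor_van c x).2 h.1, fun x =>
    (sub_eq_zero.2 (c.cor_of_fix κ.toTV x.2 (v := k.s (c.i.f x.1)) fun s => by
      rw [TV.tw_apply, ← κ.s_eqv, c.fix, k.sec.eqv, inv_smul_smul])).symm ▸ Submodule.zero_mem _,
    fun x hx _ h => (κ.cor_obs c x hx.1).2 h.1⟩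

variable {D : Ch.Sp} {n : Mor D c.F} (hz : ∀ t, (c.pre n).i.f t ∈ k.Zs)
  (kV : (κ.vanT (c.pre n)).Rk) (kB : (κ.obsT (c.pre n) hz).Rk)

/-- **the excess intersection formula on the fixed locus** -/
theorem excess [Nonempty D.T] (M : ℕ) {Z : Type} [TopologicalSpace Z] [Nice Z] {i : Z → (c.B M).X}
    (hi : ((κ.fixT c hv hr).bo (c.P M)).IsZ i) (ξ : C(Z, ((c.pre n).B M).X))
    (hξ : ∀ z, (c.preB n M).map (ξ z) = i z) (β : BM (c.B M).X) :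
    cap (H.map ξ ((c.pre n).evT M (inH _ (kV.eqc c.m))))
        (lgys i (pull (c.mor M).map (κ.bo (pm σ M)).eul) β) =
      cap (H.map ξ ((c.pre n).evT M (inH _ (kB.eqc c.m))))
        (lgys i (pull (c.pr M).map (κ.fix c hv hr).eul) β) := by
  have hw := κ.toTV.wtd_τ c.toDat
  obtain ⟨N, B, h1, h2⟩ := (Hom.of_continuous (m := Mor.id _) (E' := kV.tm.bo (c.P M))
    (E := kB.tm.bo (c.P M)) (A := fun _ => LinearMap.id)
    (fun x w h => ⟨k.le_obs _ (hz x.1) h.1, h.2⟩) continuous_snd fun _ _ _ _ => rfl).exists_coker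
      fun _ _ _ e => e
  obtain ⟨-, S, -, h3, -, h4, -⟩ := h2.exists_split
  have h5 : Hom (c.preB n M) (kB.tm.bo (c.P M)) ((c.tv κ.toTV).bo (c.P M))
      fun _ => LinearMap.id := Hom.of_continuous (fun x w h => k.obs_le _ (hz x.1) h.1)
    continuous_snd fun _ _ _ _ => rfl
  have := (κ.hom_mor c hv hr M).vir_inj hi (fun x _ w h e => ⟨(κ.cor_van c x).1 e, h.2⟩)
    (j := c.preB n M) (N := N) (fun x => (κ.mem_Zs_fix c hv hr).2 (hz x.1))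
    (((c.iso_tv κ.toTV M).toHom.comp h5).comp h3)
    (fun x w h => (κ.cor_obs c ((c.preB n M).f x) (hz x.1)).2 (h3.mem x w h).1)
    (fun x w h w' h' e => ?_) ?_ ξ hξ β
  · rw [this, ← (κ.cmp_pr c hv hr M).vir_eq hi, ← cap_mul, ← map_mul, (c.pre n).evT_inH,
      (c.pre n).evT_inH, ← kV.eu_mv ((c.pre n).ev_lin M), ← kB.eu_mv ((c.pre n).ev_lin M), h2.eu]
    rfl
  · have e1 : (show k.P.W from S x w) - (show k.P.W from w') ∈ k.van (c.i.f (n.f x.1)) :=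
      (κ.cor_van c ((c.preB n M).f x)).1 (by rw [map_sub]; exact e)
    have e2 := sub_mem e1 ((κ.vanT (c.pre n)).wpr_mem hw 0 (t := x.1) e1)
    have e3 := h3.mem x w h
    erw [map_sub, hw.mem_mov.1 e3.2, hw.wpr_of_mem h'.2, zero_sub, sub_neg_eq_add,
      sub_add_cancel] at e2
    exact (h4 x w h).symm.trans ((h2.ex x _ e3).2 ⟨_, ⟨e2, e3.2⟩, rfl⟩)
  · obtain ⟨t⟩ := ‹Nonempty D.T›
    have e1 : k.v = _ := kV.rank_eq t
    have e2 : k.v + k.r = _ := kB.rank_eq t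
    have e3 := (kV.rank 0 t).symm.trans (hv (n.f t))
    have e4 := (kB.rank 0 t).symm.trans (hr (n.f t) (hz t))
    have e5 : ∑ w ∈ kB.W, kB.r w = ∑ w ∈ kV.W, kV.r w + N.r := h2.rank
      (t, (⟨fun _ _ => 1, fun _ h => one_ne_zero (congrFun h 0)⟩ : PM σ M))
    change k.r = r + N.r
    omega

end TKP

end Vale.Agent.P269.Loc
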