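import Vale.Agent.P269.Loc.E1
import Vale.Agent.P269.Loc.Exc

/-!
# Evaluation of the local contributions
-/

set_option linter.unusedSectionVars false

namespace Vale.Agent.P269.LG

open Set Function Topology Filter Module MvPolynomial TensorProduct Vale.Agent.P291Z
  Vale.Agent.P269.Ch Vale.Agent.P269.Orb Vale.Agent.P269.Loc

variable {σ : Type} [Fintype σ] {K : Type} [Field K] [Algebra ℂ K] {χ : R σ →ₐ[ℂ] K}
  {X : ℕ → Type} [∀ M, TopologicalSpace (X M)] [∀ M, Nice (X M)] {Y : HO} {h : TH σ Y}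
  {j : ∀ M, C(X M, (h.toTS.B M).X)}

theorem evA_mem {A : Type} [TopologicalSpace A] (M : ℕ) (x : R σ ⊗[ℂ] Hev A) :
    evA A M (inH A x) ∈ Hev (A × Bs σ M) := by
  induction x with
  | zero => simp only [map_zero, zero_mem]
  | add a b ha hb => simpa only [map_add] using add_mem ha hb
  | tmul f c => exact mul_mem (map_mem_Hev _ (lam_mem M f)) (map_mem_Hev _ c.2)

theorem inH_comm {A : Type} [TopologicalSpace A] (x : R σ ⊗[ℂ] Hev A) (y : R σ ⊗[ℂ] H A) :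
    inH A x * y = y * inH A x := by
  induction x with
  | zero => simp only [map_zero, zero_mul, mul_zero]
  | add a b ha hb => rw [map_add, add_mul, mul_add, ha, hb]
  | tmul f c =>
    induction y with
    | zero => simp only [zero_mul, mul_zero]
    | add a b ha hb => rw [add_mul, mul_add, ha, hb]
    | tmul f' c' =>
      change (f ⊗ₜ c.1) * _ = _ * (f ⊗ₜ c.1)
      rw [Algebra.TensorProduct.tmul_mul_tmul, Algebra.TensorProduct.tmul_mul_tmul, mul_comm f,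
        Hev.commute c.2]

/-- the Borel construction of a presentation is a product -/
theorem Pc.exists_xi (d : FD h.toTS) [CompactSpace d.F.X] {Zs : Set Y.T} {g : C(d.F.X, Y.X)}
    {i : ∀ M, C(d.F.X × Bs σ M, X M)} (hP : Pc h.toTS Zs j g i) (hg : ∀ z, g z = d.i.map z) (M : ℕ) :
    ∃ ξ : C(d.F.X × Bs σ M, (d.B M).X), Surjective ξ ∧ (∀ z, (d.mor M).map (ξ z) = j M (i M z)) ∧
      (∀ z, (d.pr M).map (ξ z) = z.1) ∧ ∀ y, H.map ξ (d.evT M y) = evA _ M y := by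
  have e := d.isEmbedding_mor (d.i.map.continuous.isClosedEmbedding
    (funext hg ▸ hP.inj)).isEmbedding M
  have key : ∀ t p, (d.mor M).map ((d.B M).π (t, p)) = j M (i M (d.F.π t, bp p)) := fun t p =>
    (d.mor_π M t p).trans (hP.eq M _ _ p ((hg _).trans (d.i.map_π t))).symm
  have sj : ∀ z : d.F.X × Bs σ M, ∃ t p, z = (d.F.π t, bp p) := fun z => by
    obtain ⟨t, e1⟩ := d.F.surj z.1
    obtain ⟨p, e2⟩ := ((TS.triv σ pt).B M).surj z.2
    exact ⟨t, p.2, Prod.ext e1.symm e2.symm⟩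
  have h1 : ∀ z, j M (i M z) ∈ range (d.mor M).map := fun z => by
    obtain ⟨t, p, rfl⟩ := sj z
    exact ⟨_, key t p⟩
  let ξ : C(d.F.X × Bs σ M, (d.B M).X) := ⟨fun z => e.toHomeomorph.symm ⟨_, h1 z⟩, by fun_prop⟩
  have h2 : ∀ z, (d.mor M).map (ξ z) = j M (i M z) := fun z =>
    congrArg Subtype.val (e.toHomeomorph.apply_symm_apply ⟨_, h1 z⟩)
  have h3 : ∀ t p, ξ (d.F.π t, bp p) = (d.B M).π (t, p) := fun t p =>
    e.injective ((h2 _).trans (key t p).symm)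
  have h4 : ∀ z, (d.pr M).map (ξ z) = z.1 := fun z => by
    obtain ⟨t, p, rfl⟩ := sj z
    exact (congrArg _ (h3 t p)).trans (d.pr_π M (t, p))
  refine ⟨ξ, fun x => ?_, h2, h4, fun y => ?_⟩
  · obtain ⟨x, rfl⟩ := (d.B M).surj x
    exact ⟨_, h3 x.1 x.2⟩
  · induction y with
    | zero => simp only [map_zero]
    | add a b ha hb => simp only [map_add, ha, hb]
    | tmul f c =>
      rw [d.evT_tmul, map_mul, d.e_apply, H.map_map, H.map_map, evA_tmul, ← evA_one, ← hP.map_e,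
        show (d.mor M).map.comp ξ = (j M).comp (i M) from ContinuousMap.ext h2,
        show (d.pr M).map.comp ξ = ContinuousMap.fst from ContinuousMap.ext h4]

theorem _root_.Vale.Agent.P269.Loc.FC.invUp (c : FC h) {D : Ch.Sp} {n : D.X → c.F.X}
    (hn : IsClosedEmbedding n) {E : VB D} {b : TV (TS.triv σ D) E} (k : b.Rk) :
    InvUp (lin '' k.W) (inH _ (k.eqc c.m)) :=
  (k.invUp_eqc c.hm fun _ _ h1 h2 => H_eq_zero_of_emb c.ori hn h1 h2).map _

variable {k : KP Y.toSp} (κ : TKP h.toTS k) (c : FC h) {v r : ℕ}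
  (hv : ∀ t, finrank ℂ (k.van (c.i.f t) ⊓ wsp (κ.τ c.toFD) 0 : Submodule ℂ k.P.W) = v)
  (hr : ∀ t, c.i.f t ∈ k.Zs →
    finrank ℂ (k.obs (c.i.f t) ⊓ wsp (κ.τ c.toFD) 0 : Submodule ℂ k.P.W) = v + r)
  {D : Ch.Sp} [CompactSpace D.X] {n : Mor D c.F} (hn : (κ.fix c.toFD hv hr).IsZ n.map)
  (hz : ∀ t, (c.pre n).i.f t ∈ k.Zs) (kV : (κ.vanT (c.pre n)).Rk) (kB : (κ.obsT (c.pre n) hz).Rk)
  {g : C(D.X, Y.X)} {i : ∀ M, C(D.X × Bs σ M, X M)}

include hn in
theorem Pc.ev_level [Nonempty D.T] (hP : Pc h.toTS k.Zs j g i) (hg : ∀ z, g z = c.i.map (n.map z))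
    (M : ℕ) {N : ℕ} {u : Coch (h.toTS.B M).X} (h1 : supp (δ u) = ∅) (h2 : IsDeg (2 * N) u)
    (h3 : ∀ z, ∀ᶠ y in 𝓝 (j M (i M z)), y ∈ supp u → y ∈ h.toTS.ov h.toTS.Fix M) :
    ∃ γ : BM (D.X × Bs σ M), (∀ f, push Prod.fst (cap (evA _ M (f ⊗ₜ 1)) γ) =
      coeff (topM σ M) f • (κ.fix c.toFD hv hr).vir n.map c.fund) ∧
      cap (evA _ M (inH _ ((c.kT.pre n).eqc c.m) * inH _ (kV.eqc c.m)))
        (lgys (i M) (pull (j M) u) ((κ.bo (pm σ M)).vir (j M) (h.fundB M))) =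
      cap (evA _ M (inH _ (kB.eqc c.m) * inH _ ((c.kO.pre n).eqc c.m)))
        (cap (hcls (pull (j M ∘ i M) u)) γ) := by
  obtain ⟨ξ, x1, x2, x3, x4⟩ := hP.exists_xi (c.pre n)
    (fun z => (hg z).trans (congrArg (· z) (Mor.map_comp c.i n)).symm) M
  let ζ := (c.preB n M).map.comp ξ
  have z1 : ∀ z, (c.mor M).map (ζ z) = j M (i M z) := fun z =>
    (congrArg (· (ξ z)) (c.mor_pre n M)).symm.trans (x2 z)
  have z2 : ∀ z, (c.pr M).map (ζ z) = n.map z.1 := fun z =>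
    (c.pr_pre n M _).trans (congrArg _ (x3 z))
  have z3 : range ζ = (c.pr M).map ⁻¹' range n.map := (x1.range_comp _).trans (c.range_preB n M)
  have z4 := isClosedEmbedding_of_comp (c.isEmbedding_mor c.emb M) z1
    ((hP.emb M).comp (hP.emb_i M))
  have hZ : ((κ.fixT c.toFD hv hr).bo (c.P M)).IsZ ζ := ⟨z4, by
    rw [z3, κ.Z_fixT]; exact preimage_mono hn.sub, by
    rw [z3, κ.Z_fixT]; exact hn.isol.preimage (c.pr M).map.continuous⟩
  have hj := κ.range_eq (hP.rng M)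
  have e : Subtype.val ∘ c.iF M = (c.mor M).map := funext (c.coe_iF M)
  obtain ⟨θ, t1, t2, t3⟩ := c.exists_thom M
  obtain ⟨-, -, l⟩ := core_loc (c.isOpen_UB M).isOpenEmbedding_subtypeVal (c.isClosedEmbedding_iF M)
    (hP.emb M) (hP.emb_i M) z4 (fun z => (z1 z).symm.trans (c.coe_iF M _).symm)
    (by rw [e, hj, ← κ.Z_fixT' c.toFD hv hr]; exact hZ.isol) (hj ▸ (κ.bo _).lco) (κ.bo _).eul_deg t1
    h1 h2 (fun z => by
      filter_upwards [h3 z, (c.isOpen_UB M).mem_nhds (((z1 z).symm.trans (c.coe_iF M _).symm) ▸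
        (c.iF M (ζ z)).2 : j M (i M z) ∈ c.UB M)] with y y1 y2 y3
      obtain ⟨x, hx, rfl⟩ := y1 y3
      exact e ▸ c.mem_range_mor.2 (c.mem_S_of hx (c.mem_UB.1 y2))) (h.fundB M)
  rw [t2, e] at l
  have ex := κ.excess c.toFD hv hr hz kV kB M hZ ξ (fun _ => rfl) (c.fundB M)
  have t4 := congrArg (H.map ζ) t3
  rw [map_mul, H.map_hcls _ (cocycle_pull (c.iF M).continuous t1.cocycle), pull_pull, ← H.map_map,
    ← H.map_map, c.map_evB, c.map_evB, x4, x4] at t4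
  rw [x4, x4] at ex
  refine ⟨lgys ζ (pull (c.pr M).map (κ.fix c.toFD hv hr).eul) (c.fundB M), fun f => ?_, ?_⟩
  · obtain ⟨t, ht, e'⟩ := hcls_surj (c.e M f)
    rw [← map_smul, ← (c.isPr_pr M).2, KP.vir, lgys_push hn.emb hn.lco z4 (c.isPr_pr M).1
      (IsPr.of_compact continuous_fst) z2 z3.ge, ← e', lgys_cap z4 (hn.lco.pull
        (c.pr M).map.continuous |>.mono z3.le (z3 ▸ Isol.refl _))
      ((κ.fix c.toFD hv hr).eul_deg.pull _) ht, ← H.map_hcls ζ ht, e', c.e_apply, H.map_map,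
      show (c.mor M).map.comp ζ = (j M).comp (i M) from ContinuousMap.ext z1, hP.map_e]
  · have m1 := Hev.commute (evA_mem M (kV.eqc c.m))
    have m2 := Hev.commute (evA_mem M (kB.eqc c.m))
    rw [map_mul, map_mul, t4, ← m1, ← mul_assoc, cap_mul, KP.vir, l, ← cap_mul, m1, mul_assoc, m1,
      ← mul_assoc, cap_mul, ex, ← cap_mul, ← cap_mul, ← m2, mul_assoc]

omit [CompactSpace D.X] in
theorem fn_of_push {A : Type} [TopologicalSpace A] [Nice A] [CompactSpace A]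
    {γ : ∀ M, BM (A × Bs σ M)} {β : BM A} (h : ∀ M f, push Prod.fst (cap (evA _ M (f ⊗ₜ 1)) (γ M)) =
      coeff (topM σ M) f • β) : Fn χ γ (intT K (intg β)) := fun x => by
  rw [intT_bc]
  refine (Frc.of_rep (rep_intT (fun M => (H.mapA ContinuousMap.snd).comp (lam M))
    (fun M f b => (Hev.commute (map_mem_Hev _ (lam_mem M f)) b).symm)
    (fun M => H.mapA ContinuousMap.fst) (fun M => intg (γ M)) _ (fun M f a => ?_) x)).congr
      fun M f => by rw [map_mul, evA_one]; rfl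
  have := congrArg (intg · a) (h M f)
  rw [show push Prod.fst (cap (evA _ M (f ⊗ₜ 1)) (γ M)) = push (ContinuousMap.fst : C(A × Bs σ M, A))
    (cap (evA _ M (f ⊗ₜ 1)) (γ M)) from rfl, intg_push, intg_cap, evA_one,
    ← Hev.commute (map_mem_Hev _ (lam_mem M f)), intg_eq (_ • β), map_smul, smul_ev,
    ← intg_eq] at this
  exact this

include hn in
/-- **(EV) the virtual localisation formula** -/
theorem IsLoc.ev (hP : Pc h.toTS k.Zs j g i) (hg : ∀ z, g z = c.i.map (n.map z))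
    (hχ : ∀ w ≠ 0, χ (lin w) ≠ 0) {I : K ⊗[ℂ] H D.X →ₗ[K] K}
    (hI : IsLoc χ (fun M => (κ.bo (pm σ M)).vir (j M) (h.fundB M)) i I) (x : K ⊗[ℂ] H D.X) :
    I (x * bc _ χ (inH _ ((c.kT.pre n).eqc c.m) * inH _ (kV.eqc c.m))) =
      intT K (intg ((κ.fix c.toFD hv hr).vir n.map c.fund))
        (x * bc _ χ (inH _ (kB.eqc c.m) * inH _ ((c.kO.pre n).eqc c.m))) := by
  rcases isEmpty_or_nonempty D.T with h0 | h0
  · rw [Subsingleton.elim x 0, zero_mul, zero_mul, map_zero, map_zero]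
  obtain ⟨N, p, u, hp, hu, h1⟩ := hP.exists_cut hχ
  choose γ h2 h3 using fun M => hP.ev_level κ c hv hr hn hz kV kB hg M (h1 M).1 (h1 M).2.1
    (h1 M).2.2.2
  refine mul_left_cancel₀ hp (LinearMap.congr_fun (((hI.any hu).cap _).unique
    ((((fn_of_push h2).cap_one p).cap _).congr fun M => ?_)) x)
  rw [h3, ← hu.cls, pull_pull]

end Vale.Agent.P269.LG
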