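import Vale.Agent.P269.Loc.TH
import Vale.Agent.P269.Holo.Etale

/-!
# Immersions of complex orbifolds, the degree of a proper etale map
-/

set_option linter.unusedSectionVars false

namespace Vale.Agent.P269.Loc

open Set Function Topology Filter Module Vale.Agent.P291Z Vale.Agent.P269.Ch Vale.Agent.P269.Holo
  Vale.Agent.P269.Orb

/-- the part of the fibre of `t` in `B` consists of `n` orbits of the kernel -/
def Cnt {Y' Y : Ch.Sp} (m : Mor Y' Y) (B : Set Y'.T) (t : Y.T) (n : ℕ) : Prop :=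
  ∃ e : Fin n → Y'.T, (∀ k, e k ∈ B ∧ m.f (e k) = t) ∧
    ∀ t' ∈ B, m.f t' = t → ∃! k, ∃ γ : Y'.G, m.ρ γ = 1 ∧ γ • e k = t'

theorem Cnt.le {Y' Y : Ch.Sp} {m : Mor Y' Y} {B : Set Y'.T} {t : Y.T} {n n' : ℕ}
    (h : Cnt m B t n) (h' : Cnt m B t n') : n ≤ n' := by
  obtain ⟨e, h1, h2⟩ := h
  obtain ⟨e', -, h4⟩ := h'
  choose c γ h5 h6 using fun k => (h4 (e k) (h1 k).1 (h1 k).2).exists
  have : Injective c := fun k l hkl => (h2 (e l) (h1 l).1 (h1 l).2).unique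
    ⟨γ l * (γ k)⁻¹, by rw [map_mul, map_inv, h5, h5, inv_one, mul_one],
      by rw [mul_smul, ← h6 k, inv_smul_smul, hkl, h6]⟩ ⟨1, map_one _, one_smul _ _⟩
  simpa using Fintype.card_le_of_injective c this

theorem Cnt.unique {Y' Y : Ch.Sp} {m : Mor Y' Y} {B : Set Y'.T} {t : Y.T} {n n' : ℕ}
    (h : Cnt m B t n) (h' : Cnt m B t n') : n = n' := le_antisymm (h.le h') (h'.le h)

theorem Cnt.of_finite {Y' Y : Ch.Sp} {m : Mor Y' Y} {B : Set Y'.T} {t : Y.T} {I : Type} [Finite I]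
    (e : I → Y'.T) (h1 : ∀ k, e k ∈ B ∧ m.f (e k) = t)
    (h2 : ∀ t' ∈ B, m.f t' = t → ∃! k, ∃ γ : Y'.G, m.ρ γ = 1 ∧ γ • e k = t') :
    Cnt m B t (Nat.card I) :=
  ⟨e ∘ (Finite.equivFin I).symm, fun _ => h1 _, fun t' ht e' =>
    ((Finite.equivFin I).symm.existsUnique_congr fun _ => Iff.rfl).2 (h2 t' ht e')⟩

/-- the number of orbits of the kernel over a point -/
theorem exists_cnt {Y' Y : Ch.Sp} (m : Mor Y' Y) (sr : Surjective m.ρ)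
    (fr : ∀ (g : Y'.G) (t : Y'.T), m.ρ g = 1 → g • t = t → g = 1) (t : Y.T) (F : Finset Y'.X)
    (hF : ∀ x, x ∈ F ↔ m.map x = Y.π t) : ∃ n : ℕ, Cnt m univ t n ∧
      (n : ℂ) = stab Y.G t * ∑ x ∈ F, (stab Y'.G (Y'.out x) : ℂ)⁻¹ := by
  have h0 : ∀ x : F, ∃ u, Y'.π u = x ∧ m.f u = t := fun x => by
    obtain ⟨g, hg⟩ := (Y.fib _ _).1 ((hF x).1 x.2)
    obtain ⟨g, rfl⟩ := sr g
    exact ⟨g • Y'.out x, by rw [Y'.π_smul, Y'.π_out], by rw [m.eqv, hg]⟩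
  choose u h1 h2 using h0
  choose s hs using sr
  let φ (x : F) : MulAction.stabilizer Y'.G (u x) →* MulAction.stabilizer Y.G t :=
    (m.ρ.comp (Subgroup.subtype _)).codRestrict _ fun g =>
      show m.ρ g • t = t by rw [← h2 x, ← m.eqv, show g.1 • u x = u x from g.2]
  have h3 : ∀ x, Injective (φ x) := fun x => (injective_iff_map_eq_one _).2 fun g hg =>
    Subtype.ext (fr g (u x) (congrArg Subtype.val hg) g.2)
  refine ⟨_, Cnt.of_finite (I := Σ x : F, MulAction.stabilizer Y.G t ⧸ (φ x).range)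
    (fun c => s c.2.out • u c.1) (fun c => ⟨trivial, by rw [m.eqv, hs, h2]; exact c.2.out.2⟩)
    fun t' _ e => ?_, ?_⟩
  · have h4 : Y'.π t' ∈ F := (hF _).2 (by rw [m.map_π, e])
    obtain ⟨g, hg⟩ := (Y'.fib _ _).1 (h1 ⟨_, h4⟩)
    have h5 : m.ρ g • t = t := by rw [← h2 ⟨_, h4⟩, ← m.eqv, hg, e, h2]
    obtain ⟨⟨_, γ, rfl⟩, hγ⟩ := QuotientGroup.mk_out_eq_mul (φ ⟨_, h4⟩).range ⟨m.ρ g, h5⟩
    refine ⟨⟨⟨_, h4⟩, QuotientGroup.mk ⟨m.ρ g, h5⟩⟩, ⟨g * γ * (s (QuotientGroup.mk ⟨m.ρ g, h5⟩ :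
      MulAction.stabilizer Y.G t ⧸ (φ ⟨_, h4⟩).range).out)⁻¹, ?_, ?_⟩, ?_⟩
    · rw [map_mul, map_inv, hs, hγ, map_mul]
      exact mul_inv_cancel _
    · rw [mul_smul, inv_smul_smul, mul_smul, show γ.1 • u _ = u _ from γ.2, hg]
    · rintro ⟨⟨x, hx⟩, c⟩ ⟨k, h6, h7⟩
      obtain rfl : x = Y'.π t' := by rw [← h7, Y'.π_smul, Y'.π_smul, h1]
      refine congrArg (Sigma.mk _) (c.out_eq'.symm.trans (QuotientGroup.eq.2
        ⟨⟨(s c.out)⁻¹ * k⁻¹ * g, ?_⟩, Subtype.ext ?_⟩))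
      · rw [MulAction.mem_stabilizer_iff, mul_smul, mul_smul, hg, inv_smul_eq_iff, inv_smul_eq_iff]
        exact h7.symm
      · change m.ρ ((s c.out)⁻¹ * k⁻¹ * g) = _
        rw [map_mul, map_mul, map_inv, map_inv, hs, h6, inv_one, mul_one]
        rfl
  · rw [Nat.card_sigma, Finset.mul_sum, ← F.sum_coe_sort, Nat.cast_sum]
    refine Finset.sum_congr rfl fun x _ => ?_
    obtain ⟨g, hg⟩ := Y'.exists_out (u x)
    rw [← h1, ← hg, stab_smul, stab, stab,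
      Subgroup.card_eq_card_quotient_mul_card_subgroup (φ x).range,
      ← Nat.card_congr (MonoidHom.ofInjective (h3 x)).toEquiv, Nat.cast_mul,
      mul_inv_cancel_right₀ (Nat.cast_ne_zero.2 Nat.card_pos.ne')]

section orb

variable {G G₁ T T₁ X X₁ A A₁ : Type} [Group G] [TopologicalSpace G] [TopologicalSpace T]
  [MulAction G T] [TopologicalSpace X] [NormedAddCommGroup A] [NormedSpace ℂ A] [Group G₁]
  [TopologicalSpace G₁] [TopologicalSpace T₁] [MulAction G₁ T₁] [TopologicalSpace X₁]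
  [NormedAddCommGroup A₁] [NormedSpace ℂ A₁] {n : ℕ} {ι : T → A} {π : T → X} {ι₁ : T₁ → A₁}
  {π₁ : T₁ → X₁} {f : X₁ → X}

theorem finite_fibre (h : HolOrb G ι n) (hπ : IsQuo G π) (hπ₁ : IsQuo G₁ π₁) (hf : IsPr f)
    (e : ∀ x, ∃ (φ₁ : (Fin n → ℂ) → T₁) (φ : (Fin n → ℂ) → T), IsSlice G₁ ι₁ φ₁ ∧ π₁ (φ₁ 0) = x ∧
      IsSlice G ι φ ∧ ∀ z, f (π₁ (φ₁ z)) = π (φ z)) (y : X) : (f ⁻¹' {y}).Finite := by
  refine (hf.pre _ isCompact_singleton).finite (IsDiscrete.of_nhdsWithin fun x hx => ?_)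
  obtain ⟨φ₁, φ, h1, rfl, h2, h3⟩ := e x
  have h4 := LH.map_nhds h1.1
  rw [one_smul] at h4
  rw [le_pure_iff, ← eventually_mem_set, eventually_nhdsWithin_iff, ← hπ₁.oq.map_nhds_eq, ← h4,
    eventually_map, eventually_map]
  filter_upwards [(continuous_snd.tendsto' _ 0 rfl).eventually (h.gch hπ h2).pch] with p hp e'
  rw [hπ₁.smul] at e' ⊢
  rw [hp.2 ((h3 _).symm.trans ((Eq.trans e' hx.symm).trans (h3 0)))]
  rfl

theorem exists_push_fn (h : HolOrb G ι n) (hπ : IsQuo G π) (h₁ : HolOrb G₁ ι₁ n)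
    (hπ₁ : IsQuo G₁ π₁) (hf : IsPr f) (w : X₁ → ℂ)
    (e : ∀ x, ∃ (φ₁ : (Fin n → ℂ) → T₁) (φ : (Fin n → ℂ) → T), IsSlice G₁ ι₁ φ₁ ∧ π₁ (φ₁ 0) = x ∧
      IsSlice G ι φ ∧ (∀ z, f (π₁ (φ₁ z)) = π (φ z)) ∧ stab G₁ (φ₁ 0) * w x = 1) :
    ∃ g, IsLocallyConstant g ∧ cap (hcls (fn g)) (fundQ G ι π n) = push f (fundQ G₁ ι₁ π₁ n) ∧
      ∀ t (F : Finset X₁), (∀ x, x ∈ F ↔ f x = π t) → g (π t) = stab G t * ∑ x ∈ F, w x := by
  have := h.niceX hπ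
  have := h₁.niceX hπ₁
  obtain ⟨g, h1, h2⟩ := (h.ori hπ).exists_fn ((h₁.deg hπ₁).push f)
  refine ⟨g, h1, h2, fun t F hF => ?_⟩
  obtain ⟨ψ, h4, rfl⟩ := h.slice t
  obtain ⟨a, h6, h7⟩ := (h.gch hπ h4).gen
  have h8 := h.val hπ h4 a 1 h6.cyc h6.pt h7
  have h9 := ev_push_finite hf (fundQ G₁ ι₁ π₁ n) (h.gch hπ h4).pch F (fun x => (hF x).2) w
    (fun x hx => by
      obtain ⟨φ₁, φ, k1, k2, k3, k4, k5⟩ := e x
      obtain ⟨θ, k6, k7⟩ := h.rep hπ k3 h4 ((k4 0).symm.trans (k2 ▸ (hF x).1 hx))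
      exact ⟨π₁ ∘ φ₁, θ, _, 1, k2, (h₁.gch hπ₁ k1).pch.cont, h₁.val hπ₁ k1, h₁.stab_cast_ne_zero _,
        k6.germ, k6.co, k7.mono fun z hz => (k4 z).trans hz, k5.symm⟩) h6.cyc h6.pt h7
  rw [← h2, ev_cap_fn h1 _ h6.cyc h6.pt, comp_apply] at h9
  linear_combination (stab G (ψ 0) : ℂ) * h9 - g (π (ψ 0)) * h8

end orb

theorem HO.map_inf {Y' Y : HO} {m : Mor Y'.toSp Y.toSp} {L : Y'.A →L[ℂ] Y.A} {d : Y'.L →L[ℂ] Y.L}
    (hι : ∀ t, Y.ι (m.f t) = L (Y'.ι t)) (hd : ∀ x, m.ρ (Y'.κ x) = Y.κ (d x)) (t : Y'.T)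
    (x : Y'.L) : L (Y'.inf t x) = Y.inf (m.f t) (d x) := by
  have h1 := (L.hasFDerivAt.comp (0 : Y'.L) (Y'.an_orbit t).differentiableAt.hasFDerivAt).fderiv
  have h2 := (HasFDerivAt.comp (0 : Y'.L) (g := fun x => Y.ι (Y.κ x • m.f t)) (g' := Y.inf (m.f t))
    (by rw [map_zero]; exact (Y.an_orbit _).differentiableAt.hasFDerivAt) d.hasFDerivAt).fderiv
  rw [show (fun x => Y.ι (Y.κ x • m.f t)) ∘ d = L ∘ fun x => Y'.ι (Y'.κ x • t) from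
    funext fun x => by rw [comp_apply, comp_apply, ← hι, m.eqv, hd], h1] at h2
  exact DFunLike.congr_fun h2 x

section bo

variable {σ : Type} [Fintype σ] {Y : HO} (h : TH σ Y) (M : ℕ)

theorem TH.inf_bo_inl (x : (h.bo M).T) (y : Y.L) :
    (h.bo M).inf x (y, 0) = (h.b x.2.nrm (Y.inf x.1 y), 0) := by
  have h1 := fderiv_inl (f := fun k : Y.L × (σ → ℂ) => (h.bo M).ι ((h.bo M).κ k • x))
    ((h.bo M).an_orbit x) y
  have h2 := (((LinearMap.toContinuousLinearMap (h.b x.2.nrm)).hasFDerivAt.comp (0 : Y.L)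
    (Y.an_orbit x.1).differentiableAt.hasFDerivAt).prodMk (hasFDerivAt_const x.2.val 0)).fderiv
  refine h1.symm.trans (Eq.trans ?_ (DFunLike.congr_fun h2 y))
  refine congrArg (fun f => fderiv ℂ f 0 y) (funext fun z => ?_)
  change h.ιB M (Y.κ z • h.a (expT 0) x.1, expT 0 • x.2) = h.ιB M (Y.κ z • x.1, x.2)
  rw [expT_zero, one_smul, h.one]

theorem TH.inf_bo_snd (x : (h.bo M).T) (y : (h.bo M).L) :
    ((h.bo M).inf x y).2 = fun i => y.2 i • x.2.val i := by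
  have h1 := ((h.bo M).an_orbit x).differentiableAt.hasFDerivAt.snd
  funext i
  have h2 : HasFDerivAt (fun k : Y.L × (σ → ℂ) => Complex.exp (k.2 i) • x.2.val i) _ 0 :=
    ((ContinuousLinearMap.proj i).comp
      (ContinuousLinearMap.snd ℂ Y.L (σ → ℂ))).hasFDerivAt.cexp.smul_const _
  rw [map_zero, Complex.exp_zero, one_smul] at h2
  exact DFunLike.congr_fun ((hasFDerivAt_pi'.1 h1 i).unique h2) y

theorem TH.mem_orb_bo {x : (h.bo M).T}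
    {v : Y.A} : (v, 0) ∈ (h.bo M).orbB.F x ↔ h.b x.2.nrm⁻¹ v ∈ Y.orbB.F x.1 := by
  refine ⟨fun ⟨y, hy⟩ => ⟨y.1, ?_⟩, fun ⟨y, hy⟩ => ⟨(y, 0), (h.inf_bo_inl M x y).trans
    (Prod.ext ((congrArg _ hy).trans (h.b_inv' _ _)) rfl)⟩⟩
  have h1 : y = (y.1, 0) := Prod.ext rfl (funext fun i => (smul_eq_zero.1 (congrFun
    ((h.inf_bo_snd M x y).symm.trans (congrArg Prod.snd hy)) i)).resolve_right (x.2.ne i))
  rw [h1] at hy
  exact (h.b_inv _ _).symm.trans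
    (congrArg _ (congrArg Prod.fst ((h.inf_bo_inl M x y.1).symm.trans hy)))

end bo

/-- a linear map that induces an immersion of complex orbifolds -/
structure Imm {Y' Y : HO} (m : Mor Y'.toSp Y.toSp) where
  /-- the map of the ambient spaces -/
  L : Y'.A →L[ℂ] Y.A
  /-- the map of the Lie algebras -/
  d : Y'.L →L[ℂ] Y.L
  ι : ∀ t, Y.ι (m.f t) = L (Y'.ι t)
  smul : ∀ (g : Y'.G) v, L (g • v) = m.ρ g • L v
  hd : ∀ x, m.ρ (Y'.κ x) = Y.κ (d x)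
  sd : Surjective d
  sr : Surjective m.ρ
  free : ∀ (g : Y'.G) (t : Y'.T), m.ρ g = 1 → g • t = t → g = 1
  imm : ∀ t, ∀ v ∈ tan Y'.ι t, L v ∈ Y.orbB.F (m.f t) → v ∈ Y'.orbB.F t

namespace Imm

variable {Y' Y : HO} {m : Mor Y'.toSp Y.toSp} (e : Imm m)

theorem L_inf (t : Y'.T) (x : Y'.L) : e.L (Y'.inf t x) = Y.inf (m.f t) (e.d x) :=
  HO.map_inf e.ι e.hd t x

theorem mem_tan {t : Y'.T} {v : Y'.A} (hv : v ∈ tan Y'.ι t) : e.L v ∈ tan Y.ι (m.f t) := by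
  have := (Y'.mfd t).fderiv_mem_tan (ι' := Y.ι) m.cf.continuousAt (e.L.analyticAt _)
    (Eventually.of_forall e.ι) hv
  rwa [ContinuousLinearMap.fderiv] at this

theorem hom : Hom m Y'.tanB Y.tanB fun _ => (e.L : Y'.A →ₗ[ℂ] Y.A) :=
  Hom.of_continuous (fun _ _ => e.mem_tan) (e.L.continuous.comp continuous_snd)
    fun g _ w _ => e.smul g w

theorem map_orb (t : Y'.T) :
    (Y'.orbB.F t).map (e.L : Y'.A →ₗ[ℂ] Y.A) = Y.orbB.F (m.f t) := by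
  refine le_antisymm ?_ ?_
  · rintro _ ⟨_, ⟨x, rfl⟩, rfl⟩
    exact ⟨e.d x, (e.L_inf t x).symm⟩
  · rintro _ ⟨x, rfl⟩
    obtain ⟨x, rfl⟩ := e.sd x
    exact ⟨_, ⟨x, rfl⟩, e.L_inf t x⟩

theorem injective_coprod {φ : (Fin Y'.n → ℂ) → Y'.T} (h : IsSlK Y'.κ Y'.ι φ 0) :
    Injective ((Y.inf (m.f (φ 0))).coprod (e.L.comp (fderiv ℂ (fun z => Y'.ι (φ z)) 0))) := by
  refine (injective_iff_map_eq_zero _).2 fun p hp => ?_
  replace hp : Y.inf _ p.1 + e.L (fderiv ℂ (fun z => Y'.ι (φ z)) 0 p.2) = 0 := hp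
  obtain ⟨x, hx⟩ := e.imm (φ 0) _ (fderiv_mem_tan (h.cont Y'.exp) (h.an Y'.exp) p.2)
    ⟨-p.1, (map_neg _ _).trans (neg_eq_of_add_eq_zero_right hp)⟩
  have h1 : p.2 = 0 := congrArg Prod.snd ((injective_iff_map_eq_zero _).1
    (h.injective Y'.exp (Y'.hol _)) (-x, p.2) (by
      rw [ContinuousLinearMap.coprod_apply, map_neg, ← hx]
      exact neg_add_cancel _))
  rw [h1, map_zero, map_zero, add_zero] at hp
  exact Prod.ext ((injective_iff_map_eq_zero _).1 (Y.inf_inj _) _ hp) h1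

theorem finrank_map (t : Y'.T) :
    finrank ℂ ((tan Y'.ι t).map (e.L : Y'.A →ₗ[ℂ] Y.A)) = finrank ℂ Y.L + Y'.n := by
  obtain ⟨φ, rfl, h⟩ := Y'.exists_slK t
  have h1 := LinearMap.finrank_range_of_inj (f := ((Y.inf (m.f (φ 0))).coprod
    (e.L.comp (fderiv ℂ (fun z => Y'.ι (φ z)) 0)) : Y.L × (Fin Y'.n → ℂ) →ₗ[ℂ] Y.A))
    (e.injective_coprod h)
  rw [finrank_prod, finrank_fin_fun] at h1
  refine (congrArg (fun S : Submodule ℂ Y.A => finrank ℂ S) (le_antisymm ?_ ?_)).trans h1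
  · rintro _ ⟨v, hv, rfl⟩
    obtain ⟨x, z, rfl⟩ := (h.mem_tan Y'.exp (Y'.hol _)).1 hv
    exact ⟨(e.d x, z), (congrArg (· + _) (e.L_inf _ x).symm).trans (map_add e.L _ _).symm⟩
  · rintro _ ⟨⟨x, z⟩, rfl⟩
    obtain ⟨x, rfl⟩ := e.sd x
    exact ⟨_, (h.mem_tan Y'.exp (Y'.hol _)).2 ⟨x, z, rfl⟩,
      (map_add e.L _ _).trans (congrArg (· + _) (e.L_inf _ x))⟩

include e in
/-- slices go to slices -/
theorem isSlK (hn : Y'.n = Y.n) {φ : (Fin Y'.n → ℂ) → Y'.T} (h : IsSlK Y'.κ Y'.ι φ 0) :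
    IsSlK Y.κ Y.ι (fun z => m.f (φ z)) 0 := by
  have h1 : (fun z => Y.ι (m.f (φ z))) = fun z => e.L (Y'.ι (φ z)) := funext fun z => e.ι _
  refine IsSlK.of_transverse Y.exp (Y.mfd _) (Y.hol _) (m.cf.continuousAt.comp (h.cont Y'.exp))
    (h1 ▸ (e.L.analyticAt _).comp (h.an Y'.exp)) ?_ (by rw [finrank_fin_fun, hn])
  rw [h1, fderiv_comp_an (e.L.analyticAt _) (h.an Y'.exp), e.L.fderiv]
  exact e.injective_coprod h

include e in
/-- **the degree of a proper etale map** -/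
theorem push_fund (hn : Y'.n = Y.n) (hp : IsPr m.map) : ∃ n : Y.X → ℕ, IsLocallyConstant n ∧
    (∀ t, Cnt m univ t (n (Y.π t))) ∧
    push m.map Y'.fund = cap (hcls (fn fun x => (n x : ℂ))) Y.fund := by
  have h0 : HolOrb Y.G Y.ι Y'.n := hn ▸ Y.holOrb
  have h1 : ∀ x, ∃ (φ₁ : (Fin Y'.n → ℂ) → Y'.T) (φ : (Fin Y'.n → ℂ) → Y.T),
      IsSlice Y'.G Y'.ι φ₁ ∧ Y'.π (φ₁ 0) = x ∧ IsSlice Y.G Y.ι φ ∧
      (∀ z, m.map (Y'.π (φ₁ z)) = Y.π (φ z)) ∧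
      stab Y'.G (φ₁ 0) * (stab Y'.G (Y'.out x) : ℂ)⁻¹ = 1 := fun x => by
    obtain ⟨φ, h2, h3⟩ := Y'.exists_slK (Y'.out x)
    exact ⟨φ, _, isSlice_iff.2 (h3.isSl Y'.exp), by rw [h2, Y'.π_out],
      isSlice_iff.2 ((e.isSlK hn h3).isSl Y.exp), fun z => m.map_π _,
      by rw [h2, mul_inv_cancel₀ (Y'.holOrb.stab_cast_ne_zero _)]⟩
  obtain ⟨g, h2, h3, h4⟩ := exists_push_fn h0 Y.isQuo Y'.holOrb Y'.isQuo hp _ h1
  have h5 : ∀ t, ∃ n : ℕ, Cnt m univ t n ∧ (n : ℂ) = g (Y.π t) := fun t => by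
    have h6 := finite_fibre h0 Y.isQuo Y'.isQuo hp (fun x => (h1 x).imp fun _ h => h.imp fun _ h =>
      ⟨h.1, h.2.1, h.2.2.1, h.2.2.2.1⟩) (Y.π t)
    rw [h4 t h6.toFinset fun x => h6.mem_toFinset]
    exact exists_cnt m e.sr e.free t _ fun x => h6.mem_toFinset
  choose N h6 h7 using h5
  have h8 : (fun x => (N (Y.out x) : ℂ)) = g := funext fun x => by rw [h7, Y.π_out]
  refine ⟨fun x => N (Y.out x), IsLocallyConstant.desc _ (Nat.cast : ℕ → ℂ) (by rwa [← h8] at h2)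
    Nat.cast_injective, fun t => ?_, ?_⟩
  · exact (congrArg (Cnt m univ t)
      (Nat.cast_injective (R := ℂ) ((h7 t).trans (congrFun h8 _).symm))).mp (h6 t)
  · rw [h8, HO.fund, HO.fund, ← hn, h3]

variable {σ : Type} [Fintype σ] {h' : TH σ Y'} {h : TH σ Y} (he : h.toTS.IsEq h'.toTS m)
  (hb : ∀ s v, e.L (h'.b s v) = h.b s (e.L v))

/-- the immersion of the Borel constructions -/
noncomputable def bo (M : ℕ) : Imm (Y' := h'.bo M) (Y := h.bo M) (he.bo (pm σ M)) where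
  L := e.L.prodMap (ContinuousLinearMap.id ℂ _)
  d := e.d.prodMap (ContinuousLinearMap.id ℂ _)
  ι x := Prod.ext ((congrArg _ (e.ι x.1)).trans (hb _ _).symm) rfl
  smul k v := Prod.ext ((e.smul k.1 _).trans (congrArg _ (hb _ _))) rfl
  hd x := Prod.ext (e.hd x.1) rfl
  sd := e.sd.prodMap surjective_id
  sr := e.sr.prodMap surjective_id
  free k x h1 h2 := by
    have h3 : k.2 = 1 := congrArg Prod.snd h1
    have h4 : k.1 • h'.a k.2 x.1 = x.1 := congrArg Prod.fst h2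
    rw [h3, h'.one] at h4
    exact Prod.ext (e.free k.1 x.1 (congrArg Prod.fst h1) h4) h3
  imm x v hv := by
    rintro ⟨y, hy⟩
    have h1 := HO.map_inf (Y' := h'.bo M) (Y := h.bo M) (m := he.bo (pm σ M))
      (L := e.L.prodMap (ContinuousLinearMap.id ℂ _)) (d := e.d.prodMap (ContinuousLinearMap.id ℂ _))
      (fun x => Prod.ext ((congrArg _ (e.ι x.1)).trans (hb _ _).symm) rfl)
      (fun x => Prod.ext (e.hd x.1) rfl) x (0, y.2)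
    have h2 : (v - (h'.bo M).inf x (0, y.2)).2 = 0 := sub_eq_zero.2
      ((congrArg Prod.snd hy).symm.trans ((h.inf_bo_snd M _ y).trans (h'.inf_bo_snd M x (0, y.2)).symm))
    have h3 : (e.L (v - (h'.bo M).inf x (0, y.2)).1, 0) ∈ (h.bo M).orbB.F ((he.bo (pm σ M)).f x) := by
      rw [← h2]
      exact ⟨_, (map_sub _ _ _).trans ((congrArg₂ _ hy h1.symm).trans (map_sub _ _ _).symm)⟩
    have h4 := (h'.mem_orb_bo M).2 (e.imm x.1 _ ((h'.mem_tan_bo M).1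
      (sub_mem hv ((h'.bo M).inf_mem_tan x (0, y.2)))) ((hb _ _).symm ▸ (h.mem_orb_bo M).1 h3))
    rw [← h2] at h4
    exact sub_add_cancel v _ ▸ add_mem h4 ⟨(0, y.2), rfl⟩

omit e in
theorem cnt_bo {B : Set Y'.T} {t : Y.T} {n : ℕ} (P : PS σ) (p : P.P) :
    Cnt (he.bo P) {x | x.1 ∈ B} (t, p) n ↔ Cnt m B t n := by
  have key : ∀ t₁ t₂ : Y'.T, (∃ γ : (h'.toTS.bo P).G, (he.bo P).ρ γ = 1 ∧
      γ • (show (h'.toTS.bo P).T from (t₁, p)) = (t₂, p)) ↔ ∃ g : Y'.G, m.ρ g = 1 ∧ g • t₁ = t₂ :=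
    fun t₁ t₂ => ⟨fun ⟨k, h1, h2⟩ => ⟨k.1, congrArg Prod.fst h1, by
      have h3 : k.1 • h'.a k.2 t₁ = t₂ := congrArg Prod.fst h2
      rwa [show k.2 = 1 from congrArg Prod.snd h1, h'.one] at h3⟩,
    fun ⟨g, h1, h2⟩ => ⟨(g, 1), Prod.ext h1 rfl,
      Prod.ext ((congrArg (g • ·) (h'.one t₁)).trans h2) (one_smul _ p)⟩⟩
  refine ⟨fun ⟨u, h1, h2⟩ => ⟨fun k => (u k).1, fun k => ⟨(h1 k).1, congrArg Prod.fst (h1 k).2⟩,
    fun t' ht e' => (existsUnique_congr fun k => ?_).1 (h2 (t', p) ht (Prod.ext e' rfl))⟩,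
    fun ⟨u, h1, h2⟩ => ⟨fun k => (u k, p), fun k => ⟨(h1 k).1, Prod.ext (h1 k).2 rfl⟩, ?_⟩⟩
  · rw [← key, ← show (u k).2 = p from congrArg Prod.snd (h1 k).2]
    rfl
  · rintro ⟨t', p'⟩ ht e'
    obtain rfl : p' = p := congrArg Prod.snd e'
    exact (existsUnique_congr fun k => key _ _).2 (h2 t' ht (congrArg Prod.fst e'))

end Imm

end Vale.Agent.P269.Loc
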