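import Mathlib

/-!
# Tori, characters, weight decompositions
-/

namespace Vale.Agent.P269.Loc

open Set Function Topology Filter Module

/-- the complex torus -/
abbrev Tor (σ : Type) : Type := σ → ℂˣ

variable {σ : Type} [Fintype σ]

/-- the character of an integral weight -/
noncomputable def chr (w : σ → ℤ) : Tor σ →* ℂˣ where
  toFun s := ∏ i, s i ^ w i
  map_one' := by simp
  map_mul' s t := by simp [mul_zpow, Finset.prod_mul_distrib]

theorem chr_apply (w : σ → ℤ) (s : Tor σ) : chr w s = ∏ i, s i ^ w i := rfl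

theorem chr_zero (s : Tor σ) : chr 0 s = 1 := by simp [chr_apply]

theorem chr_add (w w' : σ → ℤ) (s : Tor σ) : chr (w + w') s = chr w s * chr w' s := by
  simp [chr_apply, zpow_add, Finset.prod_mul_distrib]

theorem chr_neg (w : σ → ℤ) (s : Tor σ) : chr (-w) s = (chr w s)⁻¹ := by
  simp [chr_apply]

theorem chr_sub (w w' : σ → ℤ) (s : Tor σ) : chr (w - w') s = chr w s * (chr w' s)⁻¹ := by
  rw [sub_eq_add_neg, chr_add, chr_neg]

theorem chr_nsmul (k : ℕ) (w : σ → ℤ) (s : Tor σ) : chr (k • w) s = chr w s ^ k := by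
  induction k with
  | zero => simp [chr_zero]
  | succ k ih => rw [succ_nsmul, chr_add, ih, pow_succ]

theorem chr_single [DecidableEq σ] (i : σ) (s : Tor σ) : chr (Pi.single i 1) s = s i := by
  rw [chr_apply, Finset.prod_eq_single i]
  · simp
  · intro j _ hj
    simp [Pi.single_eq_of_ne hj]
  · simp

theorem coe_chr (w : σ → ℤ) (s : Tor σ) : (chr w s : ℂ) = ∏ i, (s i : ℂ) ^ w i := by
  simp [chr_apply]

theorem continuous_chr (w : σ → ℤ) : Continuous (chr w) :=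
  continuous_finsetProd _ fun i _ => (continuous_apply i).zpow _

theorem continuous_coe_chr (w : σ → ℤ) : Continuous fun s => (chr w s : ℂ) :=
  Units.continuous_val.comp (continuous_chr w)

/-- the compact torus -/
def cpt (σ : Type) : Subgroup (Tor σ) where
  carrier := {s | ∀ i, ‖(s i : ℂ)‖ = 1}
  one_mem' i := by simp
  mul_mem' {a b} ha hb i := by simp [ha i, hb i]
  inv_mem' {a} ha i := by simp [ha i]

theorem norm_chr {s : Tor σ} (hs : s ∈ cpt σ) (w : σ → ℤ) : ‖(chr w s : ℂ)‖ = 1 := by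
  rw [coe_chr, norm_prod]
  exact Finset.prod_eq_one fun i _ => by rw [norm_zpow, hs i, one_zpow]

/-- the exponential map of the torus -/
noncomputable def expT (x : σ → ℂ) : Tor σ :=
  fun i => Units.mk0 (Complex.exp (x i)) (Complex.exp_ne_zero _)

omit [Fintype σ] in
theorem coe_expT (x : σ → ℂ) (i : σ) : (expT x i : ℂ) = Complex.exp (x i) := rfl

omit [Fintype σ] in
theorem expT_add (x y : σ → ℂ) : expT (x + y) = expT x * expT y := by
  funext i; ext; simp [coe_expT, Complex.exp_add]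

omit [Fintype σ] in
theorem expT_zero : expT (0 : σ → ℂ) = 1 := by
  funext i; ext; simp [coe_expT]

omit [Fintype σ] in
theorem expT_nsmul (k : ℕ) (x : σ → ℂ) : expT (k • x) = expT x ^ k := by
  induction k with
  | zero => simp [expT_zero]
  | succ k ih => rw [succ_nsmul, expT_add, ih, pow_succ]

omit [Fintype σ] in
theorem expT_surjective : Surjective (expT : (σ → ℂ) → Tor σ) := fun s =>
  ⟨fun i => Complex.log (s i), by funext i; ext; exact Complex.exp_log (s i).ne_zero⟩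

omit [Fintype σ] in
theorem continuous_expT : Continuous (expT : (σ → ℂ) → Tor σ) :=
  continuous_pi fun i => Units.continuous_iff.2 ⟨Complex.continuous_exp.comp (continuous_apply i), by
    have : (fun x : σ → ℂ => (((expT x i)⁻¹ : ℂˣ) : ℂ)) = fun x => Complex.exp (-x i) := by
      funext x; simp [coe_expT, Complex.exp_neg]
    exact this ▸ Complex.continuous_exp.comp (continuous_apply i).neg⟩

theorem chr_expT (w : σ → ℤ) (x : σ → ℂ) :
    (chr w (expT x) : ℂ) = Complex.exp (∑ i, w i * x i) := by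
  rw [coe_chr, Complex.exp_sum]
  exact Finset.prod_congr rfl fun i _ => by rw [coe_expT, Complex.exp_int_mul]

omit [Fintype σ] in
theorem exists_pow_eq {m : ℕ} (hm : m ≠ 0) (s : Tor σ) : ∃ t : Tor σ, t ^ m = s := by
  obtain ⟨x, rfl⟩ := expT_surjective s
  refine ⟨expT ((m : ℂ)⁻¹ • x), ?_⟩
  rw [← expT_nsmul, ← Nat.cast_smul_eq_nsmul ℂ, smul_inv_smul₀ (Nat.cast_ne_zero.2 hm)]

omit [Fintype σ] in
theorem mem_cpt_of_pow {m : ℕ} (hm : m ≠ 0) {t : Tor σ} (h : t ^ m ∈ cpt σ) : t ∈ cpt σ :=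
  fun i => by
    have := h i
    rw [Pi.pow_apply, Units.val_pow_eq_pow_val, norm_pow] at this
    exact (pow_eq_one_iff_of_nonneg (norm_nonneg _) hm).1 this

theorem exists_gen : ∃ s ∈ cpt σ, ∀ w : σ → ℤ, chr w s = 1 → w = 0 := by
  classical
  let e := Fintype.equivFin σ
  let x := liouvilleNumber 2
  have hx : Transcendental ℤ x := transcendental_liouvilleNumber le_rfl
  refine ⟨expT fun i => ((x ^ (e i + 1 : ℕ) : ℝ) : ℂ) * (2 * Real.pi * Complex.I), fun i => ?_,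
    fun w hw => ?_⟩
  · rw [coe_expT, Complex.norm_exp]
    simp [-Complex.ofReal_pow]
  · have h1 := chr_expT w fun i => ((x ^ (e i + 1 : ℕ) : ℝ) : ℂ) * (2 * Real.pi * Complex.I)
    rw [hw, Units.val_one, eq_comm, Complex.exp_eq_one_iff] at h1
    obtain ⟨n, hn⟩ := h1
    simp only [← mul_assoc] at hn
    rw [← Finset.sum_mul, ← Finset.sum_mul, ← Finset.sum_mul] at hn
    have h2 : ∑ i, (w i : ℂ) * ((x ^ (e i + 1 : ℕ) : ℝ) : ℂ) = n :=
      mul_right_cancel₀ two_ne_zero (mul_right_cancel₀ (Complex.ofReal_ne_zero.2 Real.pi_ne_zero)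
        (mul_right_cancel₀ Complex.I_ne_zero hn))
    have h3 : ∑ i, (w i : ℝ) * x ^ (e i + 1 : ℕ) = n := by exact_mod_cast h2
    let p : Polynomial ℤ := ∑ i, Polynomial.monomial (e i + 1) (w i) - Polynomial.C n
    have h4 : p = 0 := transcendental_iff.1 hx p (by
      simp only [p, map_sub, map_sum, Polynomial.aeval_monomial, eq_intCast,
        algebraMap_int_eq, h3, map_intCast, sub_self])
    funext i
    have h5 := congrArg (Polynomial.coeff · (e i + 1)) h4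
    simp only [p, Polynomial.coeff_sub, Polynomial.finsetSum_coeff, Polynomial.coeff_monomial,
      Polynomial.coeff_C, Polynomial.coeff_zero, Nat.add_right_cancel_iff, Fin.val_inj,
      e.apply_eq_iff_eq, Finset.sum_ite_eq', Finset.mem_univ, if_true] at h5
    simpa using h5

/-- a generic element of the compact torus -/
noncomputable def gen (σ : Type) [Fintype σ] : Tor σ := (exists_gen (σ := σ)).choose

theorem gen_mem : gen σ ∈ cpt σ := exists_gen.choose_spec.1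

theorem eq_zero_of_chr_gen {w : σ → ℤ} (h : chr w (gen σ) = 1) : w = 0 :=
  exists_gen.choose_spec.2 w h

theorem chr_gen_injective : Injective fun w : σ → ℤ => (chr w (gen σ) : ℂ) := fun w w' h =>
  sub_eq_zero.1 (eq_zero_of_chr_gen (by
    rw [chr_sub, Units.ext h, mul_inv_cancel]))

theorem chr_gen_pow_injective {k : ℕ} (hk : k ≠ 0) :
    Injective fun w : σ → ℤ => (chr w (gen σ ^ k) : ℂ) := fun w w' h => by
  simp only [map_pow, ← chr_nsmul] at h
  exact smul_right_injective _ hk (chr_gen_injective h)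

/-! ### weight spaces -/

variable {V V' : Type*} [AddCommGroup V] [Module ℂ V] [AddCommGroup V'] [Module ℂ V']

/-- the weight space -/
def wsp (τ : Tor σ →* End ℂ V) (w : σ → ℤ) : Submodule ℂ V where
  carrier := {v | ∀ s, τ s v = (chr w s : ℂ) • v}
  zero_mem' s := by simp
  add_mem' ha hb s := by rw [map_add, ha s, hb s, smul_add]
  smul_mem' c v hv s := by rw [map_smul, hv s, smul_comm]

theorem mem_wsp {τ : Tor σ →* End ℂ V} {w : σ → ℤ} {v : V} :
    v ∈ wsp τ w ↔ ∀ s, τ s v = (chr w s : ℂ) • v := Iff.rfl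

theorem mem_wsp_zero {τ : Tor σ →* End ℂ V} {v : V} : v ∈ wsp τ 0 ↔ ∀ s, τ s v = v := by
  simp [mem_wsp, chr_zero]

theorem wsp_le_eigenspace (τ : Tor σ →* End ℂ V) (w : σ → ℤ) (s : Tor σ) :
    wsp τ w ≤ (τ s).eigenspace (chr w s) := fun _ hv => End.mem_eigenspace_iff.2 (hv s)

theorem iSupIndep_wsp (τ : Tor σ →* End ℂ V) : iSupIndep (wsp τ) :=
  ((τ (gen σ)).eigenspaces_iSupIndep.comp chr_gen_injective).mono fun w => wsp_le_eigenspace τ w _

theorem apply_mem_wsp {τ : Tor σ →* End ℂ V} {w : σ → ℤ} {v : V} (hv : v ∈ wsp τ w) (s : Tor σ) :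
    τ s v ∈ wsp τ w := by rw [hv s]; exact Submodule.smul_mem _ _ hv

theorem map_mem_wsp {τ : Tor σ →* End ℂ V} {τ' : Tor σ →* End ℂ V'} {f : V →ₗ[ℂ] V'}
    (hf : ∀ s v, f (τ s v) = τ' s (f v)) {w : σ → ℤ} {v : V} (hv : v ∈ wsp τ w) :
    f v ∈ wsp τ' w := fun s => by rw [← hf, hv s, map_smul]

/-- the representation is the sum of its weight spaces -/
def Wtd (τ : Tor σ →* End ℂ V) : Prop := ⨆ w, wsp τ w = ⊤

/-- the moving part -/
noncomputable def mov (τ : Tor σ →* End ℂ V) : Submodule ℂ V := ⨆ w ≠ 0, wsp τ w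

theorem wsp_le_mov (τ : Tor σ →* End ℂ V) {w : σ → ℤ} (hw : w ≠ 0) : wsp τ w ≤ mov τ :=
  le_iSup₂_of_le (f := fun w (_ : w ≠ 0) => wsp τ w) w hw le_rfl

theorem Wtd.isCompl {τ : Tor σ →* End ℂ V} (h : Wtd τ) (w : σ → ℤ) :
    IsCompl (wsp τ w) (⨆ w' ≠ w, wsp τ w') :=
  ⟨iSupIndep_wsp τ w, codisjoint_iff.2 (by rw [← iSup_split_single, h])⟩

open Classical in
/-- the projection to a weight space -/
noncomputable def wpr (τ : Tor σ →* End ℂ V) (w : σ → ℤ) : End ℂ V :=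
  if h : Wtd τ then Submodule.projection _ _ (h.isCompl w) else 0

namespace Wtd

variable {τ : Tor σ →* End ℂ V} (h : Wtd τ)
include h

theorem induction {P : V → Prop} (v : V) (hw : ∀ w, ∀ v ∈ wsp τ w, P v) (h0 : P 0)
    (hadd : ∀ a b, P a → P b → P (a + b)) : P v :=
  Submodule.iSup_induction (wsp τ) (motive := P) (h ▸ Submodule.mem_top) hw h0 hadd

theorem wpr_mem (w : σ → ℤ) (v : V) : wpr τ w v ∈ wsp τ w := by
  rw [wpr, dif_pos h]; exact Submodule.projection_apply_mem (h.isCompl w) v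

theorem wpr_of_mem {w : σ → ℤ} {v : V} (hv : v ∈ wsp τ w) : wpr τ w v = v := by
  rw [wpr, dif_pos h]; exact Submodule.projection_apply_left (h.isCompl w) ⟨v, hv⟩

theorem wpr_of_ne {w w' : σ → ℤ} (hw : w' ≠ w) {v : V} (hv : v ∈ wsp τ w') : wpr τ w v = 0 := by
  rw [wpr, dif_pos h]
  exact (Submodule.projection_apply_eq_zero_iff (h.isCompl w)).2
    (le_iSup₂_of_le (f := fun w' (_ : w' ≠ w) => wsp τ w') w' hw le_rfl hv)

theorem wpr_wpr (w : σ → ℤ) (v : V) : wpr τ w (wpr τ w v) = wpr τ w v :=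
  h.wpr_of_mem (h.wpr_mem w v)

theorem wpr_eq_iff {w : σ → ℤ} {v : V} : wpr τ w v = v ↔ v ∈ wsp τ w :=
  ⟨fun e => e ▸ h.wpr_mem w v, h.wpr_of_mem⟩

theorem mem_mov {v : V} : v ∈ mov τ ↔ wpr τ 0 v = 0 := by
  rw [wpr, dif_pos h]; exact (Submodule.projection_apply_eq_zero_iff (h.isCompl 0)).symm

theorem sub_wpr_mem (v : V) : v - wpr τ 0 v ∈ mov τ := by
  rw [h.mem_mov, map_sub, h.wpr_wpr, sub_self]

theorem map_wpr {τ' : Tor σ →* End ℂ V'} (h' : Wtd τ') {f : V →ₗ[ℂ] V'}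
    (hf : ∀ w, ∀ v ∈ wsp τ w, f v ∈ wsp τ' w) (w : σ → ℤ) (v : V) :
    f (wpr τ w v) = wpr τ' w (f v) := by
  refine h.induction (P := fun v => f (wpr τ w v) = wpr τ' w (f v)) v (fun w' v hv => ?_)
    (by simp) fun a b ha hb => by simp only [map_add, ha, hb]
  by_cases e : w' = w
  · subst e; rw [h.wpr_of_mem hv, h'.wpr_of_mem (hf _ _ hv)]
  · rw [h.wpr_of_ne e hv, h'.wpr_of_ne e (hf _ _ hv), map_zero]

theorem apply_wpr (s : Tor σ) (w : σ → ℤ) (v : V) : τ s (wpr τ w v) = wpr τ w (τ s v) :=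
  h.map_wpr h (fun _ _ hv => apply_mem_wsp hv s) w v

theorem wpr_apply (s : Tor σ) (w : σ → ℤ) (v : V) :
    wpr τ w (τ s v) = (chr w s : ℂ) • wpr τ w v := by
  rw [← h.apply_wpr, h.wpr_mem w v s]

theorem sum_wpr {W : Finset (σ → ℤ)} (hW : ∀ w ∉ W, wsp τ w = ⊥) (v : V) :
    ∑ w ∈ W, wpr τ w v = v := by
  refine h.induction (P := fun v => ∑ w ∈ W, wpr τ w v = v) v (fun w' v hv => ?_)
    (by simp) fun a b ha hb => by simp only [map_add, Finset.sum_add_distrib, ha, hb]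
  by_cases e : w' ∈ W
  · rw [Finset.sum_eq_single_of_mem w' e fun w _ hw => h.wpr_of_ne hw.symm hv, h.wpr_of_mem hv]
  · rw [hW w' e, Submodule.mem_bot] at hv
    simp [hv]

omit h in
theorem _root_.Vale.Agent.P269.Loc.exists_wts [FiniteDimensional ℂ V] (τ : Tor σ →* End ℂ V) :
    ∃ W : Finset (σ → ℤ), ∀ w ∉ W, wsp τ w = ⊥ :=
  ⟨(WellFoundedGT.finite_ne_bot_of_iSupIndep (iSupIndep_wsp τ)).toFinset, fun w hw => by
    by_contra e
    exact hw (Set.Finite.mem_toFinset _ |>.2 e)⟩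

theorem ext_wpr [FiniteDimensional ℂ V] {a b : V} (e : ∀ w, wpr τ w a = wpr τ w b) : a = b := by
  obtain ⟨W, hW⟩ := exists_wts τ
  rw [← h.sum_wpr hW a, ← h.sum_wpr hW b]
  exact Finset.sum_congr rfl fun w _ => e w

/-- eigenvectors of a generic element are weight vectors -/
theorem mem_wsp_of_eigen [FiniteDimensional ℂ V] {s : Tor σ}
    (hs : Injective fun w : σ → ℤ => (chr w s : ℂ)) {w : σ → ℤ} {v : V}
    (hv : τ s v = (chr w s : ℂ) • v) : v ∈ wsp τ w := by
  rw [← h.wpr_eq_iff]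
  refine h.ext_wpr fun w' => ?_
  by_cases e : w' = w
  · rw [e, h.wpr_wpr]
  · rw [h.wpr_of_ne (Ne.symm e) (h.wpr_mem w v)]
    have h1 := h.wpr_apply s w' v
    rw [hv, map_smul, ← sub_eq_zero, ← sub_smul] at h1
    exact ((smul_eq_zero.1 h1).resolve_left fun h2 => e (hs (sub_eq_zero.1 h2)).symm).symm

theorem mem_wsp_zero_of_gen_pow [FiniteDimensional ℂ V] {k : ℕ} (hk : k ≠ 0) {v : V}
    (hv : τ (gen σ ^ k) v = v) : v ∈ wsp τ 0 :=
  h.mem_wsp_of_eigen (chr_gen_pow_injective hk) (by rw [hv, chr_zero, Units.val_one, one_smul])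

/-- a vector with a finite orbit under the generic element is fixed -/
theorem mem_wsp_zero_of_finite [FiniteDimensional ℂ V] {v : V} {B : Set V} (hB : B.Finite)
    (hv : ∀ k : ℕ, τ (gen σ ^ k) v ∈ B) : v ∈ wsp τ 0 := by
  obtain ⟨a, b, hab, e⟩ := hB.exists_lt_map_eq_of_forall_mem hv
  refine h.mem_wsp_zero_of_gen_pow (k := b - a) (by omega) ?_
  have := congrArg (τ (gen σ ^ a)⁻¹) e
  rw [← End.mul_apply, ← End.mul_apply, ← map_mul, ← map_mul, inv_mul_cancel, map_one,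
    End.one_apply, ← Nat.add_sub_cancel' hab.le, pow_add, inv_mul_cancel_left] at this
  exact this.symm

/-- subspaces invariant under the generic element are graded -/
theorem wpr_mem_of_gen [FiniteDimensional ℂ V] {U : Submodule ℂ V}
    (hU : ∀ v ∈ U, τ (gen σ) v ∈ U) (w : σ → ℤ) {v : V} (hv : v ∈ U) : wpr τ w v ∈ U := by
  have h1 : ⨆ μ, (τ (gen σ)).genEigenspace μ 1 = ⊤ :=
    top_le_iff.1 (h ▸ iSup_le fun w => (wsp_le_eigenspace τ w _).trans (le_iSup _ _))
  have hv' := hv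
  rw [Submodule.eq_iSup_inf_genEigenspace 1 hU h1] at hv'
  refine Submodule.iSup_induction _ (motive := fun v => wpr τ w v ∈ U) hv' (fun μ v hv => ?_)
    (by simp) fun a b ha hb => by rw [map_add]; exact U.add_mem ha hb
  have h2 : τ (gen σ) v = μ • v := End.mem_eigenspace_iff.1 hv.2
  by_cases e : μ = chr w (gen σ)
  · rw [h.wpr_of_mem (h.mem_wsp_of_eigen chr_gen_injective (e ▸ h2))]; exact hv.1
  · have h1 := h.wpr_apply (gen σ) w v
    rw [h2, map_smul, ← sub_eq_zero, ← sub_smul] at h1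
    rw [(smul_eq_zero.1 h1).resolve_left (sub_ne_zero.2 e)]
    exact U.zero_mem

theorem apply_mem_of_gen [FiniteDimensional ℂ V] {U : Submodule ℂ V}
    (hU : ∀ v ∈ U, τ (gen σ) v ∈ U) (s : Tor σ) {v : V} (hv : v ∈ U) : τ s v ∈ U := by
  obtain ⟨W, hW⟩ := exists_wts τ
  rw [← h.sum_wpr hW v, map_sum]
  exact U.sum_mem fun w _ => by
    rw [h.wpr_mem w v s]; exact U.smul_mem _ (h.wpr_mem_of_gen hU w hv)

theorem apply_eq_sum {W : Finset (σ → ℤ)} (hW : ∀ w ∉ W, wsp τ w = ⊥) (s : Tor σ) (v : V) :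
    τ s v = ∑ w ∈ W, (chr w s : ℂ) • wpr τ w v := by
  conv_lhs => rw [← h.sum_wpr hW v, map_sum]
  exact Finset.sum_congr rfl fun w _ => h.wpr_mem w v s

/-- a linear map can be made equivariant -/
theorem exists_avg [FiniteDimensional ℂ V] {τ' : Tor σ →* End ℂ V'} (h' : Wtd τ')
    (f : V →ₗ[ℂ] V') : ∃ f' : V →ₗ[ℂ] V', (∀ w, ∀ v ∈ wsp τ w, f' v = wpr τ' w (f v)) ∧
      ∀ s v, f' (τ s v) = τ' s (f' v) := by
  obtain ⟨W, hW⟩ := exists_wts τ
  have key : ∀ w, ∀ v ∈ wsp τ w, (∑ w ∈ W, wpr τ' w ∘ₗ f ∘ₗ wpr τ w) v = wpr τ' w (f v) := by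
    intro w v hv
    rw [LinearMap.sum_apply]
    by_cases e : w ∈ W
    · rw [Finset.sum_eq_single_of_mem w e fun w' _ hw => by simp [h.wpr_of_ne hw.symm hv]]
      simp [h.wpr_of_mem hv]
    · rw [hW w e, Submodule.mem_bot] at hv
      simp [hv]
  refine ⟨_, key, fun s v => h.induction (P := fun v => (∑ w ∈ W, wpr τ' w ∘ₗ f ∘ₗ wpr τ w)
    (τ s v) = τ' s ((∑ w ∈ W, wpr τ' w ∘ₗ f ∘ₗ wpr τ w) v)) v (fun w v hv => ?_) (by simp)
    fun a b ha hb => by simp only [map_add, ha, hb]⟩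
  rw [hv s, map_smul, key w v hv, h'.wpr_mem w _ s]

end Wtd

theorem finrank_eq_sum [FiniteDimensional ℂ V] {τ : Tor σ →* End ℂ V} (h : Wtd τ)
    {W : Finset (σ → ℤ)} (hW : ∀ w ∉ W, wsp τ w = ⊥) {U : Submodule ℂ V}
    (hU : ∀ w, ∀ v ∈ U, wpr τ w v ∈ U) :
    finrank ℂ U = ∑ w ∈ W, finrank ℂ (U ⊓ wsp τ w : Submodule ℂ V) := by
  let f : U →ₗ[ℂ] (∀ w : W, (U ⊓ wsp τ w : Submodule ℂ V)) := LinearMap.pi fun w =>
    LinearMap.codRestrict _ (wpr τ w ∘ₗ U.subtype) fun v => ⟨hU w v v.2, h.wpr_mem w v⟩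
  have hf : Bijective f := by
    refine ⟨(injective_iff_map_eq_zero f).2 fun v hv => Subtype.ext ?_, fun x => ?_⟩
    · rw [← h.sum_wpr hW v.1]
      exact Finset.sum_eq_zero fun w hw => congrArg Subtype.val (congrFun hv ⟨w, hw⟩)
    · refine ⟨⟨∑ w, (x w).1, U.sum_mem fun w _ => (x w).2.1⟩, funext fun w => Subtype.ext ?_⟩
      change wpr τ w (∑ w, (x w).1) = x w
      rw [map_sum, Finset.sum_eq_single w (fun w' _ hw => h.wpr_of_ne
        (fun e => hw (Subtype.ext e)) (x w').2.2) (by simp), h.wpr_of_mem (x w).2.2]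
  rw [(LinearEquiv.ofBijective f hf).finrank_eq, Module.finrank_pi_fintype,
    Finset.sum_coe_sort W fun w => finrank ℂ (U ⊓ wsp τ w : Submodule ℂ V)]

end Vale.Agent.P269.Loc
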