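import Vale.Agent.P269.Loc.HO
import Vale.Agent.P269.Loc.Wt
import Vale.Agent.P269.Ch.Chern

/-!
# Torus actions on presented orbifolds and finite dimensional approximations of the Borel
construction
-/

set_option linter.unusedSectionVars false
set_option linter.style.haveILetI false

namespace Vale.Agent.P269.Loc

open Set Function Topology Filter Module Vale.Agent.P291Z Vale.Agent.P269.Ch Vale.Agent.P269.Holo
  Vale.Agent.P269.Orb

variable {σ : Type} [Fintype σ] {Y Y' Y'' : Ch.Sp}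

section wt

variable {V : Type*} [NormedAddCommGroup V] [NormedSpace ℂ V] [FiniteDimensional ℂ V]
  {τ : Tor σ →* End ℂ V}

theorem Wtd.cont₂ (h : Wtd τ) : Continuous fun p : Tor σ × V => τ p.1 p.2 := by
  obtain ⟨W, hW⟩ := exists_wts τ
  simp only [h.apply_eq_sum hW]
  exact continuous_finsetSum _ fun w _ => ((continuous_coe_chr w).comp continuous_fst).smul
    ((wpr τ w).continuous_of_finiteDimensional.comp continuous_snd)

theorem an_chr (w : σ → ℤ) (x : σ → ℂ) : AnalyticAt ℂ (fun x => (chr w (expT x) : ℂ)) x := by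
  simp only [chr_expT]
  exact AnalyticAt.cexp' (Finset.analyticAt_fun_sum _ fun i _ =>
    analyticAt_const.mul ((ContinuousLinearMap.proj (R := ℂ) (φ := fun _ : σ => ℂ) i).analyticAt x))

theorem Wtd.an₂ (h : Wtd τ) (p : (σ → ℂ) × V) :
    AnalyticAt ℂ (fun p : (σ → ℂ) × V => τ (expT p.1) p.2) p := by
  obtain ⟨W, hW⟩ := exists_wts τ
  simp only [h.apply_eq_sum hW]
  exact Finset.analyticAt_fun_sum _ fun w _ => ((an_chr w _).comp analyticAt_fst).smul
    (((LinearMap.toContinuousLinearMap (wpr τ w)).analyticAt _).comp analyticAt_snd)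

end wt

theorem isExp_expT : IsExp (expT : (σ → ℂ) → Tor σ) := by
  refine ⟨LH.of_inv (fun s i => Complex.log (s i))
    (Eventually.of_forall fun _ => continuous_expT.continuousAt) ?_ ?_
    (Eventually.of_forall fun s => funext fun i => Units.ext (Complex.exp_log (s i).ne_zero)),
    continuous_expT, fun s s' x => by rw [add_smul, expT_add]⟩
  · have : ∀ᶠ s in 𝓝 (expT (0 : σ → ℂ)), ∀ i, (s i : ℂ) ∈ Complex.slitPlane :=
      eventually_all.2 fun i => (Units.continuous_val.comp (continuous_apply i)).continuousAt.eventually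
        (Complex.isOpen_slitPlane.mem_nhds (by simp [expT_zero]))
    exact this.mono fun s hs => continuousAt_pi.2 fun i => (continuousAt_clog (hs i)).comp
      (f := fun s : Tor σ => (s i : ℂ)) (Units.continuous_val.comp (continuous_apply i)).continuousAt
  · filter_upwards [Metric.ball_mem_nhds (0 : σ → ℂ) Real.pi_pos] with x hx
    funext i
    have := abs_lt.1 ((Complex.abs_im_le_norm (x i)).trans_lt
      ((norm_le_pi_norm x i).trans_lt (mem_ball_zero_iff.1 hx)))
    exact Complex.log_exp this.1 this.2.le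

/-- the character of a weight -/
noncomputable def chrC (w : σ → ℤ) : Tor σ →ₜ* ℂˣ := ⟨chr w, continuous_chr w⟩

/-- a space with a proper and locally free action of the torus -/
structure PS (σ : Type) where
  /-- the space -/
  P : Type
  [tP : TopologicalSpace P]
  [act : MulAction (Tor σ) P]
  [prop : ProperSMul (Tor σ) P]
  [nice : Nice P]
  free : ∀ p : P, LocFree (Tor σ) p

attribute [instance] PS.tP PS.act PS.prop PS.nice

/-- tuples of nonzero vectors -/
def PM (σ : Type) (M : ℕ) : Type := {z : σ → Fin (M + 1) → ℂ // ∀ i, z i ≠ 0}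

namespace PM

variable {M : ℕ}

instance : TopologicalSpace (PM σ M) := inferInstanceAs (TopologicalSpace {_z // _})

/-- the underlying vectors -/
def val (p : PM σ M) : σ → Fin (M + 1) → ℂ := Subtype.val p

omit [Fintype σ] in
theorem ne (p : PM σ M) (i : σ) : p.val i ≠ 0 := p.2 i

omit [Fintype σ] in
theorem ext {p q : PM σ M} (h : p.val = q.val) : p = q := Subtype.ext h

theorem isOpenEmbedding_val : IsOpenEmbedding (val : PM σ M → _) :=
  IsOpen.isOpenEmbedding_subtypeVal (s := {z : σ → Fin (M + 1) → ℂ | ∀ i, z i ≠ 0}) (by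
    rw [ofPred_forall]
    exact isOpen_iInter_of_finite fun i => isOpen_ne_fun (continuous_apply i) continuous_const)

omit [Fintype σ] in
@[fun_prop] theorem continuous_val : Continuous (val : PM σ M → _) := continuous_subtype_val

instance : Nice (PM σ M) :=
  Nice.of_isEmbedding isOpenEmbedding_val.isEmbedding isOpenEmbedding_val.isOpen_range.isLocallyClosed

instance : MulAction (Tor σ) (PM σ M) where
  smul s p := ⟨fun i => (s i : ℂ) • p.val i, fun i => smul_ne_zero (s i).ne_zero (p.ne i)⟩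
  one_smul _ := ext (funext fun _ => one_smul _ _)
  mul_smul _ _ _ := ext (funext fun _ => mul_smul _ _ _)

omit [Fintype σ] in
@[simp] theorem val_smul (s : Tor σ) (p : PM σ M) (i : σ) : (s • p).val i = (s i : ℂ) • p.val i :=
  rfl

instance : ContinuousSMul (Tor σ) (PM σ M) :=
  ⟨Continuous.subtype_mk (show Continuous fun (p : Tor σ × PM σ M) i => (p.1 i : ℂ) • p.2.val i by
    fun_prop) _⟩

omit [Fintype σ] in
theorem eq_one {s : Tor σ} {p : PM σ M} (h : s • p = p) : s = 1 := funext fun i => Units.ext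
  (smul_left_injective ℂ (p.ne i) ((congrFun (congrArg val h) i).trans (one_smul ℂ _).symm))

instance : ProperSMul (Tor σ) (PM σ M) := by
  refine properSMul_iff_continuousSMul_ultrafilter_tendsto_t2.2 ⟨inferInstance, fun 𝒰 x₁ x₂ h => ?_⟩
  have h1 := fun i => ((continuous_apply i).tendsto _).comp
    ((continuous_val.tendsto _).comp ((continuous_fst.tendsto _).comp h))
  have h2 := fun i => ((continuous_apply i).tendsto _).comp
    ((continuous_val.tendsto _).comp ((continuous_snd.tendsto _).comp h))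
  choose j hj using fun i => Function.ne_iff.1 (x₂.ne i)
  have h5 : ∀ i, Tendsto (fun p : Tor σ × PM σ M => (p.1 i : ℂ)) 𝒰
      (𝓝 (x₁.val i (j i) / x₂.val i (j i))) := fun i => by
    have h3 := ((continuous_apply (j i)).tendsto _).comp (h2 i)
    refine ((((continuous_apply (j i)).tendsto _).comp (h1 i)).div h3 (hj i)).congr' ?_
    filter_upwards [h3.eventually_ne (hj i)] with p hp
    exact mul_div_cancel_right₀ _ hp
  have h6 : ∀ i, x₁.val i (j i) / x₂.val i (j i) ≠ 0 := fun i h0 => x₁.ne i (by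
    have := tendsto_nhds_unique ((h5 i).smul (h2 i)) (h1 i)
    rw [h0, zero_smul] at this
    exact this.symm)
  exact ⟨fun i => Units.mk0 _ (h6 i), tendsto_pi_nhds.2 fun i =>
    Units.isEmbedding_val₀.tendsto_nhds_iff.2 (h5 i)⟩

theorem locFree (p : PM σ M) : LocFree (Tor σ) p := by
  classical
  choose j hj using fun i => Function.ne_iff.1 (p.ne i)
  have hc : ∀ i, Continuous fun y : PM σ M => y.val i (j i) := fun i => by fun_prop
  have h3 : ∀ᶠ y in 𝓝 p, ∀ i, y.val i (j i) ≠ 0 :=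
    eventually_all.2 fun i => (hc i).continuousAt.eventually_ne (hj i)
  have hu : ∀ c : ℂ, c ≠ 0 → ((if h : c = 0 then 1 else Units.mk0 _ h : ℂˣ) : ℂ) = c :=
    fun y hy => by rw [dif_neg hy]; rfl
  refine ⟨fun y i => if h : y.val i (j i) = 0 then 1 else Units.mk0 _ h, ?_, ?_⟩
  · filter_upwards [h3] with y hy
    refine continuousAt_pi.2 fun i => Units.isEmbedding_val₀.continuousAt_iff.2
      ((hc i).continuousAt.congr ?_)
    filter_upwards [(hc i).continuousAt.eventually_ne (hy i)] with z hz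
    exact (hu _ hz).symm
  · filter_upwards [(continuous_snd.tendsto _).eventually h3] with q hq
    refine funext fun i => Units.ext ?_
    rw [Pi.mul_apply, Units.val_mul, hu _ (hq i)]
    exact hu _ (mul_ne_zero (q.1 i).ne_zero (hq i))

end PM

/-- the standard approximation of the universal space -/
@[reducible] def pm (σ : Type) [Fintype σ] (M : ℕ) : PS σ := ⟨PM σ M, PM.locFree⟩

theorem isProperMap_pow {m : ℕ} (hm : m ≠ 0) : IsProperMap fun s : Tor σ => s ^ m := by
  refine isProperMap_iff_ultrafilter_of_t2.2 ⟨continuous_pow m, fun 𝒰 c h => ?_⟩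
  have h1 : ∀ i, Tendsto (fun s : Tor σ => (s i : ℂ) ^ m) 𝒰 (𝓝 (c i)) := fun i =>
    ((show Continuous fun s : Tor σ => (s i : ℂ) by fun_prop).tendsto c).comp h
  have h2 : ∀ i, ∃ z, Tendsto (fun s : Tor σ => (s i : ℂ)) 𝒰 (𝓝 z) := fun i => by
    obtain ⟨z, -, hz⟩ := (isCompact_closedBall (0 : ℂ) (‖(c i : ℂ)‖ + 1)).ultrafilter_le_nhds
      (𝒰.map fun s => (s i : ℂ)) (le_principal_iff.2 (mem_map.2 <| by
        filter_upwards [(h1 i).norm.eventually_lt_const (lt_add_one _)] with s hs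
        rw [norm_pow] at hs
        refine mem_closedBall_zero_iff.2 (le_of_not_gt fun h' => ?_)
        exact lt_asymm hs (h'.trans_le (le_self_pow₀ (by linarith [norm_nonneg (c i : ℂ)]) hm))))
    exact ⟨z, hz⟩
  choose z hz using h2
  have h3 : ∀ i, z i ≠ 0 := fun i h0 => (c i).ne_zero (by
    rw [← tendsto_nhds_unique ((hz i).pow m) (h1 i), h0, zero_pow hm])
  exact ⟨fun i => Units.mk0 _ (h3 i), tendsto_pi_nhds.2 fun i =>
    Units.isEmbedding_val₀.tendsto_nhds_iff.2 (hz i)⟩

theorem lh_pow {m : ℕ} (hm : m ≠ 0) : LH (fun s : Tor σ => s ^ m) 1 := by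
  rw [← expT_zero]
  refine LH.of_comp_right ?_ isExp_expT.lh
  have h := LH.comp' (g := expT) isExp_expT.lh
    ((Homeomorph.smulOfNeZero (α := σ → ℂ) (m : ℂ) (Nat.cast_ne_zero.2 hm)).lh 0) (smul_zero (m : ℂ))
  refine h.congr (Eventually.of_forall fun x => ?_)
  rw [comp_apply, ← expT_nsmul, ← Nat.cast_smul_eq_nsmul ℂ]
  rfl

theorem locFree_comp {G G' T : Type} [Group G] [TopologicalSpace G] [IsTopologicalGroup G] [Group G']
    [TopologicalSpace G'] [IsTopologicalGroup G'] [TopologicalSpace T] [MulAction G T]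
    [MulAction G' T] {θ : G' →* G} (hθ : LH θ 1) (he : ∀ (g : G') (t : T), g • t = θ g • t) {t : T}
    (h : LocFree G t) : LocFree G' t := by
  obtain ⟨τ, h1, h2⟩ := h
  obtain ⟨k, k0, k1, k2, k3⟩ := hθ.exists_inv
  rw [map_one] at k0 k1 k3
  have t1 : Tendsto (fun x => τ x * (τ t)⁻¹) (𝓝 t) (𝓝 1) :=
    mul_inv_cancel (τ t) ▸ h1.self_of_nhds.tendsto.mul_const _
  have t2 : Tendsto (fun p : G' × T => p.1 * k (τ p.2 * (τ t)⁻¹)) (𝓝 (1, t)) (𝓝 1) := by
    have := (continuous_fst.tendsto ((1 : G'), t)).mul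
      (k1.cont.tendsto.comp (t1.comp (continuous_snd.tendsto ((1 : G'), t))))
    rwa [k0, mul_one] at this
  have t3 : Tendsto (fun p : G' × T => (θ p.1, p.2)) (𝓝 (1, t)) (𝓝 (1, t)) :=
    (map_one θ ▸ hθ.cont.tendsto.comp (continuous_fst.tendsto ((1 : G'), t))).prodMk_nhds
      (continuous_snd.tendsto _)
  refine ⟨fun x => k (τ x * (τ t)⁻¹), ?_, ?_⟩
  · filter_upwards [h1, t1.eventually k1.eventually_cont] with x e1 e2
    exact e2.comp (f := fun x => τ x * (τ t)⁻¹) (e1.mul continuousAt_const)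
  · filter_upwards [t2.eventually k2, t3.eventually h2,
      (t1.comp (continuous_snd.tendsto ((1 : G'), t))).eventually k3] with p e1 e2 e3
    rw [← e1, map_mul, he, e2, mul_assoc]
    exact congrArg (fun x => k (θ p.1 * x)) e3.symm

/-- the action through the `m`-th power -/
@[reducible] def PS.pow (P : PS σ) {m : ℕ} (hm : m ≠ 0) : PS σ where
  P := P.P
  act := MulAction.compHom _ (powMonoidHom m : Tor σ →* Tor σ)
  prop := @properSMul_of_hom (Tor σ) (Tor σ) P.P P.P _ _ _ _ _ _ P.act _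
    (MulAction.compHom _ (powMonoidHom m : Tor σ →* Tor σ))
    (@ContinuousSMul.mk _ _ (_) _ _
      (show Continuous fun p : Tor σ × P.P => p.1 ^ m • p.2 by fun_prop)) _ _
    (isProperMap_pow hm) id continuous_id fun _ _ => rfl
  free p := @locFree_comp (Tor σ) (Tor σ) P.P _ _ _ _ _ _ _ P.act
    (MulAction.compHom _ (powMonoidHom m : Tor σ →* Tor σ)) (powMonoidHom m) (lh_pow hm)
    (fun _ _ => rfl) p (P.free p)

/-- an action of the torus on a presented orbifold -/
structure TS (σ : Type) (Y : Ch.Sp) where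
  /-- the action -/
  a : Tor σ → Y.T → Y.T
  one : ∀ t, a 1 t = t
  mul : ∀ s s' t, a (s * s') t = a s (a s' t)
  cont : Continuous fun p : Tor σ × Y.T => a p.1 p.2
  comm : ∀ s (g : Y.G) t, a s (g • t) = g • a s t

namespace TS

variable (a : TS σ Y) (a' : TS σ Y') (P : PS σ)

/-- the trivial action -/
def triv (σ : Type) (Y : Ch.Sp) : TS σ Y :=
  ⟨fun _ t => t, fun _ => rfl, fun _ _ _ => rfl, continuous_snd, fun _ _ _ => rfl⟩

omit [Fintype σ] in
@[fun_prop] theorem continuous_a {Z : Type*} [TopologicalSpace Z] {s : Z → Tor σ} {t : Z → Y.T}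
    (hs : Continuous s) (ht : Continuous t) : Continuous fun z => a.a (s z) (t z) :=
  a.cont.comp (hs.prodMk ht)

omit [Fintype σ] in
@[simp] theorem inv_a (s : Tor σ) (t : Y.T) : a.a s⁻¹ (a.a s t) = t := by
  rw [← a.mul, inv_mul_cancel, a.one]

omit [Fintype σ] in
@[simp] theorem a_inv (s : Tor σ) (t : Y.T) : a.a s (a.a s⁻¹ t) = t := by
  rw [← a.mul, mul_inv_cancel, a.one]

omit [Fintype σ] in
theorem a_comm (s s' : Tor σ) (t : Y.T) : a.a s (a.a s' t) = a.a s' (a.a s t) := by
  rw [← a.mul, mul_comm, a.mul]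

/-- the action on the product -/
@[reducible] def act : MulAction (Y.G × Tor σ) (Y.T × P.P) where
  smul k x := (k.1 • a.a k.2 x.1, k.2 • x.2)
  one_smul x := Prod.ext ((one_smul _ _).trans (a.one _)) (one_smul _ _)
  mul_smul k k' x := Prod.ext (show (k.1 * k'.1) • a.a (k.2 * k'.2) x.1 =
    k.1 • a.a k.2 (k'.1 • a.a k'.2 x.1) by rw [a.mul, a.comm, mul_smul]) (mul_smul _ _ _)

theorem proper : @ProperSMul (Y.G × Tor σ) (Y.T × P.P) _ _ _ (a.act P) := by
  letI := a.act P
  refine properSMul_iff_continuousSMul_ultrafilter_tendsto_t2.2 ⟨⟨show Continuous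
    fun p : (Y.G × Tor σ) × Y.T × P.P => (p.1.1 • a.a p.1.2 p.2.1, p.1.2 • p.2.2) by fun_prop⟩,
    fun 𝒰 x₁ x₂ h => ?_⟩
  have h1 := (continuous_fst.tendsto _).comp h
  have h2 := (continuous_snd.tendsto _).comp h
  obtain ⟨s, -, hs⟩ := (properSMul_iff_continuousSMul_ultrafilter_tendsto.1 P.prop).2
    (𝒰.map fun p : (Y.G × Tor σ) × Y.T × P.P => (p.1.2, p.2.2)) x₁.2 x₂.2
    (((continuous_snd.tendsto _).comp h1).prodMk_nhds ((continuous_snd.tendsto _).comp h2))
  replace hs : Tendsto (fun p : (Y.G × Tor σ) × Y.T × P.P => p.1.2) 𝒰 (𝓝 s) := hs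
  obtain ⟨g, -, hg⟩ := (properSMul_iff_continuousSMul_ultrafilter_tendsto.1 Y.prop).2
    (𝒰.map fun p : (Y.G × Tor σ) × Y.T × P.P => (p.1.1, a.a p.1.2 p.2.1)) x₁.1 (a.a s x₂.1)
    (((continuous_fst.tendsto _).comp h1).prodMk_nhds ((a.cont.tendsto (s, x₂.1)).comp
      (Tendsto.prodMk_nhds hs ((continuous_fst.tendsto _).comp h2))))
  exact ⟨(g, s), Tendsto.prodMk_nhds hg hs⟩

theorem locFree (x : Y.T × P.P) : @LocFree (Y.T × P.P) _ (Y.G × Tor σ) _ _ (a.act P) x := by
  obtain ⟨τ, h1, h2⟩ := P.free x.2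
  obtain ⟨τ', h3, h4⟩ := Y.free (a.a (τ x.2)⁻¹ x.1)
  have hc : ∀ y : Y.T × P.P, ContinuousAt τ y.2 →
      ContinuousAt (fun y : Y.T × P.P => a.a (τ y.2)⁻¹ y.1) y := fun y hy =>
    a.cont.continuousAt.comp (f := fun y : Y.T × P.P => ((τ y.2)⁻¹, y.1))
      ((hy.comp continuousAt_snd).inv.prodMk continuousAt_fst)
  have h5 := hc x h1.self_of_nhds
  refine ⟨fun y => (τ' (a.a (τ y.2)⁻¹ y.1), τ y.2), ?_, ?_⟩
  · filter_upwards [continuousAt_snd.eventually h1, h5.eventually h3] with y e1 e2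
    exact (e2.comp (f := fun y : Y.T × P.P => a.a (τ y.2)⁻¹ y.1) (hc y e1)).prodMk (e1.comp continuousAt_snd)
  · have t1 : Tendsto (fun p : (Y.G × Tor σ) × Y.T × P.P => (p.1.2, p.2.2)) (𝓝 (1, x))
        (𝓝 (1, x.2)) := Continuous.tendsto' (by fun_prop) _ _ rfl
    have t2 : Tendsto (fun p : (Y.G × Tor σ) × Y.T × P.P => (p.1.1, a.a (τ p.2.2)⁻¹ p.2.1))
        (𝓝 (1, x)) (𝓝 (1, a.a (τ x.2)⁻¹ x.1)) :=
      ((continuous_fst.comp continuous_fst).tendsto ((1 : Y.G × Tor σ), x)).prodMk_nhds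
        (h5.tendsto.comp (continuous_snd.tendsto ((1 : Y.G × Tor σ), x)))
    filter_upwards [t1.eventually h2, t2.eventually h4] with p e1 e2
    refine Prod.ext ?_ e1
    change τ' (a.a (τ (p.1.2 • p.2.2))⁻¹ (p.1.1 • a.a p.1.2 p.2.1)) = _
    rw [e1, a.comm, ← a.mul, mul_inv_rev, inv_mul_cancel_right]
    exact e2

/-- the Borel construction -/
noncomputable def bo : Ch.Sp where
  G := Y.G × Tor σ
  T := Y.T × P.P
  X := @Q (Y.G × Tor σ) (Y.T × P.P) _ (a.act P)
  act := a.act P
  prop := a.proper P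
  free := a.locFree P
  π := @Q.mk _ (Y.G × Tor σ) _ (a.act P)
  quo := by
    letI := a.act P
    haveI := a.proper P
    exact Q.isOpenQuotientMap
  fib _ _ := by
    letI := a.act P
    exact Q.mk_eq

theorem bo_smul (k : (a.bo P).G) (x : (a.bo P).T) : k • x = (k.1 • a.a k.2 x.1, k.2 • x.2) := rfl

/-- the character of a weight -/
noncomputable def ch (w : σ → ℤ) : (a.bo P).G →ₜ* ℂˣ :=
  (chrC w).comp (ContinuousMonoidHom.snd Y.G (Tor σ))

theorem ch_apply (w : σ → ℤ) (k : (a.bo P).G) : a.ch P w k = chr w k.2 := rfl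

/-- equivariant morphisms -/
def IsEq (m : Mor Y' Y) : Prop := ∀ s t, m.f (a'.a s t) = a.a s (m.f t)

variable {a a'}

/-- the morphism of Borel constructions induced by an equivariant morphism and an equivariant map
of the second factors -/
def IsEq.bo' {m : Mor Y' Y} (h : a.IsEq a' m) {P' P : PS σ} (u : P'.P → P.P) (hu : Continuous u)
    (he : ∀ (s : Tor σ) p, u (s • p) = s • u p) : Mor (a'.bo P') (a.bo P) :=
  ⟨m.ρ.prodMap (MonoidHom.id _), Prod.map m.f u, m.cρ.prodMap continuous_id, m.cf.prodMap hu,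
    fun k x => Prod.ext ((m.eqv k.1 _).trans (congrArg (m.ρ k.1 • ·) (h k.2 x.1))) (he k.2 x.2)⟩

/-- the morphism of Borel constructions induced by an equivariant morphism -/
def IsEq.bo {m : Mor Y' Y} (h : a.IsEq a' m) (P : PS σ) : Mor (a'.bo P) (a.bo P) :=
  h.bo' id continuous_id fun _ _ => rfl

omit [Fintype σ] in
theorem isEq_id (a : TS σ Y) : a.IsEq a (Mor.id Y) := fun _ _ => rfl

omit [Fintype σ] in
theorem IsEq.comp {a'' : TS σ Y''} {m : Mor Y' Y} {m' : Mor Y'' Y'} (h : a.IsEq a' m)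
    (h' : a'.IsEq a'' m') : a.IsEq a'' (m.comp m') := fun s t =>
  (congrArg m.f (h' s t)).trans (h s _)

end TS

/-- an action of the torus on a vector bundle -/
structure TV (a : TS σ Y) (E : VB Y) where
  /-- the representation -/
  b : Tor σ →* End ℂ E.W
  cont : Continuous fun p : Tor σ × E.W => b p.1 p.2
  comm : ∀ s (g : Y.G) w, b s (g • w) = g • b s w
  inv : ∀ s t w, w ∈ E.F t → b s w ∈ E.F (a.a s t)

namespace TV

variable {a : TS σ Y} {E : VB Y} (b : TV a E) (P : PS σ)

/-- the bundle on the Borel construction -/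
noncomputable def bo : VB (a.bo P) :=
  VB.ofLin E.W (fun k => DistribSMul.toLinearMap ℂ E.W k.1 ∘ₗ b.b k.2)
    (fun w => show (1 : Y.G) • b.b 1 w = w by rw [map_one, one_smul, End.one_apply])
    (fun k k' w => show (k.1 * k'.1) • b.b (k.2 * k'.2) w = k.1 • b.b k.2 (k'.1 • b.b k'.2 w) by
      rw [map_mul, End.mul_apply, b.comm, mul_smul])
    ((continuous_fst.comp continuous_fst).smul
      (b.cont.comp ((continuous_snd.comp continuous_fst).prodMk continuous_snd)))
    (fun x => E.F x.1) E.r (E.closed.preimage (continuous_fst.prodMap continuous_id))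
    (fun _ => E.rank _) fun k x w h => E.inv k.1 _ _ (b.inv k.2 x.1 w h)

theorem bo_smul (k : (a.bo P).G) (w : (b.bo P).W) : k • w = k.1 • (show E.W from b.b k.2 w) := rfl

theorem isSec {s : Y.T → E.W} (h : E.IsSec s) (he : ∀ u t, s (a.a u t) = b.b u (s t)) :
    (b.bo P).IsSec fun x => s x.1 :=
  ⟨fun x => h.mem x.1, h.cont.comp continuous_fst, fun k x =>
    (h.eqv k.1 _).trans (congrArg (k.1 • ·) (he k.2 x.1))⟩

/-- an invariant subbundle -/
@[reducible] def sub {F : Y.T → Submodule ℂ E.W} {r : ℕ} {h1 : IsClosed {x : Y.T × E.W | x.2 ∈ F x.1}}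
    {h2 : ∀ t, finrank ℂ (F t) = r} {h3 : ∀ (g : Y.G) t w, w ∈ F t → g • w ∈ F (g • t)}
    (h : ∀ s t w, w ∈ F t → b.b s w ∈ F (a.a s t)) : TV a (E.sub F r h1 h2 h3) :=
  ⟨b.b, b.cont, b.comm, h⟩

end TV

end Vale.Agent.P269.Loc
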