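import Vale.Agent.P269.Loc.Wt

/-!
# Fourier analysis on the compact torus: semi-invariant functions, algebraic weights
-/

namespace Vale.Agent.P269.Loc

open Set Function Topology Filter Module MeasureTheory UnitAddTorus

variable {σ : Type} [Fintype σ]

namespace Four

/-- Haar probability measure of the torus -/
noncomputable def mu (σ : Type) [Fintype σ] : Measure (UnitAddTorus σ) :=
  Measure.pi fun _ => AddCircle.haarAddCircle

theorem mu_prob : IsProbabilityMeasure (mu σ) := by
  unfold mu; infer_instance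

theorem mu_inv : (mu σ).IsAddLeftInvariant := by
  unfold mu; infer_instance

section
variable {E E' : Type} [NormedAddCommGroup E] [NormedSpace ℂ E] [NormedAddCommGroup E']
  [NormedSpace ℂ E']

theorem co_eq (F : UnitAddTorus σ → E) (w : σ → ℤ) :
    mFourierCoeff F w = ∫ t, mFourier (-w) t • F t ∂mu σ := rfl

theorem mF_add (w : σ → ℤ) (x y : UnitAddTorus σ) :
    mFourier w (x + y) = mFourier w x * mFourier w y := by
  simp only [mFourier, ContinuousMap.coe_mk, Pi.add_apply, fourier_apply, smul_add,
    AddCircle.toCircle_add, Circle.coe_mul, Finset.prod_mul_distrib]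

theorem mF_mul_neg (w : σ → ℤ) (x : UnitAddTorus σ) : mFourier w x * mFourier (-w) x = 1 := by
  rw [← mFourier_add, add_neg_cancel, mFourier_zero, ContinuousMap.one_apply]

theorem co_shift (F : UnitAddTorus σ → E) (w : σ → ℤ) (x : UnitAddTorus σ) :
    mFourierCoeff (fun t => F (x + t)) w = mFourier w x • mFourierCoeff F w := by
  have := mu_inv (σ := σ)
  rw [co_eq, co_eq, ← integral_add_left_eq_self (fun t => mFourier (-w) t • F t) x,
    ← integral_smul]
  refine integral_congr_ae (Eventually.of_forall fun t => ?_)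
  simp only [mF_add, smul_smul, ← mul_assoc, mF_mul_neg, one_mul]

theorem co_pure [CompleteSpace E] (w : σ → ℤ) (c : E) :
    mFourierCoeff (fun t : UnitAddTorus σ => mFourier w t • c) w = c := by
  have := mu_prob (σ := σ)
  rw [co_eq]
  simp only [smul_smul, mul_comm (mFourier (-w) _), mF_mul_neg, one_smul]
  simp

theorem co_clm [CompleteSpace E] [CompleteSpace E'] (φ : E →L[ℂ] E') {F : UnitAddTorus σ → E}
    (hF : Continuous F) (w : σ → ℤ) :
    φ (mFourierCoeff F w) = mFourierCoeff (fun t => φ (F t)) w := by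
  have := mu_prob (σ := σ)
  rw [co_eq, co_eq, ← φ.integral_comp_comm]
  · simp only [map_smul]
  · exact ((mFourier (-w)).continuous.smul hF).integrable_of_hasCompactSupport
      (HasCompactSupport.of_compactSpace _)

end

theorem co_cont (w : σ → ℤ) :
    Continuous fun F : C(UnitAddTorus σ, ℂ) => mFourierCoeff F w := by
  simp only [← mFourierCoeff_toLp, ← mFourierBasis_repr, HilbertBasis.repr_apply_apply]
  exact continuous_const.inner (ContinuousLinearMap.continuous _)

theorem co_const {F : UnitAddTorus σ → ℂ} (hF : Continuous F)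
    (h : ∀ w ≠ 0, mFourierCoeff F w = 0) (x : UnitAddTorus σ) : F x = mFourierCoeff F 0 := by
  have h1 := hasSum_mFourier_series_apply_of_summable (f := ⟨F, hF⟩)
    (summable_of_ne_finset_zero (s := {0}) fun w hw => h w (by simpa using hw)) x
  have h2 : HasSum (fun w => mFourierCoeff F w • mFourier w x)
      (mFourierCoeff F 0 • mFourier (0 : σ → ℤ) x) :=
    hasSum_single 0 fun w hw => by rw [h w hw, zero_smul]
  have h3 := h1.unique h2
  simpa [mFourier_zero] using h3

/-- the parametrisation of the compact torus -/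
noncomputable def et (θ : UnitAddTorus σ) : Tor σ := fun i => Circle.toUnits (θ i).toCircle

omit [Fintype σ] in
theorem coe_et (θ : UnitAddTorus σ) (i : σ) : (et θ i : ℂ) = (θ i).toCircle := rfl

omit [Fintype σ] in
theorem et_add (x y : UnitAddTorus σ) : et (x + y) = et x * et y := by
  funext i; simp [et, AddCircle.toCircle_add]

omit [Fintype σ] in
theorem et_zero : et (0 : UnitAddTorus σ) = 1 := by
  funext i; simp [et]

omit [Fintype σ] in
theorem et_mem (θ : UnitAddTorus σ) : et θ ∈ cpt σ := fun i => by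
  rw [coe_et]; exact Circle.norm_coe _

omit [Fintype σ] in
theorem exists_et {s : Tor σ} (hs : s ∈ cpt σ) : ∃ θ, et θ = s := by
  have h : ∀ i, ∃ x : UnitAddCircle, (x.toCircle : ℂ) = s i := fun i => by
    obtain ⟨x, hx⟩ := (AddCircle.homeomorphCircle (T := (1 : ℝ)) one_ne_zero).surjective
      ⟨s i, by simpa [Submonoid.unitSphere] using hs i⟩
    exact ⟨x, by rw [← AddCircle.homeomorphCircle_apply one_ne_zero, hx]⟩
  choose θ hθ using h
  exact ⟨θ, funext fun i => Units.ext (hθ i)⟩

omit [Fintype σ] in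
theorem continuous_et : Continuous (et : UnitAddTorus σ → Tor σ) :=
  continuous_pi fun i => Units.continuous_iff.2 ⟨continuous_subtype_val.comp
    (AddCircle.continuous_toCircle.comp (continuous_apply i)), by
    have : (fun x : UnitAddTorus σ => (((et x i)⁻¹ : ℂˣ) : ℂ)) =
        fun x => (((x i).toCircle⁻¹ : Circle) : ℂ) := by
      funext x; simp [coe_et]
    exact this ▸ continuous_subtype_val.comp
      (AddCircle.continuous_toCircle.comp (continuous_apply i)).inv⟩

theorem chr_et (w : σ → ℤ) (θ : UnitAddTorus σ) : (chr w (et θ) : ℂ) = mFourier w θ := by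
  rw [coe_chr]
  simp only [mFourier, ContinuousMap.coe_mk, fourier_apply, AddCircle.toCircle_zsmul, coe_et,
    Circle.coe_zpow]

/-- the averaged function -/
noncomputable def av {X : Type} (a : Tor σ → X → X) (g : X → ℂ) (w : σ → ℤ) (y : X) : ℂ :=
  mFourierCoeff (fun θ => g (a (et θ) y)) w

theorem av_cont {X : Type} [TopologicalSpace X] {a : Tor σ → X → X}
    (hc : Continuous fun p : Tor σ × X => a p.1 p.2) {g : X → ℂ} (hg : Continuous g)
    (w : σ → ℤ) : Continuous (av a g w) := by
  let G : C(X × UnitAddTorus σ, ℂ) := ⟨fun p => g (a (et p.2) p.1),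
    hg.comp (hc.comp ((continuous_et.comp continuous_snd).prodMk continuous_fst))⟩
  exact (co_cont w).comp G.curry.continuous

theorem av_semi {X : Type} {a : Tor σ → X → X} (hm : ∀ s t x, a (s * t) x = a s (a t x))
    (g : X → ℂ) (w : σ → ℤ) {s : Tor σ} (hs : s ∈ cpt σ) (y : X) :
    av a g w (a s y) = chr w s * av a g w y := by
  obtain ⟨θ, rfl⟩ := exists_et hs
  rw [chr_et, av, av, ← smul_eq_mul, ← co_shift]
  simp only [← hm, et_add, mul_comm]

theorem eq_of_imag {E : Type} [NormedAddCommGroup E] [NormedSpace ℂ E] [CompleteSpace E]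
    {F : (σ → ℂ) → E} (hF : ∀ x, AnalyticAt ℂ F x) (h : ∀ x, (∀ i, (x i).re = 0) → F x = 0)
    (x : σ → ℂ) : F x = 0 := by
  let u : σ → ℂ := fun i => (x i).re
  let v : σ → ℂ := fun i => (x i).im * Complex.I
  have hG : AnalyticOnNhd ℂ (fun z : ℂ => F (z • u + v)) univ := fun z _ =>
    (hF _).comp (f := fun z : ℂ => z • u + v) (by fun_prop)
  have h0 : ∃ᶠ z in 𝓝[≠] (0 : ℂ), F (z • u + v) = 0 := by
    have ht : Tendsto (fun t : ℝ => (t : ℂ) * Complex.I) (𝓝[≠] 0) (𝓝[≠] 0) := by
      refine tendsto_nhdsWithin_iff.2 ⟨?_, ?_⟩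
      · exact tendsto_nhdsWithin_of_tendsto_nhds
          (Continuous.tendsto' (by fun_prop) 0 0 (by simp))
      · filter_upwards [self_mem_nhdsWithin] with t ht
        simpa using ht
    exact ht.frequently (Eventually.of_forall fun t => h _ fun i => by simp [u, v]).frequently
  have h1 := hG.eqOn_zero_of_preconnected_of_frequently_eq_zero isPreconnected_univ
    (mem_univ 0) h0 (mem_univ 1)
  have h2 : (1 : ℂ) • u + v = x := by
    funext i; simp [u, v]
  simpa only [h2, Pi.zero_apply] using h1

omit [Fintype σ] in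
theorem continuous_of_expT {E : Type} [TopologicalSpace E] {f : Tor σ → E}
    (h : Continuous fun x => f (expT x)) : Continuous f := by
  refine continuous_iff_continuousAt.2 fun s => ?_
  obtain ⟨x, rfl⟩ := expT_surjective s
  have e : f = (fun x => f (expT x)) ∘ fun t : Tor σ => x + fun i =>
      Complex.log ((t i : ℂ) * Complex.exp (-x i)) := by
    funext t
    simp only [comp_apply]
    congr 1
    funext i; ext
    rw [coe_expT, Pi.add_apply, Complex.exp_add,
      Complex.exp_log (mul_ne_zero (t i).ne_zero (Complex.exp_ne_zero _)), mul_left_comm,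
      ← Complex.exp_add, add_neg_cancel, Complex.exp_zero, mul_one]
  rw [e]
  refine h.continuousAt.comp (continuousAt_const.add (continuousAt_pi.2 fun i => ?_))
  refine ContinuousAt.clog ((Units.continuous_val.comp (continuous_apply i)).continuousAt.mul
    continuousAt_const) ?_
  rw [coe_expT, ← Complex.exp_add, add_neg_cancel, Complex.exp_zero]
  exact Complex.one_mem_slitPlane

theorem an_chr (w : σ → ℤ) (x : σ → ℂ) :
    AnalyticAt ℂ (fun x : σ → ℂ => Complex.exp (∑ i, w i * x i)) x :=
  AnalyticAt.cexp' (Finset.analyticAt_fun_sum _ fun i _ => analyticAt_const.mul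
    ((ContinuousLinearMap.proj (R := ℂ) (φ := fun _ : σ => ℂ) i).analyticAt x))

end Four

open Four

omit [Fintype σ] in
theorem isCompact_cpt : IsCompact (cpt σ : Set (Tor σ)) := by
  have : (cpt σ : Set (Tor σ)) = range et :=
    Subset.antisymm (fun _ hs => exists_et hs) (range_subset_iff.2 et_mem)
  exact this ▸ isCompact_range continuous_et

theorem exists_semi_avg {X : Type} [TopologicalSpace X] {a : Tor σ → X → X}
    (hc : Continuous fun p : Tor σ × X => a p.1 p.2) (hm : ∀ s t x, a (s * t) x = a s (a t x))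
    {g : X → ℂ} (hg : Continuous g) (w : σ → ℤ) :
    ∃ f : X → ℂ, Continuous f ∧ (∀ s ∈ cpt σ, ∀ y, f (a s y) = chr w s * f y) ∧
      ∀ y, (∀ s ∈ cpt σ, g (a s y) = chr w s * g y) → f y = g y := by
  refine ⟨av a g w, av_cont hc hg w, fun s hs y => av_semi hm g w hs y, fun y hy => ?_⟩
  rw [av]
  simp only [hy _ (et_mem _), chr_et]
  exact co_pure w (g y)

theorem exists_semi {X : Type} [TopologicalSpace X] [T2Space X] [NormalSpace X]
    {a : Tor σ → X → X} (hc : Continuous fun p : Tor σ × X => a p.1 p.2) (h1 : ∀ x, a 1 x = x)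
    (hm : ∀ s t x, a (s * t) x = a s (a t x)) {x : X} (hx : ∃ s ∈ cpt σ, a s x ≠ x) :
    ∃ (w : σ → ℤ) (f : X → ℂ), w ≠ 0 ∧ Continuous f ∧ f x ≠ 0 ∧
      ∀ s ∈ cpt σ, ∀ y, f (a s y) = chr w s * f y := by
  obtain ⟨s, hs, hx⟩ := hx
  obtain ⟨θ, rfl⟩ := exists_et hs
  obtain ⟨g, g0, g1, -⟩ := exists_continuous_zero_one_of_isClosed
    (isClosed_singleton (x := a (et θ) x)) (isClosed_singleton (x := x))
    (disjoint_singleton.2 hx)
  have hg : Continuous fun y => (g y : ℂ) := Complex.continuous_ofReal.comp g.continuous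
  by_contra hn
  have h0 : ∀ w ≠ 0, mFourierCoeff (fun θ => (g (a (et θ) x) : ℂ)) w = 0 := fun w hw => by
    by_contra h
    exact hn ⟨w, av a (fun y => (g y : ℂ)) w, hw, av_cont hc hg w, h,
      fun s hs y => av_semi hm _ w hs y⟩
  have hF : Continuous fun θ : UnitAddTorus σ => (g (a (et θ) x) : ℂ) :=
    hg.comp (hc.comp (continuous_et.prodMk continuous_const))
  have h2 := (co_const hF h0 θ).trans (co_const hF h0 0).symm
  rw [et_zero, h1, g0 rfl, g1 rfl] at h2
  simp at h2

variable {V : Type} [NormedAddCommGroup V] [NormedSpace ℂ V] [FiniteDimensional ℂ V]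
  {τ : Tor σ →* Module.End ℂ V}

theorem wtd_of_hol (h : ∀ v, AnalyticAt ℂ (fun x : σ → ℂ => τ (expT x) v) 0) : Wtd τ := by
  have := FiniteDimensional.complete ℂ V
  have ha : ∀ v x, AnalyticAt ℂ (fun x : σ → ℂ => τ (expT x) v) x := fun v x => by
    have e : (fun y : σ → ℂ => τ (expT y) v) =
        (fun y : σ → ℂ => τ (expT y) (τ (expT x) v)) ∘ fun y => y - x := by
      funext y
      rw [comp_apply, ← End.mul_apply, ← map_mul, ← expT_add, sub_add_cancel]
    rw [e]
    exact AnalyticAt.comp (by rw [sub_self]; exact h _) (by fun_prop)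
  have hc : ∀ v, Continuous fun θ : UnitAddTorus σ => τ (et θ) v := fun v =>
    (continuous_of_expT (f := fun s => τ s v)
      (continuous_iff_continuousAt.2 fun x => (ha v x).continuousAt)).comp continuous_et
  have hw : ∀ v w, mFourierCoeff (fun θ : UnitAddTorus σ => τ (et θ) v) w ∈ wsp τ w := by
    intro v w s
    obtain ⟨x, rfl⟩ := expT_surjective s
    set u := mFourierCoeff (fun θ : UnitAddTorus σ => τ (et θ) v) w with hu
    rw [← sub_eq_zero, chr_expT]
    refine eq_of_imag (F := fun x => τ (expT x) u - Complex.exp (∑ i, w i * x i) • u)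
      (fun x => (ha u x).sub ((an_chr w x).smul analyticAt_const)) (fun x hx => ?_) x
    obtain ⟨θ, hθ⟩ := exists_et (s := expT x) fun i => by
      rw [coe_expT, Complex.norm_exp, hx i, Real.exp_zero]
    rw [← chr_expT, ← hθ, chr_et, sub_eq_zero, hu, ← co_shift]
    refine (co_clm (LinearMap.toContinuousLinearMap (τ (et θ))) (hc v) w).trans ?_
    simp only [LinearMap.coe_toContinuousLinearMap', et_add, map_mul, End.mul_apply]
  by_contra hn
  obtain ⟨φ, hφ, hk⟩ := Submodule.exists_le_ker_of_lt_top _ (lt_top_iff_ne_top.2 hn)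
  refine hφ (LinearMap.ext fun v => ?_)
  have h0 : ∀ w, mFourierCoeff (fun θ : UnitAddTorus σ => φ (τ (et θ) v)) w = 0 := fun w =>
    (co_clm (LinearMap.toContinuousLinearMap φ) (hc v) w).symm.trans
      (hk (le_iSup (wsp τ) w (hw v w)))
  have h2 := co_const ((LinearMap.toContinuousLinearMap φ).continuous.comp (hc v))
    (fun w _ => h0 w) 0
  simpa [et_zero, comp_def, h0] using h2

theorem Wtd.analyticAt (h : Wtd τ) (v : V) (x : σ → ℂ) :
    AnalyticAt ℂ (fun p : (σ → ℂ) × V => τ (expT p.1) p.2) (x, v) := by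
  obtain ⟨W, hW⟩ := exists_wts τ
  simp only [h.apply_eq_sum hW, chr_expT]
  refine Finset.analyticAt_fun_sum W fun w _ => AnalyticAt.smul
    ((an_chr w x).comp (f := Prod.fst) (x := (x, v)) analyticAt_fst) ?_
  exact ((LinearMap.toContinuousLinearMap (wpr τ w)).analyticAt _).comp analyticAt_snd

theorem Wtd.continuous (h : Wtd τ) : Continuous fun p : Tor σ × V => τ p.1 p.2 := by
  obtain ⟨W, hW⟩ := exists_wts τ
  simp only [h.apply_eq_sum hW]
  exact continuous_finsetSum W fun w _ => ((continuous_coe_chr w).comp continuous_fst).smul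
    ((wpr τ w).continuous_of_finiteDimensional.comp continuous_snd)

end Vale.Agent.P269.Loc
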