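import Vale.Agent.P269.Loc.Lam
import Vale.Agent.P269.Loc.Four

/-!
# The phase homomorphism, complexification of representations of the compact torus
-/

set_option linter.unusedSectionVars false

namespace Vale.Agent.P269.Loc

open Set Function Topology Filter Module UnitAddTorus Vale.Agent.P291Z Vale.Agent.P269.Ch
  Vale.Agent.P269.Holo

variable {σ : Type} [Fintype σ]

theorem absT_mul (s s' : Tor σ) : absT (s * s') = absT s * absT s' :=
  funext fun i => Units.ext (by simp [absT])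

theorem absT_of_mem {s : Tor σ} (hs : s ∈ cpt σ) : absT s = 1 :=
  funext fun i => Units.ext (by simp [absT, hs i])

theorem absT_absT (s : Tor σ) : absT (absT s) = absT s := funext fun i => Units.ext (by simp [absT])

theorem absT_nrm {M : ℕ} (p : PM σ M) : absT p.nrm = p.nrm :=
  funext fun i => Units.ext (by simp [absT, PM.nrm])

@[fun_prop] theorem continuous_absT : Continuous (absT : Tor σ → Tor σ) :=
  continuous_pi fun i => Units.isEmbedding_val₀.continuous_iff.2 (Complex.continuous_ofReal.comp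
    (Units.continuous_val.comp (continuous_apply i)).norm)

/-- the projection to the compact torus -/
noncomputable def ph : Tor σ →* Tor σ where
  toFun s := (absT s)⁻¹ * s
  map_one' := by rw [absT_of_mem (one_mem _), inv_one, one_mul]
  map_mul' s s' := by rw [absT_mul, mul_inv, mul_mul_mul_comm]

theorem ph_mem (s : Tor σ) : ph s ∈ cpt σ := mul_absT_mem s

theorem absT_mul_ph (s : Tor σ) : absT s * ph s = s := mul_inv_cancel_left _ _

theorem ph_of_mem {s : Tor σ} (hs : s ∈ cpt σ) : ph s = s :=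
  show (absT s)⁻¹ * s = s by rw [absT_of_mem hs, inv_one, one_mul]

theorem ph_ph (s : Tor σ) : ph (ph s) = ph s := ph_of_mem (ph_mem s)

theorem ph_absT (s : Tor σ) : ph (absT s) = 1 :=
  show (absT (absT s))⁻¹ * absT s = 1 by rw [absT_absT, inv_mul_cancel]

theorem ph_nrm {M : ℕ} (p : PM σ M) : ph p.nrm = 1 := by rw [← absT_nrm, ph_absT]

@[fun_prop] theorem continuous_ph : Continuous (ph : Tor σ → Tor σ) :=
  continuous_absT.inv.mul continuous_id

namespace PM

variable {M : ℕ}

theorem nrm_inc (p : PM σ M) : p.inc.nrm = p.nrm := funext fun i => Units.ext (by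
  change ((‖(Fin.cons 0 (p.val i) : Fin (M + 2) → ℂ)‖ : ℝ) : ℂ) = ‖p.val i‖
  congr 1
  refine le_antisymm ((pi_norm_le_iff_of_nonneg (norm_nonneg _)).2 fun j => Fin.cases (by simp)
    (fun j => norm_le_pi_norm (p.val i) j) j)
    ((pi_norm_le_iff_of_nonneg (norm_nonneg _)).2 fun j =>
      norm_le_pi_norm (Fin.cons 0 (p.val i) : Fin (M + 2) → ℂ) j.succ))

theorem nrm_one : (one : PM σ 0).nrm = 1 := funext fun i => Units.ext (by
  change ((‖(fun _ => 1 : Fin 1 → ℂ)‖ : ℝ) : ℂ) = 1
  simp)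

/-- the root of the norm -/
noncomputable def rt (m : ℕ) (p : PM σ M) : Tor σ := fun i =>
  Units.mk0 ((‖p.val i‖ ^ (m⁻¹ : ℝ) : ℝ) : ℂ) (Complex.ofReal_ne_zero.2
    (Real.rpow_pos_of_pos (norm_pos_iff.2 (p.ne i)) _).ne')

@[fun_prop] theorem continuous_rt (m : ℕ) : Continuous (rt m : PM σ M → Tor σ) :=
  continuous_pi fun i => Units.isEmbedding_val₀.continuous_iff.2 (Complex.continuous_ofReal.comp
    ((Real.continuous_rpow_const (by positivity)).comp
      ((continuous_apply i).comp continuous_val).norm))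

theorem rt_smul {m : ℕ} (hm : m ≠ 0) (s : Tor σ) (p : PM σ M) :
    rt m (s ^ m • p) = absT s * rt m p := funext fun i => Units.ext (by
  change ((‖((s i ^ m : ℂˣ) : ℂ) • p.val i‖ ^ (m⁻¹ : ℝ) : ℝ) : ℂ) =
    (‖(s i : ℂ)‖ : ℝ) * ((‖p.val i‖ ^ (m⁻¹ : ℝ) : ℝ) : ℂ)
  rw [norm_smul, Units.val_pow_eq_pow_val, norm_pow, Real.mul_rpow (by positivity) (by positivity),
    Real.pow_rpow_inv_natCast (norm_nonneg _) hm, Complex.ofReal_mul])

end PM

section cx

variable {V V' : Type} [NormedAddCommGroup V] [NormedSpace ℂ V] [FiniteDimensional ℂ V]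
  [NormedAddCommGroup V'] [NormedSpace ℂ V'] [FiniteDimensional ℂ V'] {β : Tor σ →* End ℂ V}
  {β' : Tor σ →* End ℂ V'}

open Four in
theorem exists_cx (hβ : Continuous fun p : Tor σ × V => β p.1 p.2) :
    ∃ τ : Tor σ →* End ℂ V, Wtd τ ∧ ∀ s ∈ cpt σ, τ s = β s := by
  have := FiniteDimensional.complete ℂ V
  have hc : ∀ v, Continuous fun θ : UnitAddTorus σ => β (et θ) v := fun v =>
    hβ.comp (continuous_et.prodMk continuous_const)
  have hS : ⊤ ≤ Submodule.span ℂ {v | ∃ w, ∀ s ∈ cpt σ, β s v = (chr w s : ℂ) • v} := by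
    by_contra hn
    obtain ⟨φ, hφ, hk⟩ := Submodule.exists_le_ker_of_lt_top _ (lt_top_iff_ne_top.2
      fun e => hn e.ge)
    refine hφ (LinearMap.ext fun v => ?_)
    have h0 : ∀ w, mFourierCoeff (fun θ : UnitAddTorus σ => φ (β (et θ) v)) w = 0 := fun w =>
      (co_clm (LinearMap.toContinuousLinearMap φ) (hc v) w).symm.trans
        (hk (Submodule.subset_span ⟨w, fun s hs => by
          obtain ⟨θ, rfl⟩ := exists_et hs
          rw [chr_et, ← co_shift]
          refine (co_clm (LinearMap.toContinuousLinearMap (β (et θ))) (hc v) w).trans ?_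
          simp only [LinearMap.coe_toContinuousLinearMap', et_add, map_mul, End.mul_apply]⟩))
    have h2 := co_const ((LinearMap.toContinuousLinearMap φ).continuous.comp (hc v))
      (fun w _ => h0 w) 0
    simpa [et_zero, comp_def, h0] using h2
  let B := Basis.ofSpan hS
  choose w hw using fun i => Basis.ofSpan_subset hS (mem_range_self i)
  let τ : Tor σ →* End ℂ V :=
    { toFun := fun s => B.constr ℂ fun i => (chr (w i) s : ℂ) • B i
      map_one' := B.ext fun i => by
        rw [Basis.constr_basis, map_one, Units.val_one, one_smul, End.one_apply]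
      map_mul' := fun s s' => B.ext fun i => by
        rw [End.mul_apply, Basis.constr_basis, Basis.constr_basis, map_smul, Basis.constr_basis,
          smul_smul, map_mul, Units.val_mul, mul_comm] }
  have hτ : ∀ s i, τ s (B i) = (chr (w i) s : ℂ) • B i := fun s i => B.constr_basis ℂ _ i
  refine ⟨τ, eq_top_iff.2 (B.span_eq.ge.trans (Submodule.span_le.2 ?_)),
    fun s hs => B.ext fun i => (hτ s i).trans (hw i s hs).symm⟩
  rintro _ ⟨i, rfl⟩
  exact Submodule.mem_iSup_of_mem (w i) fun s => hτ s i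

/-- the algebraic representation that agrees with `β` on the compact torus -/
noncomputable def cx (β : Tor σ →* End ℂ V) : Tor σ →* End ℂ V :=
  Classical.epsilon fun τ => Wtd τ ∧ ∀ s ∈ cpt σ, τ s = β s

variable (hβ : Continuous fun p : Tor σ × V => β p.1 p.2)
include hβ

theorem wtd_cx : Wtd (cx β) := (Classical.epsilon_spec (exists_cx hβ)).1

theorem cx_eq {s : Tor σ} (hs : s ∈ cpt σ) : cx β s = β s :=
  (Classical.epsilon_spec (exists_cx hβ)).2 s hs

theorem mem_wsp_cx {w : σ → ℤ} {v : V} :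
    v ∈ wsp (cx β) w ↔ ∀ s ∈ cpt σ, β s v = (chr w s : ℂ) • v :=
  ⟨fun h s hs => cx_eq hβ hs ▸ h s, fun h => (wtd_cx hβ).mem_wsp_of_eigen chr_gen_injective
    (by rw [cx_eq hβ gen_mem, h _ gen_mem])⟩

theorem cx_mem {U : Submodule ℂ V} (hU : ∀ s ∈ cpt σ, ∀ v ∈ U, β s v ∈ U) (s : Tor σ) {v : V}
    (hv : v ∈ U) : cx β s v ∈ U :=
  (wtd_cx hβ).apply_mem_of_gen (fun v hv => cx_eq hβ gen_mem ▸ hU _ gen_mem v hv) s hv

theorem map_cx (hβ' : Continuous fun p : Tor σ × V' => β' p.1 p.2) {f : V →ₗ[ℂ] V'}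
    (hf : ∀ s ∈ cpt σ, ∀ v, f (β s v) = β' s (f v)) (s : Tor σ) (v : V) :
    f (cx β s v) = cx β' s (f v) :=
  (wtd_cx hβ).induction (P := fun v => f (cx β s v) = cx β' s (f v)) v (fun w v hv => by
    rw [hv s, map_smul, (mem_wsp_cx hβ').2 (fun u hu => by
      rw [← hf u hu, (mem_wsp_cx hβ).1 hv u hu, map_smul]) s]) (by simp)
    fun a b ha hb => by simp only [map_add, ha, hb]

theorem cx_eq_of_wtd {τ : Tor σ →* End ℂ V} (h : Wtd τ) (e : ∀ s ∈ cpt σ, τ s = β s) : cx β = τ :=
  MonoidHom.ext fun s => LinearMap.ext fun v => h.induction (P := fun v => cx β s v = τ s v) v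
    (fun w v hv => by
    rw [hv s, (mem_wsp_cx hβ).2 (fun u hu => e u hu ▸ hv u) s]) (by simp)
    fun a b ha hb => by simp only [map_add, ha, hb]

end cx

/-- the action through the compact torus -/
noncomputable def TS.cp {Y : Ch.Sp} (a : TS σ Y) : TS σ Y :=
  ⟨fun s => a.a (ph s), fun t => by rw [map_one, a.one], fun s s' t => by rw [map_mul, a.mul],
    a.continuous_a (continuous_ph.comp continuous_fst) continuous_snd, fun _ => a.comm _⟩

section loc

variable {E F : Type*} [NormedAddCommGroup E] [NormedSpace ℂ E] [NormedAddCommGroup F]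
  [NormedSpace ℂ F] [CompleteSpace F]

/-- an analytic germ that vanishes for imaginary values of the first variables vanishes -/
theorem eventually_zero_of_im {f : (σ → ℂ) × E → F} {z : E} (hf : AnalyticAt ℂ f (0, z))
    (h0 : ∀ᶠ p in 𝓝 (0, z), (∀ i, (p.1 i).re = 0) → f p = 0) : ∀ᶠ p in 𝓝 (0, z), f p = 0 := by
  obtain ⟨U, hU, V, hV, hUV⟩ := mem_nhds_prod_iff.1 (hf.eventually_analyticAt.and h0)
  obtain ⟨ε, hε, hU'⟩ := Metric.mem_nhds_iff.1 hU
  filter_upwards [prod_mem_nhds (Metric.ball_mem_nhds 0 (show 0 < ε / 3 by positivity)) hV]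
    with p hp
  let γ : ℂ → σ → ℂ := fun ζ i => ζ * (p.1 i).re + (p.1 i).im * Complex.I
  have h1 : ∀ ζ ∈ Metric.ball (0 : ℂ) 2, (γ ζ, p.2) ∈ U ×ˢ V := fun ζ hζ => by
    refine ⟨hU' (mem_ball_zero_iff.2 ((pi_norm_lt_iff hε).2 fun i => ?_)), hp.2⟩
    have a1 := (norm_le_pi_norm p.1 i).trans_lt (mem_ball_zero_iff.1 hp.1)
    have a2 := Complex.abs_re_le_norm (p.1 i)
    have a3 := Complex.abs_im_le_norm (p.1 i)
    have a4 := mem_ball_zero_iff.1 hζ
    refine (norm_add_le _ _).trans_lt ?_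
    rw [norm_mul, norm_mul, Complex.norm_I, Complex.norm_real, Complex.norm_real, Real.norm_eq_abs,
      Real.norm_eq_abs]
    nlinarith [abs_nonneg (p.1 i).re, norm_nonneg ζ]
  have h2 : AnalyticOnNhd ℂ (fun ζ => f (γ ζ, p.2)) (Metric.ball 0 2) := fun ζ hζ =>
    (hUV (h1 ζ hζ)).1.comp (f := fun ζ => (γ ζ, p.2))
      ((AnalyticAt.pi fun i => by fun_prop).prod analyticAt_const)
  have h3 : Tendsto (fun x : ℝ => (x : ℂ) * Complex.I) (𝓝[≠] 0) (𝓝[≠] 0) :=
    tendsto_nhdsWithin_iff.2 ⟨(Continuous.tendsto' (by fun_prop) _ _ (by simp)).mono_left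
      nhdsWithin_le_nhds, eventually_mem_nhdsWithin.mono fun x hx => by simpa using hx⟩
  have h4 := h2.eqOn_zero_of_preconnected_of_frequently_eq_zero (convex_ball _ _).isPreconnected
    (Metric.mem_ball_self two_pos) (h3.frequently (Eventually.frequently (by
      filter_upwards [h3.eventually (mem_nhdsWithin_of_mem_nhds (Metric.ball_mem_nhds 0 two_pos))]
        with x hx
      exact (hUV (h1 _ hx)).2 fun i => by simp [γ]))) (x := 1) (by simp)
  simpa [γ] using h4

end loc

end Vale.Agent.P269.Loc
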