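import Vale.Agent.P269.Loc.Wt
import Vale.Agent.P269.Holo.Normal
import Vale.Agent.P269.Holo.Proper

/-!
# Lifting a torus action on a fixed orbit to a homomorphism into the group
-/

namespace Vale.Agent.P269.Loc

open Vale.Agent.P269.Holo Set Function Topology Filter

theorem Wtd.an_expT {σ A : Type} [Fintype σ] [NormedAddCommGroup A] [NormedSpace ℂ A]
    [FiniteDimensional ℂ A] {a : Tor σ →* Module.End ℂ A} (ha : Wtd a) (v : A) (x : σ → ℂ) :
    AnalyticAt ℂ (fun y => a (expT y) v) x := by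
  obtain ⟨W, hW⟩ := exists_wts a
  simp only [ha.apply_eq_sum hW, chr_expT]
  refine Finset.analyticAt_fun_sum _ fun w _ => AnalyticAt.smul ?_ analyticAt_const
  refine AnalyticAt.cexp (Finset.analyticAt_fun_sum _ fun i _ => analyticAt_const.mul ?_)
  exact (ContinuousLinearMap.proj (R := ℂ) (φ := fun _ : σ => ℂ) i).analyticAt x

/-- An analytic germ that vanishes on the imaginary vectors has zero derivative. -/
theorem fderiv_eq_zero_of_im {σ E : Type} [Fintype σ] [NormedAddCommGroup E] [NormedSpace ℂ E]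
    {h : (σ → ℂ) → E} (ha : AnalyticAt ℂ h 0)
    (h0 : ∀ᶠ x in 𝓝 (0 : σ → ℂ), (∀ i, (x i).re = 0) → h x = 0) : fderiv ℂ h 0 = 0 := by
  have key : ∀ v : σ → ℂ, (∀ i, (v i).re = 0) → fderiv ℂ h 0 v = 0 := by
    intro v hv
    have hl : HasDerivAt (fun s : ℝ => s • v) v 0 := by
      simpa using (hasDerivAt_id (0 : ℝ)).smul_const v
    have h1 : HasFDerivAt h ((fderiv ℂ h 0).restrictScalars ℝ) ((0 : ℝ) • v) := by
      rw [zero_smul]; exact ha.differentiableAt.hasFDerivAt.restrictScalars ℝ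
    have h2 := h1.comp_hasDerivAt (0 : ℝ) hl
    have h3 : Tendsto (fun s : ℝ => s • v) (𝓝 0) (𝓝 0) := by simpa using hl.continuousAt.tendsto
    have h4 : (h ∘ fun s : ℝ => s • v) =ᶠ[𝓝 0] fun _ => 0 := by
      filter_upwards [h3.eventually h0] with s hs using hs fun i => by simp [hv i]
    exact h2.unique ((hasDerivAt_const (0 : ℝ) (0 : E)).congr_of_eventuallyEq h4)
  ext1 v
  have e : v = (-Complex.I) • (fun i => ((v i).re : ℂ) * Complex.I) +
      fun i => ((v i).im : ℂ) * Complex.I := by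
    funext i
    apply Complex.ext <;> simp
  rw [e, map_add, map_smul, key _ fun i => by simp, key _ fun i => by simp]
  simp

section group

variable {G T L A E : Type} [Group G] [TopologicalSpace G] [IsTopologicalGroup G]
  [TopologicalSpace T] [MulAction G T] [NormedAddCommGroup L] [NormedSpace ℂ L]
  [NormedAddCommGroup A] [NormedSpace ℂ A] [NormedAddCommGroup E] [NormedSpace ℂ E]
  {κ : L → G} {ι : T → A} {φ : E → T} {y : E}

omit [IsTopologicalGroup G] in
theorem slK_inj (hκ : IsExp κ) (h : IsSlK κ ι φ y) :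
    ∀ᶠ p : G × E in 𝓝 1 ×ˢ 𝓝 y, p.1 • φ y = φ p.2 → p.1 = 1 ∧ p.2 = y := by
  rw [← nhds_prod_eq, ← hκ.map_nhds_prod y, eventually_map]
  have h1 : Tendsto (fun p : L × E => ((p.1, y), ((0 : L), p.2))) (𝓝 (0, y))
      (𝓝 (0, y) ×ˢ 𝓝 (0, y)) :=
    Tendsto.prodMk (Continuous.tendsto' (by fun_prop) _ _ rfl)
      (Continuous.tendsto' (by fun_prop) _ _ rfl)
  filter_upwards [h1.eventually h.lh.eventually_inj] with p hp e
  obtain ⟨h2, h3⟩ := Prod.mk.inj (hp (by simpa [hκ.zero] using e))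
  exact ⟨by rw [h2, hκ.zero], h3.symm⟩

/-- A slice meets the orbit of its centre only at the centre. -/
theorem slK_orbit [ProperSMul G T] (hκ : IsExp κ) (h : IsSlK κ ι φ y) :
    ∀ᶠ z in 𝓝 y, ∀ g : G, g • φ y = φ z → z = y := by
  obtain ⟨P, hP, Q, hQ, h1⟩ := eventually_prod_iff.1 (slK_inj hκ h)
  obtain ⟨N, h2, h3, h4⟩ := _root_.eventually_nhds_iff.1 hP
  have h5 : IsOpen (⋃ k : MulAction.stabilizer G (φ y), (fun g : G => g * (k : G)⁻¹) ⁻¹' N) :=
    isOpen_iUnion fun k => h3.preimage (by fun_prop)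
  have h6 := eventually_mem_of_proper (x := φ y) (y := φ y) h5 fun g hg =>
    mem_iUnion.2 ⟨⟨g, hg⟩, by simpa using h4⟩
  filter_upwards [(tendsto_const_nhds.prodMk (h.cont hκ).tendsto).eventually h6, hQ]
    with z h7 h8 g hg
  obtain ⟨k, hk⟩ := mem_iUnion.1 (h7 g hg)
  refine (h1 (h2 _ hk) h8 ?_).2
  rw [mul_smul, show (k : G)⁻¹ • φ y = φ y from (k⁻¹).2, hg]

omit [TopologicalSpace T] in
/-- A continuous map from a connected space to a discrete stabiliser is constant. -/
theorem eq_of_stab {X : Type} [TopologicalSpace X] [PreconnectedSpace X] {t : T}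
    (hs : ∀ᶠ g in 𝓝 (1 : G), g • t = t → g = 1) {D : X → G} (hD : Continuous D)
    (h : ∀ x, D x • t = t) (x x' : X) : D x = D x' := by
  refine ((IsLocallyConstant.iff_eventually_eq D).2 fun p => ?_).apply_eq_of_preconnectedSpace x x'
  have h1 : Tendsto (fun q => (D p)⁻¹ * D q) (𝓝 p) (𝓝 1) :=
    Continuous.tendsto' (by fun_prop) _ _ (inv_mul_cancel _)
  filter_upwards [h1.eventually hs] with q hq
  exact (inv_mul_eq_one.1 (hq (by rw [mul_smul, h, inv_smul_eq_iff, h]))).symm

omit [IsTopologicalGroup G] in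
/-- A one-parameter group that commutes with the action and is tangent to the orbit of `t` moves
`t` along its orbit. -/
theorem flow_eq [ContinuousSMul G T] [FiniteDimensional ℂ A] (hκ : IsExp κ) (hι : Injective ι)
    {t : T} (hh : HolAct κ ι t) {b : ℂ → T → T} {a : ℂ → Module.End ℂ A}
    (he : ∀ s t, ι (b s t) = a s (ι t)) (hc : ∀ s (g : G) t, b s (g • t) = g • b s t)
    (hb : ∀ s s', b (s + s') t = b s (b s' t)) (h0 : b 0 t = t)
    (hu : ContinuousAt (fun s => b s t) 0) (han : AnalyticAt ℂ (fun s => ι (b s t)) 0) {v : L}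
    (hv : fderiv ℂ (fun s => ι (b s t)) 0 1 = inf κ ι t v) : b 1 t = κ v • t := by
  have := FiniteDimensional.complete ℂ A
  let c : ℂ → T := fun z => κ (z • -v) • b z t
  have hc0 : c 0 = t := by simp [c, hκ.zero, h0]
  have hadd : ∀ z z', c (z + z') = b z (κ (z • -v) • c z') := fun z z' => by
    simp only [c, hκ.add, hb, hc, mul_smul]
  have hl : ∀ s : ℂ, HasDerivAt (fun s : ℂ => s • -v) (-v) s := fun s => by
    simpa using (hasDerivAt_id s).smul_const (-v)
  have hlc : Tendsto (fun s : ℂ => s • -v) (𝓝 0) (𝓝 0) := by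
    simpa using (hl 0).continuousAt.tendsto
  have hcc : Tendsto c (𝓝 0) (𝓝 t) := by
    have := (hκ.tendsto.comp hlc).smul hu.tendsto
    rwa [h0, one_smul] at this
  have hh' : HolAct κ ι (b 0 t) := h0.symm ▸ hh
  have hf : HasDerivAt (fun z => ι (c z)) 0 0 := by
    have h1 := (hh'.an_fam (φ := fun s => b s t) hu han).differentiableAt.hasFDerivAt
    rw [hh'.fderiv_fam (φ := fun s => b s t) hκ hu han] at h1
    have h2 := HasFDerivAt.comp_hasDerivAt (f := fun s : ℂ => (s • -v, s)) 0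
      (by simpa using h1) ((hl 0).prodMk (hasDerivAt_id' 0))
    simpa [hv, h0, Function.comp_def, c] using h2
  obtain ⟨Φ, hΦ, hΦe⟩ := hh
  have h2 : ∀ᶠ p : ℂ × ℂ in 𝓝 0 ×ˢ 𝓝 0, ι (c (p.1 + p.2)) = a p.1 (Φ (p.1 • -v, ι (c p.2))) := by
    have : Tendsto (fun p : ℂ × ℂ => (p.1 • -v, c p.2)) (𝓝 0 ×ˢ 𝓝 0) (𝓝 (0, t)) :=
      (hlc.comp tendsto_fst).prodMk_nhds (hcc.comp tendsto_snd)
    filter_upwards [this.eventually hΦe] with p hp
    rw [hadd, he, hp]
    rfl
  have h3 : ∀ᶠ s : ℂ in 𝓝 0, AnalyticAt ℂ Φ (s • -v, ι t) :=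
    (hlc.prodMk_nhds tendsto_const_nhds).eventually hΦ.eventually_analyticAt
  have h4 : ∀ᶠ s : ℂ in 𝓝 0, HasDerivAt (fun z => ι (c z)) 0 s := by
    filter_upwards [h2.curry, h3] with s h5 h6
    have h7 : HasDerivAt (fun s' => Φ (s • -v, ι (c s'))) 0 0 := by
      have := (hc0 ▸ h6).differentiableAt.hasFDerivAt.comp_hasDerivAt 0
        ((hasDerivAt_const (0 : ℂ) (s • -v)).prodMk hf)
      simpa [← Prod.zero_eq_mk, Function.comp_def] using this
    have h8 : HasDerivAt (fun s' => a s (Φ (s • -v, ι (c s')))) 0 0 := by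
      simpa [Function.comp_def] using
        (LinearMap.toContinuousLinearMap (a s)).hasFDerivAt.comp_hasDerivAt 0 h7
    have h9 : HasDerivAt (fun s' => ι (c (s + s'))) 0 (s - s) := by
      rw [sub_self]; exact h8.congr_of_eventuallyEq h5
    simpa using h9.comp_sub_const s s
  have h9 : ∀ᶠ s : ℂ in 𝓝 0, c s = t := by
    obtain ⟨ε, hε, hb⟩ := Metric.eventually_nhds_iff_ball.1 h4
    filter_upwards [Metric.ball_mem_nhds 0 hε] with s hs
    rw [← hc0]
    exact hι (Metric.isOpen_ball.is_const_of_deriv_eq_zero (convex_ball 0 ε).isPreconnected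
      (fun z hz => (hb z hz).differentiableAt.differentiableWithinAt)
      (fun z hz => (hb z hz).deriv) hs (Metric.mem_ball_self hε))
  have h10 : c 1 = c 0 := by
    refine ((IsLocallyConstant.iff_eventually_eq c).2 fun z => ?_).apply_eq_of_preconnectedSpace 1 0
    have h11 : Tendsto (fun s => s - z) (𝓝 z) (𝓝 0) :=
      Continuous.tendsto' (by fun_prop) _ _ (sub_self z)
    filter_upwards [h11.eventually h9] with s hs
    have := hadd z (s - z)
    rwa [add_sub_cancel, hs, hc] at this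
  rw [hc0] at h10
  simpa [c, hκ.neg, inv_smul_eq_iff] using h10

end group

/-- A torus action that preserves the orbit of `t` is, after an isogeny, given on `t` by a
homomorphism to the group. -/
theorem exists_lift {σ G T L A : Type} [Fintype σ] [Group G] [TopologicalSpace G]
    [IsTopologicalGroup G] [TopologicalSpace T] [T2Space T] [MulAction G T] [ProperSMul G T]
    [NormedAddCommGroup L] [NormedSpace ℂ L] [FiniteDimensional ℂ L] [NormedAddCommGroup A]
    [NormedSpace ℂ A] [FiniteDimensional ℂ A] {κ : L → G} (hκ : IsExp κ) {ι : T → A}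
    (hι : Topology.IsEmbedding ι) {aT : Tor σ → T → T} {a : Tor σ →* Module.End ℂ A} (ha : Wtd a)
    (he : ∀ s t, ι (aT s t) = a s (ι t)) (hc : ∀ s (g : G) t, aT s (g • t) = g • aT s t) {t : T}
    {n : ℕ} (hm : IsMfd ι n t) (hh : HolAct κ ι t) (hi : Function.Injective (inf κ ι t))
    (hf : Finite (MulAction.stabilizer G t)) (hx : ∀ s ∈ cpt σ, ∃ g : G, aT s t = g • t) :
    ∃ (m : ℕ) (ρ : Tor σ →* G) (ξ : (σ → ℂ) →L[ℂ] L), m ≠ 0 ∧ Continuous ρ ∧
      (∀ x, ρ (expT x) = κ (ξ x)) ∧ ∀ s, aT (s ^ m) t = ρ s • t := by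
  have h1 : aT 1 t = t := hι.injective (by rw [he, map_one]; rfl)
  have hmul : ∀ s s', aT (s * s') t = aT s (aT s' t) := fun s s' =>
    hι.injective (by rw [he, he, he, map_mul]; rfl)
  have han : ∀ x, AnalyticAt ℂ (fun x => ι (aT (expT x) t)) x := fun x => by
    simpa only [he] using ha.an_expT (ι t) x
  have hu : Continuous fun x => aT (expT x) t :=
    hι.continuous_iff.2 (continuous_iff_continuousAt.2 fun x => (han x).continuousAt)
  obtain ⟨φ, rfl, hφ⟩ := hm.exists_slK hκ hh hi (Nat.add_sub_cancel' (hm.finrank_le hκ hh hi))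
  have hs : ∀ᶠ g in 𝓝 (1 : G), g • φ 0 = φ 0 → g = 1 :=
    ((tendsto_id.prodMk tendsto_const_nhds).eventually (slK_inj hκ hφ)).mono fun g hg e => (hg e).1
  obtain ⟨γ, h, hγ, hh', γ0, h0, hγh⟩ := hφ.transition hκ (φ' := fun x => aT (expT x) (φ 0))
    (y' := 0) (by rw [expT_zero, h1]) hu.continuousAt (han 0)
  have hD : fderiv ℂ h 0 = 0 := by
    refine fderiv_eq_zero_of_im hh' ?_
    filter_upwards [hγh, hh'.continuousAt.eventually (h0 ▸ slK_orbit hκ hφ)] with x e1 e2 e3
    obtain ⟨g, hg⟩ := hx (expT x) fun i => by rw [coe_expT, Complex.norm_exp, e3 i, Real.exp_zero]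
    rw [← h0]
    exact e2 ((κ (γ x))⁻¹ * g) (by rw [h0, mul_smul, ← hg, e1, inv_smul_smul])
  let ξ := fderiv ℂ γ 0
  have hξ : ∀ x, fderiv ℂ (fun x => ι (aT (expT x) (φ 0))) 0 x = inf κ ι (φ 0) (ξ x) := by
    intro x
    have e1 := fderiv_comp_an (g := fun p : L × _ => ι (κ p.1 • φ p.2)) (f := fun x => (γ x, h x))
      (by rw [γ0, h0]; exact IsParam.an hφ) (hγ.prod hh')
    rw [γ0, h0, hh.fderiv_fam hκ (hφ.cont hκ) (hφ.an hκ),
      hγ.differentiableAt.fderiv_prodMk hh'.differentiableAt, hD] at e1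
    rw [EventuallyEq.fderiv_eq (f := fun x => ι (κ (γ x) • φ (h x)))
      (hγh.mono fun x hx => congrArg ι hx), e1]
    simp [ξ]
  have hall : ∀ x, aT (expT x) (φ 0) = κ (ξ x) • φ 0 := by
    intro x
    let l : ℂ →L[ℂ] σ → ℂ := ContinuousLinearMap.toSpanSingleton ℂ x
    have := flow_eq hκ hι.injective hh (b := fun s => aT (expT (l s))) (a := fun s => a (expT (l s)))
      (fun _ _ => he _ _) (fun _ _ _ => hc _ _ _) (fun s s' => by rw [map_add, expT_add, hmul])
      (by rw [map_zero, expT_zero, h1]) (hu.comp l.continuous).continuousAt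
      ((han _).comp (l.analyticAt 0)) (v := ξ x) (by
        rw [fderiv_comp_an (g := fun x => ι (aT (expT x) (φ 0))) (han _) (l.analyticAt 0),
          map_zero, l.fderiv, ← hξ]
        simp [l])
    simpa [l] using this
  have hadd : ∀ x y, κ (ξ (x + y)) = κ (ξ x) * κ (ξ y) := by
    intro x y
    have hk := hκ.cont
    have := eq_of_stab hs (D := fun p : (σ → ℂ) × (σ → ℂ) =>
      (κ (ξ (p.1 + p.2)))⁻¹ * (κ (ξ p.1) * κ (ξ p.2))) (by fun_prop) (fun p => by
        rw [mul_smul, inv_smul_eq_iff, ← hall, add_comm, expT_add, hmul, hall p.1, hc, hall,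
          mul_smul]) (x, y) (0, 0)
    simpa [hκ.zero, inv_mul_eq_one] using this
  let m := Nat.card (MulAction.stabilizer G (φ 0))
  have hpow : ∀ (k : ℕ) x, κ (ξ (k • x)) = κ (ξ x) ^ k := fun k x => by
    induction k with
    | zero => simp [hκ.zero]
    | succ k ih => rw [succ_nsmul, hadd, ih, pow_succ]
  have hker : ∀ x y, expT x = expT y → κ (ξ (m • x)) = κ (ξ (m • y)) := by
    intro x y e
    have e1 : expT (x - y) = 1 := by
      apply mul_right_cancel (b := expT y)
      rw [← expT_add, sub_add_cancel, e, one_mul]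
    have e2 : κ (ξ (x - y)) ∈ MulAction.stabilizer G (φ 0) := by
      rw [MulAction.mem_stabilizer_iff, ← hall, e1, h1]
    have e3 : κ (ξ (x - y)) ^ m = 1 :=
      congrArg Subtype.val (pow_card_eq_one' (x := (⟨_, e2⟩ : MulAction.stabilizer G (φ 0))))
    rw [← sub_add_cancel x y, nsmul_add, hadd, hpow, e3, one_mul]
  let lg : Tor σ → σ → ℂ := fun s i => Complex.log (s i)
  have hlg : ∀ s, expT (lg s) = s := fun s => by
    funext i; ext; exact Complex.exp_log (s i).ne_zero
  let ρ : Tor σ →* G := MonoidHom.mk' (fun s => κ (ξ (m • lg s))) fun s s' => by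
    rw [← hadd, ← nsmul_add]
    exact hker _ _ (by rw [expT_add, hlg, hlg, hlg])
  refine ⟨m, ρ, (m : ℂ) • ξ, Nat.card_pos.ne', continuous_of_continuousAt_one ρ ?_, fun x => ?_,
    fun s => ?_⟩
  · have e1 : ContinuousAt lg 1 := continuousAt_pi.2 fun i =>
      ContinuousAt.clog (f := fun s : Tor σ => (s i : ℂ))
        (Units.continuous_val.comp (continuous_apply i)).continuousAt (by simp)
    exact hκ.cont.continuousAt.comp (ξ.continuous.continuousAt.comp (e1.const_smul m))
  · rw [smul_apply, Nat.cast_smul_eq_nsmul, ← map_nsmul]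
    exact hker _ _ (hlg _)
  · rw [← hlg s, ← expT_nsmul, hall, hlg]
    rfl

end Vale.Agent.P269.Loc
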