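import Vale.Agent.P269.Loc.TH
import Vale.Agent.P269.Loc.Lift

/-!
# The fixed locus, equivariant slices (definitions)
-/

set_option linter.unusedSectionVars false

namespace Vale.Agent.P269.Loc

open Set Function Topology Filter Module Vale.Agent.P291Z Vale.Agent.P269.Ch Vale.Agent.P269.Holo
  Vale.Agent.P269.Orb

variable {σ : Type} [Fintype σ]

instance : PreconnectedSpace (Tor σ) :=
  ⟨by rw [← expT_surjective.range_eq]; exact isPreconnected_range continuous_expT⟩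

theorem Ch_eventually_stab (Y : Ch.Sp) (t : Y.T) : ∀ᶠ g in 𝓝 (1 : Y.G), g • t = t → g = 1 :=
  haveI := (Y.free t).t2Space
  eventually_stab inferInstance

namespace TS

variable {Y : Ch.Sp} (a : TS σ Y) {d : Dat σ Y.G}

theorem π_congr (s : Tor σ) {t t' : Y.T} (h : Y.π t = Y.π t') : Y.π (a.a s t) = Y.π (a.a s t') := by
  obtain ⟨g, rfl⟩ := (Y.fib _ _).1 h
  rw [a.comm, Y.π_smul]

theorem isClosed_fix : IsClosed a.Fix := by
  rw [show a.Fix = ⋂ s ∈ cpt σ, {t | Y.π (a.a s t) = Y.π t} from by ext; simp [Fix]]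
  exact isClosed_biInter fun s _ => isClosed_eq
    (Y.cont.comp (a.continuous_a continuous_const continuous_id)) Y.cont

variable {a}

theorem smul_mem_fix {t : Y.T} (h : t ∈ a.Fix) (g : Y.G) : g • t ∈ a.Fix := fun s hs => by
  rw [a.comm, Y.π_smul, Y.π_smul, h s hs]

theorem mem_fix_of_π {t t' : Y.T} (h : t ∈ a.Fix) (e : Y.π t = Y.π t') : t' ∈ a.Fix := by
  obtain ⟨g, rfl⟩ := (Y.fib _ _).1 e
  exact smul_mem_fix h g

theorem a_mem_fix {t : Y.T} (h : t ∈ a.Fix) (s : Tor σ) : a.a s t ∈ a.Fix := fun u hu => by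
  rw [a.a_comm]
  exact a.π_congr s (h u hu)

theorem π_a_of_fx {t : Y.T} (h : t ∈ a.Fx d) (s : Tor σ) : Y.π (a.a s t) = Y.π t := by
  obtain ⟨u, rfl⟩ := exists_pow_eq d.hm s
  rw [h u, Y.π_smul]

theorem fx_subset : a.Fx d ⊆ a.Fix := fun _ h s _ => π_a_of_fx h s

/-- an element that moves a fixed point to a fixed point centralises the homomorphism -/
theorem commute_of_fx {t : Y.T} (h : t ∈ a.Fx d) {g : Y.G} (h' : g • t ∈ a.Fx d) (s : Tor σ) :
    Commute (d.ρ s) g := by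
  have := eq_of_stab (Ch_eventually_stab Y t) (D := fun s => (d.ρ s * g)⁻¹ * (g * d.ρ s))
    (((d.cρ.mul continuous_const).inv).mul (continuous_const.mul d.cρ)) (fun s => by
      rw [mul_smul, mul_smul g, ← h s, ← a.comm, h' s, ← mul_smul (d.ρ s), inv_smul_smul]) s 1
  simp only [map_one, one_mul, mul_one, inv_mul_cancel] at this
  exact inv_mul_eq_one.1 this

theorem smul_mem_fx {t : Y.T} (h : t ∈ a.Fx d) {g : Y.G} (hg : ∀ s, Commute (d.ρ s) g) :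
    g • t ∈ a.Fx d := fun s => by rw [a.comm, h s, smul_smul, smul_smul, hg s]

theorem isClosed_fx (a : TS σ Y) (d : Dat σ Y.G) : IsClosed (a.Fx d) := by
  rw [show a.Fx d = ⋂ s, {t | a.a (s ^ d.m) t = d.ρ s • t} from by ext; simp [Fx]]
  exact isClosed_iInter fun s => isClosed_eq (a.continuous_a continuous_const continuous_id)
    (continuous_const_smul _)

end TS

theorem TV.tw_comm {Y : Ch.Sp} {a : TS σ Y} {E : VB Y} (b : TV a E) (d : Dat σ Y.G) {g : Y.G}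
    (hg : ∀ s, Commute (d.ρ s) g) (s : Tor σ) (v : E.W) : b.tw d s (g • v) = g • b.tw d s v := by
  rw [b.tw_apply, b.tw_apply, b.comm, smul_smul, smul_smul, (hg s).inv_left]

theorem TV.tw_mem {Y : Ch.Sp} {a : TS σ Y} {E : VB Y} (b : TV a E) {d : Dat σ Y.G} {t : Y.T}
    (ht : t ∈ a.Fx d) (s : Tor σ) {v : E.W} (hv : v ∈ E.F t) : b.tw d s v ∈ E.F t := by
  have := E.inv (d.ρ s)⁻¹ _ _ (b.inv (s ^ d.m) t v hv)
  rwa [ht s, inv_smul_smul] at this

theorem TV.τ_comm {Y : Ch.Sp} {a : TS σ Y} {E : VB Y} (b : TV a E) (d : Dat σ Y.G) {g : Y.G}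
    (hg : ∀ s, Commute (d.ρ s) g) (s : Tor σ) (v : E.W) : b.τ d s (g • v) = g • b.τ d s v :=
  (map_cx (b.tw_cont d) (b.tw_cont d) (f := DistribSMul.toLinearMap ℂ E.W g)
    (fun s _ v => (b.tw_comm d hg s v).symm) s v).symm

theorem TV.τ_mem {Y : Ch.Sp} {a : TS σ Y} {E : VB Y} (b : TV a E) {d : Dat σ Y.G} {t : Y.T}
    (ht : t ∈ a.Fx d) (s : Tor σ) {v : E.W} (hv : v ∈ E.F t) : b.τ d s v ∈ E.F t :=
  cx_mem (b.tw_cont d) (fun s _ _ hv => b.tw_mem ht s hv) s hv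

theorem TV.τ_tw {Y : Ch.Sp} {a : TS σ Y} {E : VB Y} (b : TV a E) (d : Dat σ Y.G) (s u : Tor σ)
    (v : E.W) : b.tw d u (b.τ d s v) = b.τ d s (b.tw d u v) :=
  map_cx (b.tw_cont d) (b.tw_cont d) (fun s _ v => by
    rw [← End.mul_apply, ← map_mul, mul_comm, map_mul, End.mul_apply]) s v

namespace TH

variable {Y : HO} (h : TH σ Y) (d : Dat σ Y.G)

/-- the twisted action on the ambient space -/
noncomputable abbrev τ : Tor σ →* End ℂ Y.A := h.tanV.τ d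

theorem wtd_τ : Wtd (h.τ d) := h.tanV.wtd_τ d

theorem τ_ι {s : Tor σ} (hs : s ∈ cpt σ) (t : Y.T) :
    h.τ d s (Y.ι t) = Y.ι ((d.ρ s)⁻¹ • h.a (s ^ d.m) t) := by
  rw [Y.eqv, h.eqv, h.tanV.τ_eq d hs]; rfl

theorem mem_fx_iff {t : Y.T} : t ∈ h.toTS.Fx d ↔ Y.ι t ∈ wsp (h.τ d) 0 := by
  refine ⟨fun ht => (h.wtd_τ d).mem_wsp_zero_of_gen_pow one_ne_zero (by
    rw [pow_one, h.τ_ι d gen_mem, ht, inv_smul_smul]), fun ht s => ?_⟩
  have := mem_wsp_zero.1 ht (ph s)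
  rw [h.τ_ι d (ph_mem s), Y.emb.injective.eq_iff, inv_smul_eq_iff, d.ph, ← map_pow, h.a_ph] at this
  exact this

/-- a slice at a fixed point in which the twisted action of the compact torus and the action of the
stabiliser are linear -/
structure IsES (t : Y.T) (E : Submodule ℂ Y.A) (φ : Y.A → Y.T) : Prop where
  zero : φ 0 = t
  slk : IsSlK Y.κ Y.ι (fun v : E => φ v) 0
  der : ∀ v : E, fderiv ℂ (fun v : E => Y.ι (φ v)) 0 v = v
  τ_mem : ∀ s, ∀ v ∈ E, h.τ d s v ∈ E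
  smul_mem : ∀ g : Y.G, g • t = t → ∀ v ∈ E, g • v ∈ E
  tw : ∀ᶠ v : E in 𝓝 0, ∀ s ∈ cpt σ, h.a (s ^ d.m) (φ v) = d.ρ s • φ (h.τ d s v)
  smul : ∀ᶠ v : E in 𝓝 0, ∀ g : Y.G, g • t = t → g • φ v = φ (g • (v : Y.A))
  orb : ∀ᶠ p : E × E in 𝓝 0, ∀ g : Y.G, g • φ p.1 = φ p.2 → g • t = t ∧ g • (p.1 : Y.A) = p.2

end TH

end Vale.Agent.P269.Loc
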