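import Vale.Agent.P269.Loc.Wb
import Vale.Agent.P269.Loc.Fix

/-!
# Presentations of parts of the fixed locus and their Borel constructions
-/

set_option linter.unusedSectionVars false

namespace Vale.Agent.P269.Loc

open Set Function Topology Filter Module TensorProduct Vale.Agent.P291Z Vale.Agent.P269.Ch
  Vale.Agent.P269.Orb

variable {σ : Type} [Fintype σ] {Y Z : Ch.Sp}

/-- a morphism `i : F → Y` along which a multiple of the torus action is given by a homomorphism to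
the group that commutes with the group of `F` -/
structure FD (a : TS σ Y) extends Dat σ Y.G where
  /-- the source -/
  F : Ch.Sp
  /-- the morphism -/
  i : Mor F Y
  fix : ∀ t, i.f t ∈ a.Fx toDat
  comm : ∀ s g, Commute (ρ s) (i.ρ g)

namespace FD

variable {a : TS σ Y} (c : FD a)

/-- the second factor of the Borel construction -/
abbrev P (M : ℕ) : PS σ := (pm σ M).pow c.hm

/-- the Borel construction -/
noncomputable abbrev B (M : ℕ) : Ch.Sp := (TS.triv σ c.F).bo (c.P M)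

/-- the projection -/
noncomputable abbrev pr (M : ℕ) : Mor (c.B M) c.F := prB c.F (c.P M)

theorem smul_eq (M : ℕ) (k : c.F.G × Tor σ) (x : c.F.T × PM σ M) :
    (show (c.B M).G from k) • (show (c.B M).T from x) = (k.1 • x.1, k.2 ^ c.m • x.2) := rfl

/-- the homomorphism of the groups of the Borel constructions -/
noncomputable def hom : c.F.G × Tor σ →* Y.G × Tor σ where
  toFun k := (c.i.ρ k.1 * (c.ρ k.2)⁻¹, k.2 ^ c.m)
  map_one' := by simp
  map_mul' k k' := Prod.ext (by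
    change c.i.ρ (k.1 * k'.1) * (c.ρ (k.2 * k'.2))⁻¹ =
      c.i.ρ k.1 * (c.ρ k.2)⁻¹ * (c.i.ρ k'.1 * (c.ρ k'.2)⁻¹)
    rw [mul_assoc, ← mul_assoc _ (c.i.ρ k'.1), (c.comm k.2 k'.1).inv_left, mul_comm k.2, map_mul,
      map_mul, mul_inv_rev, mul_assoc, mul_assoc]) (mul_pow _ _ _)

/-- the morphism of Borel constructions -/
noncomputable def mor (M : ℕ) : Mor (c.B M) (a.B M) :=
  ⟨c.hom, Prod.map c.i.f id, ((c.i.cρ.comp continuous_fst).mul
    (c.cρ.comp continuous_snd).inv).prodMk (continuous_snd.pow _), c.i.cf.prodMap continuous_id,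
    fun (k : c.F.G × Tor σ) (x : c.F.T × PM σ M) => Prod.ext
      (show c.i.f (k.1 • x.1) = (c.i.ρ k.1 * (c.ρ k.2)⁻¹) • a.a (k.2 ^ c.m) (c.i.f x.1) by
        rw [c.fix, mul_smul, inv_smul_smul, c.i.eqv]) rfl⟩

theorem mor_π (M : ℕ) (t : c.F.T) (p : PM σ M) :
    (c.mor M).map ((c.B M).π (t, p)) = (a.B M).π (c.i.f t, p) := (c.mor M).map_π _

theorem pr_π (M : ℕ) (x : (c.B M).T) : (c.pr M).map ((c.B M).π x) = c.F.π x.1 := (c.pr M).map_π _

/-- polynomials in the equivariant parameters -/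
noncomputable def ev (M : ℕ) : R σ →ₐ[ℂ] Hev (c.B M).X :=
  (Hev.map (c.mor M).map).comp (a.ev (pm σ M))

/-- polynomials in the equivariant parameters -/
noncomputable def e (M : ℕ) : R σ →ₐ[ℂ] H (c.B M).X := (H.mapA (c.mor M).map).comp (a.e M)

theorem e_apply (M : ℕ) (f : R σ) : c.e M f = H.map (c.mor M).map (a.e M f) := rfl

theorem coe_ev (M : ℕ) (f : R σ) : (c.ev M f).1 = c.e M f := rfl

theorem e_comm (M : ℕ) (f : R σ) (x : H (c.B M).X) : x * c.e M f = c.e M f * x :=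
  (Hev.commute (c.ev M f).2 x).symm

theorem ev_lin (M : ℕ) (w : σ → ℤ) :
    c.ev M ((c.m : ℂ)⁻¹ • lin w) = c1 ((TS.triv σ c.F).ch (c.P M) w) := by
  have : (c.mor M).chr (a.ch (pm σ M) w) = (TS.triv σ c.F).ch (c.P M) w ^ c.m :=
    ContinuousMonoidHom.ext fun k => (map_pow (chr w) _ _).trans
      (map_pow (evalC k) ((TS.triv σ c.F).ch (c.P M) w) c.m).symm
  rw [map_smul, ev, AlgHom.comp_apply, TS.ev_lin, map_c1, this, c1_pow, ← Nat.cast_smul_eq_nsmul ℂ,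
    inv_smul_smul₀ (Nat.cast_ne_zero.2 c.hm)]

/-- evaluation of elements of `R ⊗ H F` -/
noncomputable def evT (M : ℕ) : R σ ⊗[ℂ] H c.F.X →ₐ[ℂ] H (c.B M).X :=
  Loc.evT (c.e M) (c.e_comm M) (H.mapA (c.pr M).map)

theorem evT_tmul (M : ℕ) (f : R σ) (x : H c.F.X) :
    c.evT M (f ⊗ₜ x) = c.e M f * H.map (c.pr M).map x := rfl

theorem π_a (s : Tor σ) (t : c.F.T) : Y.π (a.a s (c.i.f t)) = Y.π (c.i.f t) :=
  TS.π_a_of_fx (c.fix t) s

theorem mem_range_mor {M : ℕ} {x : (a.B M).T} :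
    (a.B M).π x ∈ range (c.mor M).map ↔ Y.π x.1 ∈ range c.i.map := by
  simp only [range_map]
  constructor
  · rintro ⟨_, ⟨y, rfl⟩, h⟩
    obtain ⟨k, rfl⟩ := ((a.B M).fib _ _).1 h
    exact ⟨_, ⟨y.1, rfl⟩, ((Y.π_smul k.1 _).trans (c.π_a k.2 y.1)).symm⟩
  · rintro ⟨_, ⟨t, rfl⟩, h⟩
    obtain ⟨g, hg⟩ := (Y.fib _ _).1 h
    exact ⟨_, ⟨(t, x.2), rfl⟩, ((a.B M).fib _ _).2 ⟨(g, 1), Prod.ext
      ((congrArg (g • ·) (a.one _)).trans hg) (one_smul _ _)⟩⟩

theorem exists_smul {M : ℕ} {t t' : c.F.T} (h : c.F.π t = c.F.π t') (s : Tor σ) (p : PM σ M) :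
    (c.B M).π (t, p) = (c.B M).π (t', s • p) := by
  obtain ⟨g, rfl⟩ := (c.F.fib _ _).1 h
  obtain ⟨u, rfl⟩ := exists_pow_eq c.hm s
  exact ((c.B M).fib _ _).2 ⟨(g, u), rfl⟩

theorem isEmbedding_mor (h : IsEmbedding c.i.map) (M : ℕ) : IsEmbedding (c.mor M).map := by
  have key : ∀ (t : c.F.T) (p : PM σ M) (y : (a.B M).T), (a.B M).π (c.i.f t, p) = (a.B M).π y →
      c.i.map (c.F.π t) = Y.π y.1 ∧ ∃ s : Tor σ, s • p = y.2 := fun t p y e => by
    obtain ⟨k, rfl⟩ := ((a.B M).fib _ _).1 e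
    exact ⟨(c.i.map_π t).trans ((Y.π_smul k.1 _).trans (c.π_a k.2 t)).symm, k.2, rfl⟩
  refine ⟨isInducing_iff_nhds.2 fun x => le_antisymm (c.mor M).map.continuous.continuousAt.le_comap
    fun U hU => ?_, fun x x' e => ?_⟩
  · obtain ⟨⟨t, p⟩, rfl⟩ := (c.B M).surj x
    obtain ⟨O₁, h₁, O₂, h₂, hO⟩ := mem_nhds_prod_iff.1 ((c.B M).cont.continuousAt hU)
    obtain ⟨V, hV, hV'⟩ := mem_comap.1 (h.nhds_eq_comap _ ▸ c.F.quo.isOpenMap.image_mem_nhds h₁)
    rw [c.i.map_π] at hV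
    refine mem_comap.2 ⟨_, c.mor_π M t p ▸ (a.B M).quo.isOpenMap.image_mem_nhds
      (prod_mem_nhds (Y.cont.continuousAt hV) h₂), ?_⟩
    rintro x ⟨y, hy, e⟩
    obtain ⟨⟨t', p'⟩, rfl⟩ := (c.B M).surj x
    obtain ⟨e1, s, e2⟩ := key t' p' y ((c.mor_π M t' p').symm.trans e.symm)
    obtain ⟨t'', h1, h2⟩ := hV' (show c.i.map (c.F.π t') ∈ V from e1 ▸ hy.1)
    rw [c.exists_smul h2.symm s p']
    exact hO (show (t'', s • p') ∈ O₁ ×ˢ O₂ from ⟨h1, e2 ▸ hy.2⟩)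
  · obtain ⟨⟨t, p⟩, rfl⟩ := (c.B M).surj x
    obtain ⟨⟨t', p'⟩, rfl⟩ := (c.B M).surj x'
    obtain ⟨e1, s, rfl⟩ := key t p (c.i.f t', p') (by rwa [c.mor_π, c.mor_π] at e)
    exact c.exists_smul (h.injective (e1.trans (c.i.map_π t').symm)) s p

variable {E : VB Y} (b : TV a E)

/-- the twisted action on the restriction of a bundle -/
@[reducible] noncomputable def tv : TV (TS.triv σ c.F) (E.pb c.i) :=
  ⟨b.τ c.toDat, (b.wtd_τ _).cont₂, fun s g v => b.τ_comm c.toDat (fun s => c.comm s g) s v,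
    fun s t _ h => b.τ_mem (c.fix t) s h⟩

/-- the correction term between the twisted action and its complexification -/
noncomputable def cor {M : ℕ} (p : PM σ M) : End ℂ E.W :=
  b.tw c.toDat (p.rt c.m) * b.τ c.toDat (p.rt c.m)⁻¹

theorem cor_mem_iff {M : ℕ} (p : PM σ M) {U : Submodule ℂ E.W}
    (h1 : ∀ s, ∀ v ∈ U, b.tw c.toDat s v ∈ U) {v : E.W} : c.cor b p v ∈ U ↔ v ∈ U := by
  have h2 := fun s v => cx_mem (b.tw_cont c.toDat) (fun s _ => h1 s) s (v := v)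
  refine ⟨fun h => ?_, fun h => h1 _ _ (h2 _ _ h)⟩
  have := h2 (p.rt c.m) _ (h1 (p.rt c.m)⁻¹ _ h)
  rwa [cor, End.mul_apply, ← End.mul_apply (b.tw _ _), ← map_mul, inv_mul_cancel, map_one,
    End.one_apply, ← End.mul_apply, TV.τ, ← map_mul, mul_inv_cancel, map_one, End.one_apply] at this

theorem cor_surj {M : ℕ} (p : PM σ M) (v : E.W) : ∃ w, c.cor b p w = v :=
  ⟨b.τ c.toDat (p.rt c.m) (b.tw c.toDat (p.rt c.m)⁻¹ v), by
    rw [cor, End.mul_apply, ← End.mul_apply (b.τ _ _), ← map_mul, inv_mul_cancel, map_one,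
      End.one_apply, ← End.mul_apply, ← map_mul, mul_inv_cancel, map_one, End.one_apply]⟩

theorem cor_τ {M : ℕ} (p : PM σ M) (s : Tor σ) (v : E.W) :
    c.cor b p (b.τ c.toDat s v) = b.τ c.toDat s (c.cor b p v) := by
  rw [cor, End.mul_apply, End.mul_apply, ← b.τ_tw, ← End.mul_apply (b.τ _ _),
    ← End.mul_apply (b.τ _ _), ← map_mul, ← map_mul, mul_comm]

theorem cor_of_fix {M : ℕ} (p : PM σ M) {v : E.W} (h : ∀ s, b.tw c.toDat s v = v) :
    c.cor b p v = v := by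
  rw [cor, End.mul_apply, TV.τ, mem_wsp_zero.1 ((mem_wsp_cx (b.tw_cont _)).2 fun s _ => by
    rw [h, chr_zero, Units.val_one, one_smul]), h]

theorem iso_tv (M : ℕ) :
    Iso (c.mor M) ((c.tv b).bo (c.P M)) (b.bo (pm σ M)) fun x => c.cor b x.2 := by
  have h := fun (t : c.F.T) (p : PM σ M) v => c.cor_mem_iff b p (U := E.F (c.i.f t)) (v := v)
    fun s _ h => b.tw_mem (c.fix t) s h
  have c1 : Continuous fun x : (c.F.T × PM σ M) × E.W => x.1.2.rt c.m := by fun_prop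
  refine ⟨Hom.of_continuous (fun x v hv => (h x.1 x.2 v).2 hv) ((b.tw_cont _).comp (c1.prodMk
    ((b.wtd_τ _).cont₂.comp (c1.inv.prodMk continuous_snd))))
    fun (k : c.F.G × Tor σ) (x : c.F.T × PM σ M) (v : E.W) _ => ?_, fun x v _ e =>
      (c.cor_mem_iff b x.2 (U := ⊥) fun s v hv => by rw [show v = 0 from hv, map_zero]; rfl).1 e,
    fun x v hv => ?_⟩
  · change b.tw _ ((k.2 ^ c.m • x.2).rt c.m) (b.τ _ ((k.2 ^ c.m • x.2).rt c.m)⁻¹
      (c.i.ρ k.1 • b.τ _ k.2 v)) = (c.i.ρ k.1 * (c.ρ k.2)⁻¹) • b.b (k.2 ^ c.m) (c.cor b x.2 v)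
    rw [PM.rt_smul c.hm, b.τ_comm _ fun s => c.comm s _, b.tw_comm _ fun s => c.comm s _, mul_smul,
      ← b.tw_apply, cor, ← End.mul_apply (b.τ _ _), ← map_mul, show (absT k.2 * x.2.rt c.m)⁻¹ * k.2
        = ph k.2 * (x.2.rt c.m)⁻¹ by rw [mul_inv, mul_right_comm]; rfl, map_mul (b.τ _),
      End.mul_apply, b.τ_eq _ (ph_mem _), End.mul_apply, ← End.mul_apply (b.tw _ _),
      ← End.mul_apply (b.tw _ _), ← map_mul, ← map_mul, mul_right_comm, absT_mul_ph]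
  · obtain ⟨w, rfl⟩ := c.cor_surj b x.2 v
    exact ⟨w, (h x.1 x.2 w).1 hv, rfl⟩

/-- the inclusion of even classes -/
noncomputable abbrev _root_.Vale.Agent.P269.Loc.inH (X : Type) [TopologicalSpace X] :
    R σ ⊗[ℂ] Hev X →ₐ[ℂ] R σ ⊗[ℂ] H X := Algebra.TensorProduct.map (AlgHom.id ℂ _) (Hev X).val

theorem evT_inH (M : ℕ) (x : R σ ⊗[ℂ] Hev c.F.X) : c.evT M (inH _ x) = (evB (c.ev M) x).1 :=
  evT_map (c.ev M) (ψ := (Hev (c.B M).X).val) (e := c.e M) (he := c.e_comm M)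
    (pr := H.mapA (c.pr M).map) (φ := (Hev c.F.X).val) (c.coe_ev M)
    (fun a => Hev.coe_map (c.pr M).map a) x

variable {b} (k : (c.tv b).Rk)

/-- **the restriction of an equivariant Euler class to the fixed locus** -/
theorem map_eu (M : ℕ) : H.map (c.mor M).map (b.bo (pm σ M)).eu.1 =
    c.evT M (inH _ ((1 ⊗ₜ (k.wb 0).eu) * k.eqc c.m)) := by
  rw [evT_inH, ← k.eu_bo (c.ev_lin M), (c.iso_tv b M).eu]
  rfl

/-- the restriction of an equivariant class that comes from the base -/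
theorem map_pull {Y' : Ch.Sp} {m : Mor Y Y'} (h : (TS.triv σ Y').IsEq a m) (M : ℕ) (x : H Y'.X) :
    H.map (c.mor M).map (H.map ((prB Y' (pm σ M)).comp (h.bo _)).map x) =
      c.evT M (1 ⊗ₜ H.map (m.comp c.i).map x) := by
  rw [evT_tmul, map_one, one_mul, H.map_map, H.map_map, ← Mor.map_comp, ← Mor.map_comp]
  exact congrArg (H.map · x) (Mor.map_ext fun _ => rfl)

/-- composition with an equivariant morphism -/
noncomputable def comp {a' : TS σ Z} {m : Mor Y Z} (h : a'.IsEq a m) : FD a' where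
  m := c.m
  hm := c.hm
  ρ := m.ρ.comp c.ρ
  cρ := m.cρ.comp c.cρ
  abs s := (congrArg m.ρ (c.abs s)).trans (map_one _)
  F := c.F
  i := m.comp c.i
  fix t s := (h _ _).symm.trans ((congrArg m.f (c.fix t s)).trans (m.eqv _ _))
  comm s g := (c.comm s g).map m.ρ

theorem comp_mor {a' : TS σ Z} {m : Mor Y Z} (h : a'.IsEq a m) (M : ℕ) :
    ((c.comp h).mor M).map = (h.bo (pm σ M)).map.comp (c.mor M).map :=
  (Mor.map_ext fun _ => rfl).trans (Mor.map_comp (h.bo (pm σ M)) (c.mor M))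

end FD

end Vale.Agent.P269.Loc
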