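import Vale.Agent.P269.Loc.FP
import Vale.Agent.P269.Loc.Deg

/-!
# Immersions restricted to the fixed loci
-/

set_option linter.unusedSectionVars false

namespace Vale.Agent.P269.Loc

open Set Function Topology Filter Module Vale.Agent.P291Z Vale.Agent.P269.Ch Vale.Agent.P269.Holo
  Vale.Agent.P269.Orb

variable {σ : Type} [Fintype σ] {Y' Y : HO} {h' : TH σ Y'} {h : TH σ Y} {m : Mor Y'.toSp Y.toSp}

/-- the image of a datum -/
def Dat.map {G G' : Type} [Group G] [TopologicalSpace G] [Group G'] [TopologicalSpace G']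
    (d : Dat σ G') (ρ : G' →* G) (hρ : Continuous ρ) : Dat σ G :=
  ⟨d.m, d.hm, ρ.comp d.ρ, hρ.comp d.cρ, fun s => (congrArg ρ (d.abs s)).trans (map_one _)⟩

theorem TS.IsEq.map_fx {Z' Z : Ch.Sp} {a' : TS σ Z'} {a : TS σ Z} {m : Mor Z' Z} (he : a.IsEq a' m)
    {d : Dat σ Z'.G} {t : Z'.T} (ht : t ∈ a'.Fx d) : m.f t ∈ a.Fx (d.map m.ρ m.cρ) := fun s =>
  (he _ _).symm.trans ((congrArg m.f (ht s)).trans (m.eqv _ _))

namespace FP

variable (c' : FP h') (c : FP h) (hm : ∀ t ∈ c'.S, m.f t ∈ c.S)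

/-- the restriction of a morphism -/
noncomputable def mor : Mor c'.orb.toSp c.orb.toSp :=
  ⟨m.ρ, fun t : c'.S => (⟨m.f t.1, hm _ t.2⟩ : c.S), m.cρ,
    (m.cf.comp continuous_subtype_val).subtype_mk _, fun g t => Subtype.ext (m.eqv g t.1)⟩

theorem incl_mor (x : c'.orb.X) : c.incl.map ((c'.mor c hm).map x) = m.map (c'.incl.map x) := by
  obtain ⟨x, rfl⟩ := c'.orb.surj x
  simp only [Mor.map_π]
  rfl

/-- the restriction of an immersion -/
noncomputable def imm (e : Imm m) : Imm (Y' := c'.orb) (Y := c.orb) (c'.mor c hm) :=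
  ⟨e.L, e.d, fun t => e.ι t.1, e.smul, e.hd, e.sd, e.sr,
    fun g t h1 h2 => e.free g t.1 h1 (congrArg Subtype.val h2),
    fun t v hv => e.imm t.1 v (c'.tan_le t hv)⟩

/-- the restriction of an immersion -/
noncomputable def imm' (e : Imm m) : Imm (Y' := c'.orb) (Y := Y) (m.comp c'.incl) :=
  ⟨e.L, e.d, fun t => e.ι t.1, e.smul, e.hd, e.sd, e.sr,
    fun g t h1 h2 => e.free g t.1 h1 (congrArg Subtype.val h2),
    fun t v hv => e.imm t.1 v (c'.tan_le t hv)⟩

theorem cnt_mor {t : c.S} {n : ℕ} : Cnt (c'.mor c hm) univ t n ↔ Cnt m c'.S t.1 n :=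
  ⟨fun ⟨e, h1, h2⟩ => ⟨fun k => (e k).1, fun k => ⟨(e k).2, congrArg Subtype.val (h1 k).2⟩,
    fun t' ht e' => (existsUnique_congr fun _ => exists_congr fun _ => and_congr_right fun _ =>
      Subtype.ext_iff).1 (h2 (⟨t', ht⟩ : c'.S) trivial (Subtype.ext e'))⟩,
    fun ⟨e, h1, h2⟩ => ⟨fun k => (⟨e k, (h1 k).1⟩ : c'.S), fun k => ⟨trivial, Subtype.ext (h1 k).2⟩,
      fun t' _ e' => (existsUnique_congr fun _ => exists_congr fun _ => and_congr_right fun _ =>
        Subtype.ext_iff).2 (h2 t'.1 t'.2 (congrArg Subtype.val e'))⟩⟩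

variable (he : h.toTS.IsEq h'.toTS m)

include he in
theorem isEq_mor : c.hS.toTS.IsEq c'.hS.toTS (c'.mor c hm) := fun s t => Subtype.ext (he s t.1)

/-- the restriction of the morphism of Borel constructions -/
noncomputable abbrev morB (M : ℕ) : Mor (c'.hS.toTS.B M) (c.hS.toTS.B M) :=
  (c'.isEq_mor c hm he).bo (pm σ M)

theorem inB_morB (M : ℕ) (x : (c'.hS.toTS.B M).X) :
    (c.inB M).map ((c'.morB c hm he M).map x) = (he.bo (pm σ M)).map ((c'.inB M).map x) := by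
  obtain ⟨x, rfl⟩ := (c'.hS.toTS.B M).surj x
  simp only [Mor.map_π]
  rfl

theorem isPr_morB (hp : IsPr (c'.mor c hm).map) (M : ℕ) : IsPr (c'.morB c hm he M).map := by
  obtain ⟨pr, h1, -⟩ := c.hS.toTS.exists_pr c.q_a
  refine ⟨(c'.morB c hm he M).map.continuous, fun C hC => c'.hS.toTS.isCompact_bo M
    (hp.pre _ (hC.image (pr M).continuous))
    (hC.isClosed.preimage (c'.morB c hm he M).map.continuous) fun x hx => ⟨_, hx, ?_⟩⟩
  rw [Mor.map_π, Mor.map_π, h1]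
  rfl

/-- the degree of the map of Borel constructions -/
theorem push_fundB (e : Imm m) (hb : ∀ s v, e.L (h'.b s v) = h.b s (e.L v)) (hn : c'.n = c.n)
    (hp : IsPr (c'.mor c hm).map) (M : ℕ) : ∃ n : (c.hS.toTS.B M).X → ℕ, IsLocallyConstant n ∧
      (∀ x, Cnt m c'.S x.1.1 (n ((c.hS.toTS.B M).π x))) ∧ push (c'.morB c hm he M).map
        (c'.hS.fundB M) = cap (hcls (fn fun x => (n x : ℂ))) (c.hS.fundB M) := by
  obtain ⟨n, h1, h2, h3⟩ := ((c'.imm c hm e).bo (c'.isEq_mor c hm he) hb M).push_fund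
    (congrArg (· + _) hn) (c'.isPr_morB c hm he hp M)
  exact ⟨n, h1, fun x => (c'.cnt_mor c hm).1
    ((Imm.cnt_bo (c'.isEq_mor c hm he) (B := univ) (pm σ M) x.2).1 (h2 x)), h3⟩

end FP

end Vale.Agent.P269.Loc
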