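import Vale.Agent.P269.Loc.Fix

/-!
# Semi-invariant functions, the localising cocycle
-/

set_option linter.unusedSectionVars false

namespace Vale.Agent.P269.Loc

open Set Function Topology Filter Module Vale.Agent.P291Z Vale.Agent.P269.Ch Vale.Agent.P269.Holo
  Vale.Agent.P269.Orb

variable {σ : Type} [Fintype σ]

/-- invariant under the group, semi-invariant of weight `w` under the compact torus -/
structure TS.IsSemi {Y : Ch.Sp} (a : TS σ Y) (w : σ → ℤ) (f : Y.T → ℂ) : Prop where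
  cont : Continuous f
  inv : ∀ (g : Y.G) t, f (g • t) = f t
  semi : ∀ s ∈ cpt σ, ∀ t, f (a.a s t) = chr w s * f t

namespace TS

variable {Y : Ch.Sp} (a : TS σ Y)

/-- the action on the orbit space -/
noncomputable def aX (s : Tor σ) (x : Y.X) : Y.X := Y.π (a.a s (Y.out x))

theorem aX_π (s : Tor σ) (t : Y.T) : a.aX s (Y.π t) = Y.π (a.a s t) := a.π_congr s (Y.π_out _)

theorem aX_one (x : Y.X) : a.aX 1 x = x := by rw [aX, a.one, Y.π_out]

theorem aX_mul (s s' : Tor σ) (x : Y.X) : a.aX (s * s') x = a.aX s (a.aX s' x) := by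
  rw [aX, a.mul, ← aX_π]
  rfl

theorem continuous_aX : Continuous fun p : Tor σ × Y.X => a.aX p.1 p.2 := by
  rw [← (IsOpenQuotientMap.id.prodMap Y.quo).continuous_comp_iff]
  exact (Y.cont.comp a.cont).congr fun p => (a.aX_π p.1 p.2).symm

variable {a} in
theorem isSemi_comp {w : σ → ℤ} {f : Y.X → ℂ} (hf : Continuous f)
    (h : ∀ s ∈ cpt σ, ∀ y, f (a.aX s y) = chr w s * f y) : a.IsSemi w fun t => f (Y.π t) :=
  ⟨hf.comp Y.cont, fun g t => by rw [Y.π_smul], fun s hs t => by rw [← aX_π, h s hs]⟩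

end TS

theorem TS.exists_isSemi {Y : Ch.Sp} (a : TS σ Y) {t : Y.T} (ht : t ∉ a.Fix) :
    ∃ w f, w ≠ 0 ∧ a.IsSemi w f ∧ f t ≠ 0 := by
  obtain ⟨w, f, h1, h2, h3, h4⟩ := exists_semi a.continuous_aX a.aX_one a.aX_mul (x := Y.π t) (by
    by_contra hn
    exact ht fun s hs => by_contra fun e => hn ⟨s, hs, by rwa [a.aX_π]⟩)
  exact ⟨w, _, h1, TS.isSemi_comp h2 h4, h3⟩

/-- a locally invariant function descends to the orbit space -/
theorem exists_desc (Y : Ch.Sp) {t : Y.T} {q : Y.T → ℂ} (hc : ∀ᶠ x in 𝓝 t, ContinuousAt q x)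
    (hi : ∀ᶠ p : Y.T × Y.T in 𝓝 (t, t), Y.π p.1 = Y.π p.2 → q p.1 = q p.2) :
    ∃ g : Y.X → ℂ, Continuous g ∧ ∀ᶠ x in 𝓝 t, g (Y.π x) = q x := by
  classical
  rw [nhds_prod_eq] at hi
  obtain ⟨N, ⟨h1, h2⟩, h3⟩ := (nhds_basis_opens t).prod_self.eventually_iff.1 hi
  obtain ⟨N', h4, h5, h6⟩ := eventually_nhds_iff.1 (hc.and (h2.mem_nhds h1))
  let F : Y.X → ℂ := fun y => if h : ∃ x ∈ N', Y.π x = y then q h.choose else 0
  have hF : ∀ x ∈ N', F (Y.π x) = q x := fun x hx => by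
    have h : ∃ x' ∈ N', Y.π x' = Y.π x := ⟨x, hx, rfl⟩
    simp only [F, dif_pos h]
    exact h3 (mk_mem_prod (h4 _ h.choose_spec.1).2 (h4 x hx).2) h.choose_spec.2
  obtain ⟨A, h7, h8, h9⟩ := exists_mem_nhds_isClosed_subset
    (Y.quo.isOpenMap.image_mem_nhds (h5.mem_nhds h6))
  have hA : ContinuousOn F A := fun y hy => by
    obtain ⟨x, hx, rfl⟩ := h9 hy
    refine ContinuousAt.continuousWithinAt ?_
    rw [ContinuousAt, ← Y.quo.map_nhds_eq, tendsto_map'_iff, hF x hx]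
    exact (h4 x hx).1.tendsto.congr' ((h5.eventually_mem hx).mono fun z hz => (hF z hz).symm)
  obtain ⟨g, hg⟩ := ContinuousMap.exists_restrict_eq h8 ⟨_, hA.domRestrict⟩
  refine ⟨g, g.continuous, ?_⟩
  filter_upwards [Y.cont.continuousAt.eventually h7, h5.mem_nhds h6] with x e1 e2
  exact (DFunLike.congr_fun hg ⟨_, e1⟩).trans (hF x e2)

/-- finitely many functionals, one of which vanishes at none of the given vectors -/
theorem exists_funcs (V Γ : Type) [AddCommGroup V] [Module ℂ V] [FiniteDimensional ℂ V] [Fintype Γ] :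
    ∃ (K : ℕ) (l : Fin K → V →ₗ[ℂ] ℂ), ∀ u : Γ → V, (∀ c, ∏ g, l c (u g) = 0) → ∃ g, u g = 0 := by
  let b := finBasis ℂ V
  let P : V →ₗ[ℂ] Polynomial ℂ := ∑ j, Polynomial.monomial j.1 ∘ₗ b.coord j
  have h1 : ∀ u, (P u).natDegree ≤ finrank ℂ V := fun u => by
    simp only [P, LinearMap.sum_apply, LinearMap.comp_apply]
    exact Polynomial.natDegree_sum_le_of_forall_le _ _ fun j _ =>
      (Polynomial.natDegree_monomial_le _).trans j.2.le
  have h2 : ∀ u, P u = 0 → u = 0 := fun u h => b.forall_coord_eq_zero_iff.1 fun j => by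
    simpa [P, Polynomial.coeff_monomial, Fin.val_inj] using congrArg (Polynomial.coeff · j) h
  refine ⟨Fintype.card Γ * finrank ℂ V + 1, fun c => Polynomial.leval ((c : ℕ) : ℂ) ∘ₗ P,
    fun u hu => ?_⟩
  have h3 := Polynomial.eq_zero_of_natDegree_lt_card_of_eval_eq_zero (∏ g, P (u g))
    (f := fun c : Fin (Fintype.card Γ * finrank ℂ V + 1) => ((c : ℕ) : ℂ))
    (fun c c' h => Fin.ext (Nat.cast_injective h)) (fun c => by
      rw [Polynomial.eval_prod]; exact hu c) (by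
      rw [Fintype.card_fin, Nat.lt_succ_iff]
      exact (Polynomial.natDegree_prod_le _ _).trans
        (Finset.sum_le_card_nsmul _ _ _ fun g _ => h1 _))
  obtain ⟨g, -, hg⟩ := Finset.prod_eq_zero_iff.1 h3
  exact ⟨g, h2 _ hg⟩

theorem TH.IsES.exists_ext {Y : HO} {h : TH σ Y} {d : Dat σ Y.G} (hw : Wtd (h.τ d)) {t : Y.T}
    {E : Submodule ℂ Y.A} {φ : Y.A → Y.T} (e : h.IsES d t E φ) {p : Y.A → ℂ} (hp : Continuous p)
    (hi : ∀ g : Y.G, g • t = t → ∀ v, p (g • v) = p v) {w : σ → ℤ}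
    (hs : ∀ s v, p (h.τ d s v) = chr w s * p v) :
    ∃ f, h.toTS.IsSemi w f ∧ ∀ᶠ v : E in 𝓝 0, f (φ v) = p v ^ d.m := by
  obtain ⟨ω, w1, w2, w3, w4, -⟩ := e.slk.exists_inv Y.exp
  simp only [ZeroMemClass.coe_zero, e.zero] at w1 w2 w4
  have c0 : Tendsto (fun v : E => φ v) (𝓝 0) (𝓝 t) := by
    have := e.slk.1.cont.tendsto.comp (Continuous.tendsto' (f := fun v : E => ((0 : Y.L), v))
      (by fun_prop) 0 _ rfl)
    simpa only [comp_def, Y.exp.zero, one_smul, ZeroMemClass.coe_zero, e.zero] using this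
  have c1 : ∀ᶠ x in 𝓝 t, ContinuousAt (fun x => (ω (Y.ι x)).2) x :=
    (Y.emb.continuous.continuousAt.eventually w1.eventually_continuousAt).mono fun x hx =>
      (hx.comp Y.emb.continuous.continuousAt).snd
  have c2 : Tendsto (fun x => (ω (Y.ι x)).2) (𝓝 t) (𝓝 0) := by
    simpa only [w2] using c1.self_of_nhds.tendsto
  obtain ⟨g, g1, g2⟩ := exists_desc Y.toSp (t := t) (q := fun x => p (ω (Y.ι x)).2 ^ d.m)
    (c1.mono fun x hx => ((hp.comp continuous_subtype_val).continuousAt.comp hx).pow _) (by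
      filter_upwards [(continuous_fst.tendsto _).eventually w4, (continuous_snd.tendsto _).eventually
        w4, ((c2.comp (continuous_fst.tendsto (t, t))).prodMk_nhds
          (c2.comp (continuous_snd.tendsto (t, t)))).eventually e.orb] with x e1 e2 e3 e4
      rw [← e1, ← e2, Y.π_smul, Y.π_smul] at e4
      obtain ⟨k, hk⟩ := (Y.fib _ _).1 e4
      obtain ⟨k1, k2⟩ := e3 k hk
      rw [← hi k k1]
      exact congrArg (fun v => p v ^ d.m) k2)
  have g3 : ∀ᶠ v : E in 𝓝 0, g (Y.π (φ v)) = p v ^ d.m := by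
    filter_upwards [c0.eventually g2, (Continuous.tendsto' (f := fun v : E => ((0 : Y.L), v))
      (by fun_prop) 0 _ rfl).eventually w3] with v e1 e2
    rw [Y.exp.zero, one_smul] at e2
    rw [e1, e2]
  have g4 : ∀ᶠ v : E in 𝓝 0, ∀ u ∈ cpt σ,
      g (Y.π (φ (h.τ d u v))) = p (h.τ d u v) ^ d.m :=
    isCompact_cpt.eventually_forall_of_forall_eventually fun u _ => (Continuous.tendsto'
      (f := fun z : E × Tor σ => (⟨h.τ d z.2 z.1, e.τ_mem _ _ z.1.2⟩ : E))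
      ((hw.continuous.comp (f := fun z : E × Tor σ => (z.2, (z.1 : Y.A)))
        (by fun_prop)).subtype_mk _) (0, u) 0 (Subtype.ext (map_zero _))).eventually g3
  obtain ⟨f, f1, f2, f3⟩ := exists_semi_avg h.toTS.continuous_aX h.toTS.aX_mul g1 w
  refine ⟨_, TS.isSemi_comp f1 f2, ?_⟩
  filter_upwards [g3, g4, e.tw] with v e1 e2 e3
  refine (f3 _ fun s hs' => ?_).trans e1
  obtain ⟨u, rfl⟩ := exists_pow_eq d.hm s
  have hu := mem_cpt_of_pow d.hm hs'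
  rw [TS.aX_π, e3 u hu, Y.π_smul, e2 u hu, e1, hs, mul_pow, map_pow, Units.val_pow_eq_pow_val]

theorem TH.IsES.exists_isSemi {Y : HO} {h : TH σ Y} {d : Dat σ Y.G} (hw : Wtd (h.τ d)) {t : Y.T}
    (ht : t ∈ h.toTS.Fx d) {E : Submodule ℂ Y.A} {φ : Y.A → Y.T} (e : h.IsES d t E φ) :
    ∃ (N : ℕ) (w : Fin N → σ → ℤ) (f : Fin N → Y.T → ℂ), (∀ i, w i ≠ 0 ∧ h.toTS.IsSemi (w i) (f i)) ∧
      ∀ᶠ x in 𝓝 t, (∀ i, f i x = 0) → x ∈ h.toTS.Fix := by
  classical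
  let Γ := MulAction.stabilizer Y.G t
  let : Fintype Γ := Fintype.ofFinite _
  obtain ⟨W, hW⟩ := exists_wts (h.τ d)
  obtain ⟨K, l, hl⟩ := exists_funcs Y.A Γ
  have hc : ∀ g : Y.G, g • t = t → ∀ w v, wpr (h.τ d) w (g • v) = g • wpr (h.τ d) w v :=
    fun g hg w v => (hw.map_wpr hw (f := DistribSMul.toLinearMap ℂ Y.A g) (fun w v hv =>
      map_mem_wsp (fun s v => (h.tanV.τ_comm d (TS.commute_of_fx ht (hg.symm ▸ ht)) s v).symm) hv)
        w v).symm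
  choose f f1 f2 using fun i : {w // w ∈ W.erase 0} × Fin K => e.exists_ext hw
    (p := fun v => ∏ g : Γ, l i.2 (g.1 • wpr (h.τ d) i.1 v)) (w := Fintype.card Γ • i.1.1)
    (continuous_finsetProd _ fun g _ => (l i.2).continuous_of_finiteDimensional.comp
      ((wpr (h.τ d) i.1).continuous_of_finiteDimensional.const_smul _))
    (fun g hg v => by
      simp only [hc g hg, smul_smul]
      exact Equiv.prod_comp (Equiv.mulRight (⟨g, hg⟩ : Γ)) fun k => l i.2 (k.1 • wpr (h.τ d) i.1 v))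
    fun s v => by
      simp only [hw.wpr_apply, smul_comm _ (chr i.1.1 s : ℂ), map_smul, smul_eq_mul,
        Finset.prod_mul_distrib, Finset.prod_const, Finset.card_univ, chr_nsmul,
        Units.val_pow_eq_pow_val]
  obtain ⟨ω, w1, w2, -, w4, -⟩ := e.slk.exists_inv Y.exp
  simp only [ZeroMemClass.coe_zero, e.zero] at w1 w2 w4
  have c2 : Tendsto (fun x => (ω (Y.ι x)).2) (𝓝 t) (𝓝 0) := by
    simpa only [comp_apply, w2] using (w1.continuousAt.comp Y.emb.continuous.continuousAt).snd.tendsto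
  have key : ∀ᶠ x in 𝓝 t, (∀ i, f i x = 0) → x ∈ h.toTS.Fix := by
    filter_upwards [w4, c2.eventually (eventually_all.2 f2), c2.eventually e.tw] with x e1 e2 e3 e4
    generalize (ω (Y.ι x)).2 = v at e1 e2 e3
    have h1 : ∀ w, w ≠ 0 → wpr (h.τ d) w v = 0 := fun w hw0 => by
      by_cases hm : w ∈ W
      · obtain ⟨g, hg⟩ := hl (fun g => g.1 • wpr (h.τ d) w v) fun c => by
          have := e4 (⟨w, Finset.mem_erase.2 ⟨hw0, hm⟩⟩, c)
          rw [← e1, (f1 _).inv, e2] at this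
          exact eq_zero_of_pow_eq_zero this
        exact (smul_eq_zero_iff_eq _).1 hg
      · exact (Submodule.mem_bot ℂ).1 (hW w hm ▸ hw.wpr_mem w v)
    have h2 : (v : Y.A) ∈ wsp (h.τ d) 0 := hw.wpr_eq_iff.1 (hw.ext_wpr fun w => by
      by_cases h0 : w = 0
      · rw [h0, hw.wpr_wpr]
      · rw [h1 w h0, hw.wpr_of_ne (Ne.symm h0) (hw.wpr_mem 0 v)])
    rw [← e1]
    refine TS.smul_mem_fix (fun s hs => ?_) _
    obtain ⟨u, rfl⟩ := exists_pow_eq d.hm s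
    rw [e3 u (mem_cpt_of_pow d.hm hs), Y.π_smul, mem_wsp_zero.1 h2]
  let q := Fintype.equivFin ({w // w ∈ W.erase 0} × Fin K)
  refine ⟨_, fun i => Fintype.card Γ • (q.symm i).1.1, fun i => f (q.symm i),
    fun i => ⟨smul_ne_zero Fintype.card_ne_zero (Finset.ne_of_mem_erase (q.symm i).1.2), f1 _⟩,
    key.mono fun x hx h0 => hx fun i => ?_⟩
  simpa using h0 (q i)

theorem TS.exists_isSemi_fam {Y : Ch.Sp} (a : TS σ Y) {C : Set Y.X} (hC : IsCompact C)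
    (hl : ∀ t ∈ a.Fix, Y.π t ∈ C → ∃ (N : ℕ) (w : Fin N → σ → ℤ) (f : Fin N → Y.T → ℂ),
      (∀ i, w i ≠ 0 ∧ a.IsSemi (w i) (f i)) ∧ ∀ᶠ x in 𝓝 t, (∀ i, f i x = 0) → x ∈ a.Fix) :
    ∃ (N : ℕ) (w : Fin N → σ → ℤ) (f : Fin N → Y.T → ℂ), (∀ i, w i ≠ 0 ∧ a.IsSemi (w i) (f i)) ∧
      ∀ t, Y.π t ∈ C → (∀ i, f i t = 0) → t ∈ a.Fix := by
  refine hC.induction_on (p := fun C => ∃ (N : ℕ) (w : Fin N → σ → ℤ) (f : Fin N → Y.T → ℂ),
    (∀ i, w i ≠ 0 ∧ a.IsSemi (w i) (f i)) ∧ ∀ t, Y.π t ∈ C → (∀ i, f i t = 0) → t ∈ a.Fix)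
    ⟨0, Fin.elim0, Fin.elim0, fun i => i.elim0, fun _ h => h.elim⟩
    (fun _ _ h ⟨N, w, f, h1, h2⟩ => ⟨N, w, f, h1, fun t ht => h2 t (h ht)⟩)
    (fun _ _ ⟨N, w, f, h1, h2⟩ ⟨N', w', f', h3, h4⟩ => ⟨N + N', Fin.append w w', Fin.append f f',
      fun i => Fin.addCases (fun i => by simpa using h1 i) (fun i => by simpa using h3 i) i,
      fun t ht h0 => ht.elim (h2 t · fun i => by simpa using h0 (Fin.castAdd N' i))
        (h4 t · fun i => by simpa using h0 (Fin.natAdd N i))⟩) fun y hy => ?_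
  obtain ⟨t, rfl⟩ := Y.surj y
  obtain ⟨N, w, f, h1, h2⟩ : ∃ (N : ℕ) (w : Fin N → σ → ℤ) (f : Fin N → Y.T → ℂ),
      (∀ i, w i ≠ 0 ∧ a.IsSemi (w i) (f i)) ∧ ∀ᶠ x in 𝓝 t, (∀ i, f i x = 0) → x ∈ a.Fix := by
    by_cases ht : t ∈ a.Fix
    · exact hl t ht hy
    · obtain ⟨w, f, h1, h2, h3⟩ := a.exists_isSemi ht
      exact ⟨1, fun _ => w, fun _ => f, fun _ => ⟨h1, h2⟩,
        (h2.cont.continuousAt.eventually_ne h3).mono fun x hx h0 => (hx (h0 0)).elim⟩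
  refine ⟨_, mem_nhdsWithin_of_mem_nhds (Y.quo.isOpenMap.image_mem_nhds h2), N, w, f, h1, ?_⟩
  rintro t' ⟨x, hx, e⟩ h0
  obtain ⟨g, rfl⟩ := (Y.fib _ _).1 e
  exact TS.smul_mem_fix (hx fun i => ((h1 i).2.inv g x).symm.trans (h0 i)) g

theorem TS.exists_loc_cocycle {Y : Ch.Sp} (a : TS σ Y) {C : Set Y.T}
    (hC : ∀ s, ∀ t ∈ C, a.a s t ∈ C) {N : ℕ} {w : Fin N → σ → ℤ} {f : Fin N → Y.T → ℂ}
    (hf : ∀ i, a.IsSemi (w i) (f i)) (h0 : ∀ t ∈ C, (∀ i, f i t = 0) → t ∈ a.Fix) (M : ℕ) :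
    ∃ (A : Set (a.B M).X) (u : Coch (a.B M).X), IsCo A N u ∧ hcls u = a.e M (∏ i, lin (w i)) ∧
      ∀ x : (a.B M).T, (a.B M).π x ∈ A → x.1 ∈ C → x.1 ∈ a.Fix := by
  have hs : (chars fun i => a.ch (pm σ M) (w i)).IsSec fun x i =>
      chr (w i) (PM.nrm x.2) * f i (a.a (PM.nrm x.2)⁻¹ x.1) := by
    refine ⟨fun _ => trivial, continuous_pi fun i => Continuous.mul
      ((continuous_coe_chr _).comp (PM.continuous_nrm.comp continuous_snd)) ((hf i).cont.comp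
        (show Continuous fun x : Y.T × PM σ M => a.a (PM.nrm x.2)⁻¹ x.1 by fun_prop)),
      fun k x => funext fun i => ?_⟩
    change (chr (w i) (PM.nrm (k.2 • x.2)) : ℂ) * f i (a.a (PM.nrm (k.2 • x.2))⁻¹
      (k.1 • a.a k.2 x.1)) = chr (w i) k.2 * (chr (w i) (PM.nrm x.2) * f i (a.a (PM.nrm x.2)⁻¹ x.1))
    rw [PM.nrm_smul, a.comm, (hf i).inv, ← a.mul, mul_inv, mul_right_comm, a.mul,
      (hf i).semi _ (mul_absT_mem _), ← mul_assoc, ← mul_assoc, ← Units.val_mul, ← Units.val_mul,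
      ← map_mul, ← map_mul, mul_comm (absT _), mul_assoc, mul_inv_cancel_left, mul_comm k.2]
  have hi := hs.isCo
  rw [show (chars fun i => a.ch (pm σ M) (w i)).r = N from Fintype.card_fin N] at hi
  refine ⟨_, _, hi, ?_, fun x hx hx' => ?_⟩
  · rw [hs.hcls_eul, eu_chars, e_apply, map_prod]
    simp only [ev_lin]
  · have h1 := a_mem_fix (h0 _ (hC (PM.nrm x.2)⁻¹ _ hx') fun i =>
      (mul_eq_zero.1 (congrFun (hs.mem_zeros.1 hx) i)).resolve_left (Units.ne_zero _)) (PM.nrm x.2)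
    rwa [a.a_inv] at h1

end Vale.Agent.P269.Loc
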