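import Vale.Agent.P269.Loc.Lam

/-!
# Weight bundles over a space with trivial torus action
-/

set_option linter.unusedSectionVars false

namespace Vale.Agent.P269.Loc

open Set Function Topology Filter Module TensorProduct Vale.Agent.P291Z Vale.Agent.P269.Ch
  Vale.Agent.P269.Orb

variable {σ : Type} [Fintype σ] {F : Ch.Sp}

/-- the Euler class of a direct sum of finitely many subbundles -/
theorem eu_eq_prod {J : Type} [Fintype J] {E : VB F} {N : J → VB F}
    {A : ∀ j, F.T → (N j).W →ₗ[ℂ] E.W} (hA : ∀ j, Hom (Mor.id F) (N j) E (A j))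
    (span : ∀ t, E.F t ≤ ⨆ j, ((N j).F t).map (A j t)) (hr : E.r = ∑ j, (N j).r) :
    E.eu = ∏ j, (N j).eu := by
  obtain ⟨Y, m, hm, h⟩ := exists_fr_fam N
  choose χ v h using h
  have e : Fr (E.pb m) (fun x : Σ j, Fin (N j).r => χ x.1 x.2)
      fun x t => A x.1 (m.f t) (v x.1 x.2 t) := by
    refine Fr.of_span (fun x => (hA x.1).continuous m.cf ((h x.1).cont x.2) ((h x.1).mem x.2))
      (fun x g t => ?_) (fun t => le_antisymm (Submodule.span_le.2 ?_) ((span _).trans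
        (iSup_le fun j => ?_))) (by simp [hr, VB.pb, VB.ofLin])
    · have := ((hA x.1).pb' m).eqv g t _ ((h x.1).mem x.2 t)
      rw [(h x.1).eqv] at this
      exact this.symm.trans (map_smul (A x.1 (m.f (g • t))) _ _)
    · rintro _ ⟨x, rfl⟩
      exact (hA x.1).mem _ _ ((h x.1).mem x.2 t)
    · have e : (N j).F (m.f t) = Submodule.span ℂ (range fun i => v j i t) := ((h j).span t).symm
      rw [e, Submodule.map_span, ← range_comp]
      exact Submodule.span_mono (range_subset_iff.2 fun i => ⟨⟨j, i⟩, rfl⟩)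
  refine Hev.map_injective hm ?_
  rw [← VB.eu_pb, e.eu, map_prod, Fintype.prod_sigma]
  exact Finset.prod_congr rfl fun j _ => by rw [← VB.eu_pb, (h j).eu]

theorem InvUp.map {A A' : Type} [Ring A] [Algebra ℂ A] [Ring A'] [Algebra ℂ A'] {S : Set (R σ)}
    {n : R σ ⊗[ℂ] A} (h : InvUp S n) (φ : A →ₐ[ℂ] A') :
    InvUp S (Algebra.TensorProduct.map (AlgHom.id ℂ _) φ n) := by
  obtain ⟨n', q, hq, h1, h2⟩ := h
  exact ⟨Algebra.TensorProduct.map (AlgHom.id ℂ _) φ n', q, hq, by simp [← map_mul, h1],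
    by simp [← map_mul, h2]⟩

/-- evaluation of a polynomial at `w / m` -/
noncomputable def ew (A : Type) [CommRing A] [Algebra ℂ A] (m : ℕ) (w : σ → ℤ) :
    Polynomial A →+* R σ ⊗[ℂ] A :=
  Polynomial.eval₂RingHom (Algebra.TensorProduct.includeRight (R := ℂ)).toRingHom
    (((m : ℂ)⁻¹ • lin w) ⊗ₜ 1)

theorem ew_C {A : Type} [CommRing A] [Algebra ℂ A] (m : ℕ) (w : σ → ℤ) (a : A) :
    ew A m w (Polynomial.C a) = 1 ⊗ₜ a := Polynomial.eval₂_C _ _

theorem ew_X {A : Type} [CommRing A] [Algebra ℂ A] (m : ℕ) (w : σ → ℤ) :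
    ew A m w Polynomial.X = ((m : ℂ)⁻¹ • lin w) ⊗ₜ 1 := Polynomial.eval₂_X _ _

theorem invUp_ew {A : Type} [CommRing A] [Algebra ℂ A] {m : ℕ} (hm : m ≠ 0) (w : σ → ℤ)
    {P : Polynomial A} {r : ℕ} (h : Mon r P) (hn : ∀ j < r, IsNilpotent (P.coeff j)) :
    InvUp {lin w} (ew A m w P) := by
  have e : P = Polynomial.X ^ r + ∑ j ∈ Finset.range r, Polynomial.C (P.coeff j) * Polynomial.X ^ j := by
    conv_lhs => rw [P.as_sum_range_C_mul_X_pow' (Nat.lt_succ_of_le h.le), Finset.sum_range_succ,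
      h.coeff, map_one, one_mul, add_comm]
  have e2 := congrArg (ew A m w) e
  rw [map_add, map_pow, ew_X, Algebra.TensorProduct.tmul_pow, one_pow, smul_pow] at e2
  rw [e2]
  refine invUp_add (pow_mem (Submonoid.subset_closure (mem_singleton _)) r)
    (pow_ne_zero _ (inv_ne_zero (Nat.cast_ne_zero.2 hm))) ?_
  rw [map_sum]
  refine isNilpotent_sum fun j hj => ?_
  rw [map_mul, ew_C]
  exact (Commute.all _ _).isNilpotent_mul_right
    ((hn j (Finset.mem_range.1 hj)).map (Algebra.TensorProduct.includeRight (R := ℂ) (A := R σ)))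

/-- the projection of the Borel construction of a trivial action -/
noncomputable def prB (F : Ch.Sp) (P : PS σ) : Mor ((TS.triv σ F).bo P) F :=
  ⟨MonoidHom.fst _ _, Prod.fst, continuous_fst, continuous_fst, fun _ _ => rfl⟩

namespace TV

variable {E : VB F} (b : TV (TS.triv σ F) E)

theorem wpr_mem (h : Wtd b.b) (w : σ → ℤ) {t : F.T} {v : E.W} (hv : v ∈ E.F t) :
    wpr b.b w v ∈ E.F t := h.wpr_mem_of_gen (b.inv _ t) w hv

theorem smul_mem_wsp {w : σ → ℤ} {v : E.W} (hv : v ∈ wsp b.b w) (g : F.G) : g • v ∈ wsp b.b w :=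
  fun s => by rw [b.comm, hv s, smul_comm]

theorem wpr_smul (h : Wtd b.b) (w : σ → ℤ) (g : F.G) (v : E.W) :
    wpr b.b w (g • v) = g • wpr b.b w v :=
  (h.map_wpr h (f := DistribSMul.toLinearMap ℂ E.W g)
    (fun _ _ hv => b.smul_mem_wsp hv g) w v).symm

/-- the weight subbundles have constant rank -/
structure Rk where
  /-- the ranks -/
  r : (σ → ℤ) → ℕ
  /-- the nonzero weights -/
  W : Finset (σ → ℤ)
  wtd : Wtd b.b
  rank : ∀ w t, finrank ℂ (E.F t ⊓ wsp b.b w : Submodule ℂ E.W) = r w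
  zero : 0 ∉ W
  out : ∀ w ∉ W, w ≠ 0 → r w = 0

theorem isClosed_inf (E : VB F) (U : Submodule ℂ E.W) :
    IsClosed {x : F.T × E.W | x.2 ∈ E.F x.1 ⊓ U} :=
  E.closed.inter (U.closed_of_finiteDimensional.preimage continuous_snd)

namespace Rk

variable {b} (k : b.Rk)

theorem ne {w : σ → ℤ} (hw : w ∈ k.W) : w ≠ 0 := fun e => k.zero (e ▸ hw)

theorem wpr_eq_zero {w : σ → ℤ} (hw : w ∉ k.W) (h0 : w ≠ 0) {t : F.T} {v : E.W}
    (hv : v ∈ E.F t) : wpr b.b w v = 0 := by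
  have := Submodule.finrank_eq_zero.1 ((k.rank w t).trans (k.out w hw h0))
  exact this.le ⟨b.wpr_mem k.wtd w hv, k.wtd.wpr_mem w v⟩

theorem sum_wpr {t : F.T} {v : E.W} (hv : v ∈ E.F t) :
    wpr b.b 0 v + ∑ w ∈ k.W, wpr b.b w v = v := by
  classical
  obtain ⟨W, hW⟩ := exists_wts b.b
  rw [← Finset.sum_insert (f := fun w => wpr b.b w v) k.zero,
    Finset.sum_subset Finset.subset_union_left (s₂ := insert 0 k.W ∪ W) fun w _ hw =>
      k.wpr_eq_zero (fun h => hw (Finset.mem_insert_of_mem h))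
        (fun e => hw (e ▸ Finset.mem_insert_self _ _)) hv]
  exact k.wtd.sum_wpr (fun w hw => hW w fun h => hw (Finset.mem_union_right _ h)) v

theorem finrank_aux {U : Submodule ℂ E.W} (hU : ∀ w, ∀ v ∈ U, wpr b.b w v ∈ U) {t : F.T}
    (h : U ≤ E.F t) : finrank ℂ U = finrank ℂ (U ⊓ wsp b.b 0 : Submodule ℂ E.W) +
      ∑ w ∈ k.W, finrank ℂ (U ⊓ wsp b.b w : Submodule ℂ E.W) := by
  classical
  obtain ⟨W, hW⟩ := exists_wts b.b
  rw [← Finset.sum_insert (f := fun w => finrank ℂ (U ⊓ wsp b.b w : Submodule ℂ E.W)) k.zero,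
    Finset.sum_subset Finset.subset_union_left (s₂ := insert 0 k.W ∪ W) fun w _ hw =>
      Nat.le_zero.1 ((Submodule.finrank_mono (inf_le_inf_right _ h)).trans_eq ((k.rank w t).trans
        (k.out w (fun h => hw (Finset.mem_insert_of_mem h))
          fun e => hw (e ▸ Finset.mem_insert_self _ _))))]
  exact finrank_eq_sum k.wtd (fun w hw => hW w fun h => hw (Finset.mem_union_right _ h)) hU

theorem rank_eq (t : F.T) : E.r = k.r 0 + ∑ w ∈ k.W, k.r w := by
  rw [← E.rank t, k.finrank_aux (fun w _ hv => b.wpr_mem k.wtd w hv) le_rfl]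
  simp only [k.rank]

theorem rank_mov (t : F.T) :
    finrank ℂ (E.F t ⊓ mov b.b : Submodule ℂ E.W) = ∑ w ∈ k.W, k.r w := by
  rw [k.finrank_aux (t := t) (U := E.F t ⊓ mov b.b) (fun w v hv => ⟨b.wpr_mem k.wtd w hv.1, ?_⟩)
    inf_le_left,
    Submodule.finrank_eq_zero.2 (eq_bot_iff.2 fun v hv => ?_), zero_add]
  · exact Finset.sum_congr rfl fun w hw => by
      rw [inf_assoc, inf_of_le_right (wsp_le_mov _ (k.ne hw)), k.rank]
  · exact (k.wtd.wpr_of_mem hv.2).symm.trans (k.wtd.mem_mov.1 hv.1.2)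
  · by_cases hw : w = 0
    · rw [hw, k.wtd.mem_mov.1 hv.2]
      exact zero_mem _
    · exact wsp_le_mov _ hw (k.wtd.wpr_mem w v)

/-- the subbundle of weight `w` -/
@[reducible] noncomputable def wb (w : σ → ℤ) : VB F :=
  E.sub (fun t => E.F t ⊓ wsp b.b w) (k.r w) (isClosed_inf E _) (k.rank w)
    fun g t v h => ⟨E.inv g t v h.1, b.smul_mem_wsp h.2 g⟩

/-- the moving part -/
@[reducible] noncomputable def mv : VB F :=
  E.sub (fun t => E.F t ⊓ mov b.b) (∑ w ∈ k.W, k.r w) (isClosed_inf E _) k.rank_mov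
    fun g t v h => ⟨E.inv g t v h.1, k.wtd.mem_mov.2 (by
      rw [b.wpr_smul k.wtd, k.wtd.mem_mov.1 h.2, smul_zero])⟩

/-- the action on the moving part -/
@[reducible] noncomputable def tm : TV (TS.triv σ F) k.mv :=
  b.sub fun s t v h => ⟨b.inv s t v h.1, k.wtd.mem_mov.2 (by
    rw [k.wtd.wpr_apply, k.wtd.mem_mov.1 h.2, smul_zero])⟩

/-- the equivariant Euler class of the moving part -/
noncomputable def eqc (m : ℕ) : R σ ⊗[ℂ] Hev F.X := ∏ w ∈ k.W, ew _ m w (k.wb w).chern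

theorem invUp_eqc {m : ℕ} (hm : m ≠ 0) {N : ℤ} (hN : ∀ j c, H.IsDeg j c → N < j → (c : H F.X) = 0) :
    InvUp (lin '' k.W) (k.eqc m) := by
  refine Finset.prod_induction _ _ (fun _ _ => InvUp.mul) (invUp_one _) fun w hw =>
    (invUp_ew hm w (k.wb w).chern_mon fun j hj => ⟨N.toNat + 1, Subtype.ext (hN _ _
      (Hev.pow_deg ((k.wb w).chern_deg j) _) ?_)⟩).mono (singleton_subset_iff.2 ⟨w, hw, rfl⟩)
  have : (1 : ℤ) ≤ (k.wb w).r - j := by omega
  push_cast
  nlinarith [Int.self_le_toNat N, Int.natCast_nonneg N.toNat]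

variable (P : PS σ)

theorem hom_wb (w : σ → ℤ) :
    Hom (Mor.id _) ((k.wb w).tw (prB F P) ((TS.triv σ F).ch P w)) (b.bo P) fun _ => LinearMap.id :=
  Hom.of_continuous (fun _ _ h => h.1) continuous_snd fun (g : F.G × Tor σ) _ (v : E.W) h =>
    show (chr w g.2 : ℂ) • g.1 • v = g.1 • b.b g.2 v by rw [h.2 g.2, smul_comm g.1]

variable {P} {m : ℕ} {ev : R σ →ₐ[ℂ] Hev ((TS.triv σ F).bo P).X}
  (hev : ∀ w, ev ((m : ℂ)⁻¹ • lin w) = c1 ((TS.triv σ F).ch P w))

/-- evaluation in the cohomology of the Borel construction -/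
noncomputable def _root_.Vale.Agent.P269.Loc.evB (ev : R σ →ₐ[ℂ] Hev ((TS.triv σ F).bo P).X) :
    R σ ⊗[ℂ] Hev F.X →ₐ[ℂ] Hev ((TS.triv σ F).bo P).X :=
  Algebra.TensorProduct.lift ev (Hev.map (prB F P).map) fun _ _ => Commute.all _ _

include hev

theorem evB_ew (w : σ → ℤ) (p : Polynomial (Hev F.X)) :
    evB ev (ew _ m w p) = evP (prB F P).map (c1 ((TS.triv σ F).ch P w)) p :=
  DFunLike.congr_fun (Polynomial.ringHom_ext (f := (evB ev).toRingHom.comp (ew _ m w))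
    (g := evP (prB F P).map (c1 ((TS.triv σ F).ch P w)))
    (fun a => by
      change evB ev (ew _ m w _) = _
      rw [ew_C, evP_C, evB, Algebra.TensorProduct.lift_tmul, map_one, one_mul])
    (by
      change evB ev (ew _ m w _) = _
      rw [ew_X, evP_X, evB, Algebra.TensorProduct.lift_tmul, map_one, mul_one, hev])) p

/-- **the Euler class of the moving part** -/
theorem eu_mv : (k.tm.bo P).eu = evB ev (k.eqc m) := by
  rw [eqc, map_prod, ← Finset.prod_coe_sort, eu_eq_prod (E := k.tm.bo P)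
    (N := fun w : k.W => (k.wb w).tw (prB F P) ((TS.triv σ F).ch P w))
    (A := fun _ _ => LinearMap.id) (fun w => ⟨fun _ _ h => ⟨h.1, wsp_le_mov _ (k.ne w.2) h.2⟩,
      continuous_snd.comp continuous_subtype_val, (k.hom_wb P w).eqv⟩) (fun x v hv => ?_)
      (Finset.sum_coe_sort k.W k.r).symm]
  · exact Finset.prod_congr rfl fun w _ => by rw [VB.eu_tw, evB_ew hev]
  · have := k.sum_wpr hv.1
    rw [k.wtd.mem_mov.1 hv.2, zero_add, ← Finset.sum_coe_sort] at this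
    rw [← this]
    exact Submodule.sum_mem _ fun w _ => Submodule.mem_iSup_of_mem w
      ⟨_, ⟨b.wpr_mem k.wtd _ hv.1, k.wtd.wpr_mem _ v⟩, rfl⟩

omit hev in
theorem exact_mv : Exact ((k.wb 0).pb (prB F P)) (b.bo P) (k.tm.bo P) (fun _ => LinearMap.id)
    fun _ => LinearMap.id - wpr b.b 0 := by
  refine ⟨Hom.of_continuous (fun _ _ h => h.1) continuous_snd fun g _ v h => ?_,
    Hom.of_continuous (fun _ v h => ⟨sub_mem h (b.wpr_mem k.wtd 0 h), k.wtd.sub_wpr_mem v⟩)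
      ((LinearMap.id - wpr b.b 0 : E.W →ₗ[ℂ] E.W).continuous_of_finiteDimensional.comp
        continuous_snd) fun (g : F.G × Tor σ) _ (v : E.W) _ => ?_, fun _ _ _ h => h,
    fun _ v h => ⟨v, h.1, (congrArg (v - ·) (k.wtd.mem_mov.1 h.2)).trans (sub_zero _)⟩,
    fun _ v h => ⟨fun e => ⟨v, ⟨h, k.wtd.wpr_eq_iff.1 (sub_eq_zero.1 e).symm⟩, rfl⟩, ?_⟩⟩
  · exact congrArg (g.1 • ·) (mem_wsp_zero.1 h.2 g.2).symm
  · change g.1 • b.b g.2 v - wpr b.b 0 (g.1 • b.b g.2 v) = g.1 • b.b g.2 (v - wpr b.b 0 v)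
    rw [b.wpr_smul k.wtd, map_sub, smul_sub, k.wtd.apply_wpr]
  · rintro ⟨w, hw, rfl⟩
    exact sub_eq_zero.2 (k.wtd.wpr_of_mem hw.2).symm

/-- **the Euler class of the whole bundle** -/
theorem eu_bo : (b.bo P).eu = evB ev ((1 ⊗ₜ (k.wb 0).eu) * k.eqc m) := by
  rw [(k.exact_mv (P := P)).eu, VB.eu_pb, k.eu_mv hev, map_mul, evB,
    Algebra.TensorProduct.lift_tmul, map_one, one_mul]

end Rk

end TV

theorem evT_map {P : PS σ} (ev : R σ →ₐ[ℂ] Hev ((TS.triv σ F).bo P).X) {A B : Type} [Ring A]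
    [Algebra ℂ A] [Ring B] [Algebra ℂ B] {e : R σ →ₐ[ℂ] B} {he : ∀ f b, b * e f = e f * b}
    {pr : A →ₐ[ℂ] B} {φ : Hev F.X →ₐ[ℂ] A} {ψ : Hev ((TS.triv σ F).bo P).X →ₐ[ℂ] B}
    (h1 : ∀ f, ψ (ev f) = e f) (h2 : ∀ a, ψ (Hev.map (prB F P).map a) = pr (φ a))
    (x : R σ ⊗[ℂ] Hev F.X) :
    evT e he pr (Algebra.TensorProduct.map (AlgHom.id ℂ _) φ x) = ψ (evB ev x) := by
  induction x with
  | zero => simp
  | tmul f a =>
    rw [Algebra.TensorProduct.map_tmul, evT_tmul, evB, Algebra.TensorProduct.lift_tmul, map_mul,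
      h1, h2, AlgHom.id_apply]
  | add x y hx hy => rw [map_add, map_add, hx, hy, map_add, map_add]

end Vale.Agent.P269.Loc
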